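import Vale.Agent.P184.ExactDefs

/-!
Permanence properties of amenability of discrete groups: abelian groups, subgroups, extensions.
-/

namespace Vale.Agent.P184

open Filter Topology

/-- An invariant mean of a function bounded by C is bounded by C. -/
lemma mean_abs_le {G : Type*} {m : (G → ℝ) → ℝ} (h1 : m (fun _ => 1) = 1)
    (hadd : ∀ f g : G → ℝ, (∃ C, ∀ x, |f x| ≤ C) → (∃ C, ∀ x, |g x| ≤ C) →
      m (fun x => f x + g x) = m f + m g)
    (hsmul : ∀ (c : ℝ) (f : G → ℝ), (∃ C, ∀ x, |f x| ≤ C) → m (fun x => c * f x) = c * m f)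
    (hpos : ∀ f : G → ℝ, (∃ C, ∀ x, |f x| ≤ C) → (∀ x, 0 ≤ f x) → 0 ≤ m f)
    (f : G → ℝ) (C : ℝ) (hC : ∀ x, |f x| ≤ C) : |m f| ≤ C := by
  have hconst : m (fun _ => C) = C := by
    have h := hsmul C (fun _ => 1) ⟨1, fun _ => by simp⟩
    simpa [h1] using h
  have key : ∀ s : ℝ, |s| = 1 → 0 ≤ C + s * m f := by
    intro s hs
    have hb : ∀ z, |s * f z| ≤ C := fun z => by rw [abs_mul, hs, one_mul]; exact hC z
    have e := hadd (fun _ => C) (fun z => s * f z) ⟨|C|, fun _ => le_rfl⟩ ⟨C, hb⟩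
    rw [hconst, hsmul s f ⟨C, hC⟩] at e
    rw [← e]
    refine hpos _ ⟨|C| + C, fun z => (abs_add_le _ _).trans (add_le_add le_rfl (hb z))⟩ fun z => ?_
    linarith [neg_abs_le (s * f z), hb z]
  have := key 1 abs_one
  have := key (-1) (by simp)
  rw [abs_le]; constructor <;> linarith

/-- Amenability passes to groups mapping injectively into an amenable group. -/
theorem IsAmenableGroup.of_injective {H G : Type*} [Group H] [Group G] (π : H →* G)
    (hπ : Function.Injective π) (hG : IsAmenableGroup G) : IsAmenableGroup H := by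
  classical
  obtain ⟨m, h1, hadd, hsmul, hpos, hinv⟩ := hG
  let rep : G → G := fun x => (Quotient.mk (QuotientGroup.rightRel π.range) x).out
  have hrep : ∀ x, ∃ h : H, π h * rep x = x := fun x => by
    have h := Quotient.mk_out (s := QuotientGroup.rightRel π.range) x
    obtain ⟨h0, hh0⟩ := QuotientGroup.rightRel_apply.1 h
    exact ⟨h0, by rw [hh0, inv_mul_cancel_right]⟩
  choose t ht using hrep
  have hrepmul : ∀ γ x, rep (π γ * x) = rep x := by
    intro γ x
    refine congrArg Quotient.out (Quotient.sound ?_)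
    refine QuotientGroup.rightRel_apply.2 ?_
    rw [mul_inv_rev, ← mul_assoc, mul_inv_cancel, one_mul]
    exact π.range.inv_mem ⟨γ, rfl⟩
  have htmul : ∀ γ x, t (π γ * x) = γ * t x := by
    intro γ x
    apply hπ
    have e := ht (π γ * x)
    rw [hrepmul] at e
    refine mul_right_cancel (b := rep x) ?_
    rw [e, map_mul, mul_assoc, ht]
  refine ⟨fun f => m (f ∘ t), h1, fun f g ⟨C, hC⟩ ⟨D, hD⟩ =>
      hadd _ _ ⟨C, fun x => hC _⟩ ⟨D, fun x => hD _⟩,
    fun c f ⟨C, hC⟩ => hsmul c _ ⟨C, fun x => hC _⟩,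
    fun f ⟨C, hC⟩ h => hpos _ ⟨C, fun x => hC _⟩ fun x => h _, fun γ f ⟨C, hC⟩ => ?_⟩
  have e : ((fun x => f (γ * x)) ∘ t) = fun x => (f ∘ t) (π γ * x) := by
    funext x
    simp only [Function.comp_apply, htmul]
  show m _ = m _
  rw [e]
  exact hinv _ _ ⟨C, fun x => hC _⟩

/-- Commutative groups are amenable. -/
theorem isAmenableGroup_of_comm {G : Type*} [Group G] (hc : ∀ a b : G, a * b = b * a) :
    IsAmenableGroup G := by
  classical
  let : CommGroup G := { (inferInstance : Group G) with mul_comm := hc }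
  let pt : ∀ p : Finset G × ℕ, (↥p.1 → Fin (p.2 + 1)) → G :=
    fun p a => ∏ s : ↥p.1, (s : G) ^ ((a s : ℕ))
  let avg : (G → ℝ) → Finset G × ℕ → ℝ := fun f p =>
    (∑ a, f (pt p a)) / Fintype.card (↥p.1 → Fin (p.2 + 1))
  have hpos : ∀ p : Finset G × ℕ, (0 : ℝ) < Fintype.card (↥p.1 → Fin (p.2 + 1)) := fun p =>
    Nat.cast_pos.2 Fintype.card_pos
  have havg : ∀ f C, (∀ x, |f x| ≤ C) → ∀ p, avg f p ∈ Set.Icc (-C) C := by
    intro f C hC p
    rw [Set.mem_Icc, ← abs_le, abs_div, abs_of_pos (hpos p), div_le_iff₀ (hpos p)]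
    refine (Finset.abs_sum_le_sum_abs _ _).trans ((Finset.sum_le_sum fun a _ => hC _).trans ?_)
    simp [mul_comm]
  let 𝒰 : Ultrafilter (Finset G × ℕ) := Ultrafilter.of atTop
  have hex : ∀ f : G → ℝ, ∃ L, (∃ C, ∀ x, |f x| ≤ C) → Tendsto (avg f) 𝒰 (𝓝 L) := fun f => by
    by_cases hf : ∃ C, ∀ x, |f x| ≤ C
    · obtain ⟨C, hC⟩ := hf
      obtain ⟨L, -, hL⟩ := isCompact_Icc.ultrafilter_le_nhds (𝒰.map (avg f))
        (le_principal_iff.2 (Eventually.of_forall (havg f C hC) :
          ∀ᶠ p in (𝒰 : Filter (Finset G × ℕ)), _))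
      exact ⟨L, fun _ => hL⟩
    · exact ⟨0, fun h => absurd h hf⟩
  choose m hm using hex
  refine ⟨m, ?_, fun f g hf hg => ?_, fun c f hf => ?_, fun f hf h0 => ?_, fun γ f hf => ?_⟩
  · refine tendsto_nhds_unique (hm _ ⟨1, fun _ => by simp⟩) (tendsto_const_nhds.congr fun p => ?_)
    simp only [avg, Finset.sum_const, Finset.card_univ, nsmul_eq_mul, mul_one, div_self (hpos p).ne']
  · obtain ⟨C, hC⟩ := hf
    obtain ⟨D, hD⟩ := hg
    refine tendsto_nhds_unique
      (hm _ ⟨C + D, fun x => (abs_add_le _ _).trans (add_le_add (hC x) (hD x))⟩)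
      (((hm f ⟨C, hC⟩).add (hm g ⟨D, hD⟩)).congr fun p => ?_)
    simp [avg, Finset.sum_add_distrib, add_div]
  · obtain ⟨C, hC⟩ := hf
    refine tendsto_nhds_unique
      (hm _ ⟨|c| * C, fun x => by
        rw [abs_mul]; exact mul_le_mul_of_nonneg_left (hC x) (abs_nonneg c)⟩)
      (((hm f ⟨C, hC⟩).const_mul c).congr fun p => ?_)
    simp only [avg, ← Finset.mul_sum, mul_div_assoc]
  · exact ge_of_tendsto' (hm f hf) fun p =>
      div_nonneg (Finset.sum_nonneg fun a _ => h0 _) (hpos p).le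
  · obtain ⟨C, hC⟩ := hf
    have h1 := (hm _ ⟨C, fun x => hC (γ * x)⟩).sub (hm f ⟨C, hC⟩)
    refine sub_eq_zero.1 (tendsto_nhds_unique h1 ((Tendsto.mono_left ?_ (Ultrafilter.of_le atTop))))
    have h2 : Tendsto (fun p : Finset G × ℕ => 2 * C / (p.2 + 1)) atTop (𝓝 0) := by
      rw [← prod_atTop_atTop_eq]
      have := (tendsto_one_div_add_atTop_nhds_zero_nat.const_mul (2 * C)).comp
        (tendsto_snd (f := (atTop : Filter (Finset G))) (g := (atTop : Filter ℕ)))
      simpa [Function.comp_def, div_eq_mul_inv] using this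
    refine squeeze_zero_norm' ?_ h2
    have hev : ∀ᶠ p : Finset G × ℕ in atTop, γ ∈ p.1 := by
      filter_upwards [eventually_ge_atTop (({γ} : Finset G), 0)] with p hp
      exact hp.1 (Finset.mem_singleton_self γ)
    filter_upwards [hev] with ⟨F, n⟩ hγ
    simp only at hγ
    set z : ↥F := ⟨γ, hγ⟩
    set e := Equiv.funSplitAt z (Fin (n + 1))
    let R : ({y : ↥F // y ≠ z} → Fin (n + 1)) → G := fun b => ∏ s, (s.1 : G) ^ ((b s : ℕ))
    have hpt : ∀ a0 b, pt (F, n) (e.symm (a0, b)) = γ ^ ((a0 : ℕ)) * R b := by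
      intro a0 b
      simp only [pt, R]
      rw [Fintype.prod_eq_mul_prod_subtype_ne _ z]
      congr 1
      · simp [e, z]
      · exact Finset.prod_congr rfl fun s _ => by simp [e, s.2]
    have hd : ∀ b, ∑ a0 : Fin (n + 1), (f (γ * (γ ^ ((a0 : ℕ)) * R b)) - f (γ ^ ((a0 : ℕ)) * R b)) =
        f (γ ^ (n + 1) * R b) - f (R b) := by
      intro b
      rw [Fin.sum_univ_eq_sum_range (fun i => f (γ * (γ ^ i * R b)) - f (γ ^ i * R b))]
      rw [Finset.sum_congr rfl (fun i _ => by rw [← mul_assoc, ← pow_succ'] :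
        ∀ i ∈ Finset.range (n + 1), f (γ * (γ ^ i * R b)) - f (γ ^ i * R b) =
          f (γ ^ (i + 1) * R b) - f (γ ^ i * R b))]
      rw [Finset.sum_range_sub (fun i => f (γ ^ i * R b))]
      simp
    simp only [avg, ← sub_div, ← Finset.sum_sub_distrib]
    rw [← Equiv.sum_comp e.symm, Fintype.sum_prod_type, Finset.sum_comm]
    simp only [hpt, hd]
    rw [Real.norm_eq_abs, abs_div, abs_of_pos (hpos (F, n))]
    have hcard : (Fintype.card (↥F → Fin (n + 1)) : ℝ) =
        (n + 1) * Fintype.card ({y : ↥F // y ≠ z} → Fin (n + 1)) := by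
      rw [Fintype.card_congr e, Fintype.card_prod, Fintype.card_fin]
      push_cast; ring
    rw [hcard, div_le_div_iff₀ (by positivity) (by positivity)]
    refine le_trans (mul_le_mul_of_nonneg_right ((Finset.abs_sum_le_sum_abs _ _).trans
      (Finset.sum_le_sum fun b _ => (abs_sub _ _).trans (add_le_add (hC _) (hC _))))
        (by positivity)) (le_of_eq ?_)
    simp
    ring

/-- An extension of amenable groups is amenable. -/
theorem isAmenableGroup_of_ker {G Q : Type*} [Group G] [Group Q] (π : G →* Q)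
    (hk : IsAmenableGroup π.ker) (hQ : IsAmenableGroup π.range) : IsAmenableGroup G := by
  classical
  obtain ⟨mk, k1, kadd, ksmul, kpos, kinv⟩ := hk
  obtain ⟨mq, q1, qadd, qsmul, qpos, qinv⟩ := hQ
  have hs : ∀ q : π.range, ∃ x, π x = q.1 := fun q => q.2
  choose s hs using hs
  let T : (G → ℝ) → π.range → ℝ := fun f q => mk fun n => f (s q * n)
  have hT : ∀ f C, (∀ x, |f x| ≤ C) → ∀ q, |T f q| ≤ C := fun f C hC q =>
    mean_abs_le k1 kadd ksmul kpos _ C fun n => hC _
  refine ⟨fun f => mq (T f), ?_, fun f g hf hg => ?_, fun c f hf => ?_, fun f hf h0 => ?_,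
    fun γ f hf => ?_⟩
  · simp only [T, k1, q1]
  · obtain ⟨C, hC⟩ := hf
    obtain ⟨D, hD⟩ := hg
    show mq _ = mq _ + mq _
    rw [← qadd _ _ ⟨C, hT f C hC⟩ ⟨D, hT g D hD⟩]
    exact congrArg mq (funext fun q => kadd _ _ ⟨C, fun x => hC _⟩ ⟨D, fun x => hD _⟩)
  · obtain ⟨C, hC⟩ := hf
    show mq _ = c * mq _
    rw [← qsmul c _ ⟨C, hT f C hC⟩]
    exact congrArg mq (funext fun q => ksmul c _ ⟨C, fun x => hC _⟩)
  · obtain ⟨C, hC⟩ := hf
    exact qpos _ ⟨C, hT f C hC⟩ fun q => kpos _ ⟨C, fun x => hC _⟩ fun n => h0 _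
  · obtain ⟨C, hC⟩ := hf
    show mq _ = mq _
    rw [← qinv (π.rangeRestrict γ) (T f) ⟨C, hT f C hC⟩]
    refine congrArg mq (funext fun q => ?_)
    set q' := π.rangeRestrict γ * q
    have hn : (s q')⁻¹ * (γ * s q) ∈ π.ker := by
      rw [MonoidHom.mem_ker, map_mul, map_inv, map_mul, hs, hs]
      simp [q']
    set n0 : π.ker := ⟨_, hn⟩
    simp only [T]
    rw [← kinv n0 (fun n => f (s q' * n)) ⟨C, fun x => hC _⟩]
    refine congrArg mk (funext fun n => ?_)
    simp only [n0, Subgroup.coe_mul]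
    congr 1
    group

/-- Being amenable is preserved under passing to a group with an injective homomorphism into a
commutative group. -/
theorem isAmenableGroup_of_comm_hom {H A : Type*} [Group H] [CommGroup A] (π : H →* A)
    (hπ : Function.Injective π) : IsAmenableGroup H :=
  IsAmenableGroup.of_injective π hπ (isAmenableGroup_of_comm mul_comm)

end Vale.Agent.P184
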