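import Mathlib

/-!
Definitions used in the statements about the ℓ¹-Bass conjecture.
-/

namespace Vale.Agent.P184

/-- A q × q matrix over the Banach algebra ℓ¹(G) that squares to itself: every entry is an
absolutely summable function on G and matrix multiplication with convolution of entries
reproduces the matrix. -/
def IsIdempotentMatrix {G : Type*} [Group G] {q : ℕ} (e : Fin q → Fin q → G → ℂ) : Prop :=
  (∀ i j, Summable fun g => ‖e i j g‖) ∧
    ∀ i k g, (∑ j, ∑' h, e i j h * e j k (h⁻¹ * g)) = e i k g

/-- The Hattori–Stallings coefficient of a matrix at a conjugacy class: the sum over the class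
of the diagonal entries. -/
noncomputable def hsTrace {G : Type*} [Group G] {q : ℕ} (e : Fin q → Fin q → G → ℂ)
    (C : ConjClasses G) : ℂ :=
  ∑' g : C.carrier, ∑ i, e i i g

/-- The assertion of the ℓ¹-Bass conjecture for one matrix: outside a finite set of conjugacy
classes of elements of finite order all coefficients vanish. -/
def BassConclusion {G : Type*} [Group G] {q : ℕ} (e : Fin q → Fin q → G → ℂ) : Prop :=
  ∃ F : Finset (ConjClasses G),
    (∀ C ∈ F, ∀ g, ConjClasses.mk g = C → IsOfFinOrder g) ∧ ∀ C ∉ F, hsTrace e C = 0

/-- G satisfies the ℓ¹-Bass conjecture. -/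
def SatisfiesL1Bass (G : Type*) [Group G] : Prop :=
  ∀ (q : ℕ) (e : Fin q → Fin q → G → ℂ), IsIdempotentMatrix e → BassConclusion e

end Vale.Agent.P184
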