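import Vale.Agent.P184.Exact

/-!
Construction of twists in exact groups, and the resulting support theorem for the
Hattori–Stallings trace over ℓ¹(G).
-/

namespace Vale.Agent.P184

open Filter Topology BoundedContinuousFunction
open scoped Matrix.Norms.L2Operator

universe u

/-- The finite neighbourhood S ∪ S K. -/
noncomputable def nbr {G : Type*} [Group G] (S K : Finset G) : Finset G := by
  classical exact S ∪ Finset.image₂ (fun s k => s * k) S K

/-- All quotients a b⁻¹ of elements of a finite set. -/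
noncomputable def diffSet {G : Type*} [Group G] (A : Finset G) : Finset G := by
  classical exact Finset.image₂ (fun a b => a * b⁻¹) A A

lemma mem_nbr {G : Type*} [Group G] {S K : Finset G} {s : G} (hs : s ∈ S) :
    s ∈ nbr S K ∧ ∀ k ∈ K, s * k ∈ nbr S K := by
  classical
  exact ⟨Finset.mem_union_left _ hs,
    fun k hk => Finset.mem_union_right _ (Finset.mem_image₂_of_mem hs hk)⟩

lemma mem_diffSet {G : Type*} [Group G] {A : Finset G} {a b : G} (ha : a ∈ A) (hb : b ∈ A) :
    a * b⁻¹ ∈ diffSet A := by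
  classical
  exact Finset.mem_image₂_of_mem ha hb

lemma diffSet_inv {G : Type*} [Group G] {A : Finset G} : ∀ s ∈ diffSet A, s⁻¹ ∈ diffSet A := by
  classical
  intro s hs
  obtain ⟨a, ha, b, hb, rfl⟩ := Finset.mem_image₂.1 hs
  rw [mul_inv_rev, inv_inv]
  exact mem_diffSet hb ha

theorem twist_of_exact {G : Type u} [Group G] {K : Finset G} {δ : ℝ} (hδ : 0 < δ)
    {S : Finset G} {p : G → G → ℝ} (hp0 : ∀ h z, 0 ≤ p h z)
    (hsupp : ∀ h z, z * h⁻¹ ∉ S → p h z = 0) (hsum : ∀ h, ∑' z, p h z = 1)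
    (hvar : ∀ k ∈ K, ∀ h, ∑' z, |p (k * h) z - p h z| ≤ δ ^ 2 / 8) (g : G)
    (hfo : IsOfFinOrder g → ∀ r : G, r * g * r⁻¹ ∉ Subgroup.closure
      ((diffSet (nbr S K) : Set G) ∩ (Subgroup.zpowers (r * g * r⁻¹) : Set G)))
    (ham : IsAmenableGroup (Subgroup.centralizer ({g} : Set G))) :
    Nonempty (Twist G g K δ) := by
  classical
  set S' := nbr S K with hS'
  set T := diffSet S' with hT
  set δ' := δ / 4 with hδ'
  obtain ⟨W, hW0, hWS, hWsum, hWg, hWvar⟩ :=
    exists_avg_weights g (K := K) (S' := S') (fun s hs => mem_nbr hs) hp0 hsupp hsum hvar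
  obtain ⟨Θ₀, hΘ₀⟩ := exists_phases T (show 0 < δ' by positivity) g hfo
  set Θ := Θ₀.filter fun ζ =>
    ζ ≠ 1 ∧ ‖ζ‖ = 1 ∧ ∀ a b : ℤ, g ^ a = g ^ b → ζ ^ a = ζ ^ b with hΘ
  obtain ⟨col, hcol⟩ := exists_colouring (Q := G ⧸ Subgroup.zpowers g) T diffSet_inv
  have hθ : ∀ x : G ⧸ Subgroup.zpowers g, ∃ ζ : Θ, ∀ z : G, QuotientGroup.mk z = x →
      ∀ j : ℤ, z * g ^ j * z⁻¹ ∈ T → ‖(ζ : ℂ) ^ j - 1‖ ≤ δ' := by
    intro x
    obtain ⟨ζ, hmem, h1, h2, h3, h4⟩ := hΘ₀ x.out
    refine ⟨⟨ζ, Finset.mem_filter.2 ⟨hmem, h1, h2, h3⟩⟩, fun z hz j hj => h4 j ?_⟩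
    obtain ⟨⟨_, n, rfl⟩, hn⟩ := QuotientGroup.mk_out_eq_mul (Subgroup.zpowers g) z
    rw [hz] at hn
    rw [hn]
    convert hj using 1
    simp only
    group
  choose θ hθ using hθ
  set N := Fintype.card (Θ × Fin (T.card + 1))
  set en := Fintype.equivFin (Θ × Fin (T.card + 1))
  let colI : G ⧸ Subgroup.zpowers g → Fin N := fun x => en (θ x, col x)
  let ζ : Fin N → ℂ := fun i => ((en.symm i).1 : ℂ)
  have hζ : ∀ i, ζ i ≠ 1 ∧ ‖ζ i‖ = 1 ∧ ∀ a b : ℤ, g ^ a = g ^ b → ζ i ^ a = ζ i ^ b :=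
    fun i => (Finset.mem_filter.1 (en.symm i).1.2).2
  have hζ0 : ∀ i, ζ i ≠ 0 := fun i h => by
    have := (hζ i).2.1
    rw [h, norm_zero] at this
    exact zero_ne_one this
  have hexp : ∀ z : G, ∃ n : ℤ,
      z = (QuotientGroup.mk z : G ⧸ Subgroup.zpowers g).out * g ^ n := by
    intro z
    obtain ⟨⟨_, n, rfl⟩, hn⟩ := QuotientGroup.mk_out_eq_mul (Subgroup.zpowers g) z
    refine ⟨-n, ?_⟩
    rw [hn]
    simp only
    group
  choose ex hex using hexp
  let E : Fin N → G → ℂ := fun i z => ζ i ^ ex z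
  have hmkg : ∀ (z : G) (n : ℤ),
      (QuotientGroup.mk (z * g ^ n) : G ⧸ Subgroup.zpowers g) = QuotientGroup.mk z :=
    fun z n => QuotientGroup.mk_mul_of_mem z ⟨n, rfl⟩
  have hmk1 : ∀ z : G,
      (QuotientGroup.mk (z * g) : G ⧸ Subgroup.zpowers g) = QuotientGroup.mk z :=
    fun z => QuotientGroup.mk_mul_of_mem z ⟨1, zpow_one g⟩
  have hEmul : ∀ i z (n : ℤ), E i (z * g ^ n) = ζ i ^ n * E i z := by
    intro i z n
    simp only [E]
    rw [← zpow_add₀ (hζ0 i)]
    refine (hζ i).2.2 _ _ ?_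
    have h1 := hex (z * g ^ n)
    rw [hmkg] at h1
    have h3 : (QuotientGroup.mk z : G ⧸ Subgroup.zpowers g).out * g ^ ex (z * g ^ n) =
        (QuotientGroup.mk z : G ⧸ Subgroup.zpowers g).out * g ^ (n + ex z) := by
      rw [← h1, add_comm, zpow_add, ← mul_assoc, ← hex]
    exact mul_left_cancel h3
  have hEout : ∀ i (x : G ⧸ Subgroup.zpowers g), E i x.out = 1 := by
    intro i x
    simp only [E]
    rw [← zpow_zero (ζ i)]
    refine (hζ i).2.2 _ _ ?_
    have h1 := hex x.out
    rw [QuotientGroup.out_eq'] at h1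
    rw [zpow_zero]
    exact mul_eq_left.1 h1.symm
  have hEnorm : ∀ i z, ‖E i z‖ = 1 := fun i z => by
    simp only [E, norm_zpow, (hζ i).2.1, one_zpow]
  have hWn : ∀ (h : G) (n : ℤ) (s : G), W (h * g ^ n) s = W h s := by
    intro h n s
    induction n with
    | zero => simp
    | succ n ih => rw [zpow_add_one, ← mul_assoc, hWg, ih]
    | pred n ih =>
      rw [← ih, show h * g ^ (-(n : ℤ)) = h * g ^ (-(n : ℤ) - 1) * g by
        rw [mul_assoc, ← zpow_add_one, sub_add_cancel], hWg]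
  let w : G → Fin N → ℝ := fun h i =>
    ∑ s ∈ S', if colI (QuotientGroup.mk (s * h)) = i then W h s else 0
  have hw0 : ∀ h i, 0 ≤ w h i := fun h i => Finset.sum_nonneg fun s _ => by
    split_ifs
    · exact hW0 _ _
    · exact le_rfl
  have hwsum : ∀ h, ∑ i, w h i = 1 := fun h => by
    simp only [w]
    rw [Finset.sum_comm]
    simp only [Finset.sum_ite_eq, Finset.mem_univ, if_true]
    exact hWsum h
  let sel : G ⧸ Subgroup.zpowers g → Fin N → G := fun x i =>
    if h : ∃ s ∈ S, colI (s • x) = i then h.choose else 1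
  have hsel : ∀ h i, w h i ≠ 0 → sel (QuotientGroup.mk h) i ∈ S ∧
      colI (QuotientGroup.mk (sel (QuotientGroup.mk h) i * h)) = i := by
    intro h i hw
    obtain ⟨s, -, hs⟩ := Finset.exists_ne_zero_of_sum_ne_zero hw
    split_ifs at hs with hc
    · have hsS : s ∈ S := by
        by_contra hn
        exact hs (hWS h s hn)
      have hex' : ∃ s' ∈ S, colI (s' • (QuotientGroup.mk h : G ⧸ Subgroup.zpowers g)) = i :=
        ⟨s, hsS, hc⟩
      simp only [sel, dif_pos hex']
      exact hex'.choose_spec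
    · exact absurd rfl hs
  let c : G → Fin N → ℂ := fun h i =>
    (Real.sqrt (w h i) : ℂ) * E i (sel (QuotientGroup.mk h) i * h)
  have hcg : ∀ (h : G) (n : ℤ) i, c (h * g ^ n) i = ζ i ^ n * c h i := by
    intro h n i
    have e1 : w (h * g ^ n) i = w h i := Finset.sum_congr rfl fun s _ => by
      rw [← mul_assoc, hmkg, hWn]
    simp only [c, e1, hmkg, ← mul_assoc (sel _ i), hEmul]
    ring
  have hcnorm : ∀ h, ∑ i, ‖c h i‖ ^ 2 = 1 := fun h => by
    refine (Finset.sum_congr rfl fun i _ => ?_).trans (hwsum h)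
    simp only [c, norm_mul, hEnorm, mul_one, Complex.norm_real, Real.norm_eq_abs, sq_abs,
      Real.sq_sqrt (hw0 h i)]
  have hclose : ∀ k ∈ K, ∀ h, ∑ i, ‖c (k * h) i - c h i‖ ^ 2 ≤ δ ^ 2 := by
    intro k hk h
    have hwk : ∀ i, w (k * h) i = ∑ s ∈ S',
        if colI (QuotientGroup.mk (s * h)) = i then W (k * h) (s * k⁻¹) else 0 := by
      intro i
      have e1 : w (k * h) i =
          ∑ s ∈ S, if colI (QuotientGroup.mk (s * (k * h))) = i then W (k * h) s else 0 :=
        (Finset.sum_subset (fun s hs => (mem_nbr hs).1) fun s _ hs => by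
          rw [hWS _ _ hs, ite_self]).symm
      have e2 : (∑ s ∈ S',
          if colI (QuotientGroup.mk (s * h)) = i then W (k * h) (s * k⁻¹) else 0) =
          ∑ s ∈ S.image (· * k),
            if colI (QuotientGroup.mk (s * h)) = i then W (k * h) (s * k⁻¹) else 0 := by
        refine (Finset.sum_subset (Finset.image_subset_iff.2 fun s hs => (mem_nbr hs).2 k hk)
          fun s _ hs => ?_).symm
        rw [hWS (k * h) (s * k⁻¹) fun hs' => hs
          (Finset.mem_image.2 ⟨_, hs', inv_mul_cancel_right s k⟩), ite_self]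
      rw [e1, e2, Finset.sum_image fun a _ b _ hab => mul_right_cancel hab]
      refine Finset.sum_congr rfl fun s _ => ?_
      rw [mul_assoc, mul_inv_cancel_right]
    have hpt : ∀ i, ‖c (k * h) i - c h i‖ ^ 2 ≤
        2 * |w (k * h) i - w h i| + 2 * δ' ^ 2 * w h i := by
      intro i
      set a := w (k * h) i
      set b := w h i
      set x := Real.sqrt a with hx
      set y := Real.sqrt b with hy
      set u := E i (sel (QuotientGroup.mk (k * h)) i * (k * h)) with hu
      set v := E i (sel (QuotientGroup.mk h) i * h) with hv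
      have hx0 : 0 ≤ x := Real.sqrt_nonneg _
      have hy0 : 0 ≤ y := Real.sqrt_nonneg _
      have hsq : (x - y) ^ 2 ≤ |a - b| := by
        have h1 : x ^ 2 = a := Real.sq_sqrt (hw0 _ _)
        have h2 : y ^ 2 = b := Real.sq_sqrt (hw0 _ _)
        rw [← h1, ← h2, show x ^ 2 - y ^ 2 = (x - y) * (x + y) by ring, abs_mul, ← sq_abs (x - y),
          sq, abs_of_nonneg (add_nonneg hx0 hy0)]
        refine mul_le_mul_of_nonneg_left ?_ (abs_nonneg _)
        rw [abs_le]; constructor <;> linarith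
      have key : ‖(x : ℂ) * u - (y : ℂ) * v‖ ≤ |x - y| + y * δ' := by
        have hyd : 0 ≤ y * δ' := by positivity
        rcases eq_or_ne a 0 with ha | ha
        · rw [hx, ha, Real.sqrt_zero, Complex.ofReal_zero, zero_mul, zero_sub, norm_neg, norm_mul,
            hv, hEnorm, mul_one, Complex.norm_real, Real.norm_eq_abs, zero_sub, abs_neg]
          linarith
        rcases eq_or_ne b 0 with hb | hb
        · rw [hy, hb, Real.sqrt_zero, Complex.ofReal_zero, zero_mul, sub_zero, norm_mul, hu,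
            hEnorm, mul_one, Complex.norm_real, Real.norm_eq_abs, sub_zero, zero_mul, add_zero]
        obtain ⟨hs', hc'⟩ := hsel (k * h) i ha
        obtain ⟨hs, hc⟩ := hsel h i hb
        set s' := sel (QuotientGroup.mk (k * h)) i
        set s := sel (QuotientGroup.mk h) i
        set z := s * h with hz
        set z' := s' * (k * h) with hz'
        have ht : (s' * k) * s⁻¹ ∈ T := mem_diffSet ((mem_nbr hs').2 k hk) (mem_nbr hs).1
        have hzz : z' = (s' * k) * s⁻¹ * z := by rw [hz, hz']; group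
        have hcz : col (QuotientGroup.mk z') = col (QuotientGroup.mk z) :=
          congrArg Prod.snd (en.injective (hc'.trans hc.symm))
        have heq : (QuotientGroup.mk z' : G ⧸ Subgroup.zpowers g) = QuotientGroup.mk z := by
          by_contra hne
          have hm : ((s' * k) * s⁻¹) • (QuotientGroup.mk z : G ⧸ Subgroup.zpowers g) =
              QuotientGroup.mk z' := by rw [hzz]; rfl
          exact hcol _ _ ht (by rw [hm]; exact hne) (by rw [hm]; exact hcz)
        obtain ⟨j, hj⟩ := QuotientGroup.eq.1 heq.symm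
        have hj' : z' = z * g ^ j := by rw [show g ^ j = z⁻¹ * z' from hj, mul_inv_cancel_left]
        have hjT : z * g ^ j * z⁻¹ ∈ T := by rw [← hj', hzz, mul_inv_cancel_right]; exact ht
        have hb1 := hθ _ z rfl j hjT
        have hζi : (θ (QuotientGroup.mk z) : ℂ) = ζ i := by
          simp only [ζ, ← hc, colI, Equiv.symm_apply_apply]
        rw [hζi] at hb1
        have huv : ‖u - v‖ ≤ δ' := by
          rw [hu, hv, hj', hEmul, ← sub_one_mul, norm_mul, hEnorm, mul_one]
          exact hb1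
        calc ‖(x : ℂ) * u - (y : ℂ) * v‖ = ‖((x - y : ℝ) : ℂ) * u + (y : ℂ) * (u - v)‖ := by
              congr 1; push_cast; ring
          _ ≤ ‖((x - y : ℝ) : ℂ) * u‖ + ‖(y : ℂ) * (u - v)‖ := norm_add_le _ _
          _ ≤ |x - y| + y * δ' := by
              rw [norm_mul, norm_mul, hu, hEnorm, mul_one, Complex.norm_real, Complex.norm_real,
                Real.norm_eq_abs, Real.norm_eq_abs, abs_of_nonneg hy0, ← hu]
              exact add_le_add le_rfl (mul_le_mul_of_nonneg_left huv hy0)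
      calc ‖c (k * h) i - c h i‖ ^ 2 ≤ (|x - y| + y * δ') ^ 2 :=
            pow_le_pow_left₀ (norm_nonneg _) key 2
        _ ≤ 2 * (x - y) ^ 2 + 2 * δ' ^ 2 * b := by
            rw [show b = y ^ 2 from (Real.sq_sqrt (hw0 h i)).symm, ← sq_abs (x - y)]
            nlinarith [sq_nonneg (|x - y| - y * δ')]
        _ ≤ _ := by linarith
    refine (Finset.sum_le_sum fun i _ => hpt i).trans ?_
    rw [Finset.sum_add_distrib, ← Finset.mul_sum, ← Finset.mul_sum, hwsum, mul_one]
    have hdiff : ∑ i, |w (k * h) i - w h i| ≤ δ ^ 2 / 8 := by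
      refine le_trans ?_ (hWvar k hk h)
      calc ∑ i, |w (k * h) i - w h i| ≤ ∑ i, ∑ s ∈ S',
            (if colI (QuotientGroup.mk (s * h)) = i then |W (k * h) (s * k⁻¹) - W h s| else 0) := by
            refine Finset.sum_le_sum fun i _ => ?_
            rw [hwk i, ← Finset.sum_sub_distrib]
            refine (Finset.abs_sum_le_sum_abs _ _).trans (Finset.sum_le_sum fun s _ => ?_)
            split_ifs <;> simp
        _ = _ := by
            rw [Finset.sum_comm]
            simp
    rw [hδ']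
    nlinarith [sq_nonneg δ]
  obtain ⟨cl⟩ := exists_cliff N
  let ph : G → G ⧸ Subgroup.zpowers g → Fin N → ℂ := fun h x i => star (E i (h * (h⁻¹ • x).out))
  have hph : ∀ h x i, ‖ph h x i‖ = 1 := fun h x i => by simp only [ph, norm_star, hEnorm]
  have hmk : ∀ h (x : G ⧸ Subgroup.zpowers g), QuotientGroup.mk (h * (h⁻¹ • x).out) = x := by
    intro h x
    have : (QuotientGroup.mk (h * (h⁻¹ • x).out) : G ⧸ Subgroup.zpowers g) =
        h • QuotientGroup.mk ((h⁻¹ • x).out) := rfl
    rw [this, QuotientGroup.out_eq', smul_inv_smul]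
  have hshift : ∀ h (x : G ⧸ Subgroup.zpowers g), ∃ n : ℤ, h * (h⁻¹ • x).out = x.out * g ^ n := by
    intro h x
    have hn := hex (h * (h⁻¹ • x).out)
    rw [hmk] at hn
    exact ⟨_, hn⟩
  have hphone : ∀ x, ph 1 x = fun _ => 1 := fun x => by
    funext i
    simp only [ph, inv_one, one_smul, one_mul, hEout, star_one]
  have hphmul : ∀ h k x, ph (h * k) x = ph h x * ph k (h⁻¹ • x) := by
    intro h k x
    funext i
    obtain ⟨n, hn⟩ := hshift k (h⁻¹ • x)
    simp only [ph, Pi.mul_apply, mul_inv_rev, mul_smul, mul_assoc h, hn]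
    rw [← mul_assoc, hEmul, hEmul, hEout, mul_one, star_mul, mul_comm]
  let V : G ⧸ Subgroup.zpowers g → Matrix cl.ι cl.ι ℂ := fun x => cl.Q (c x.out)
  have hVV : ∀ x, V x * V x = 1 := fun x => by
    simp only [V, cl.Q_sq, hcnorm, Complex.ofReal_one, one_smul]
  have hPV : ∀ x, cl.P * V x = V x * (1 - cl.P) := fun x => by
    simp only [V]
    rw [mul_sub, mul_one, cl.Q_P, sub_mul, one_mul, sub_sub_cancel]
  let A : G → G ⧸ Subgroup.zpowers g → Matrix cl.ι cl.ι ℂ :=
    fun h x => V x * cl.D (ph h x) * V (h⁻¹ • x)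
  have hAP : ∀ h x, A h x * cl.P = cl.P * A h x := fun h x => by
    have hD : cl.D (ph h x) * (1 - cl.P) = (1 - cl.P) * cl.D (ph h x) := by
      rw [mul_sub, sub_mul, mul_one, one_mul, cl.D_P]
    have hV : V (h⁻¹ • x) * cl.P = (1 - cl.P) * V (h⁻¹ • x) := cl.Q_P _
    calc A h x * cl.P = V x * cl.D (ph h x) * (V (h⁻¹ • x) * cl.P) := by simp only [A, mul_assoc]
      _ = V x * (cl.D (ph h x) * (1 - cl.P)) * V (h⁻¹ • x) := by
          rw [hV]; simp only [mul_assoc]
      _ = V x * (1 - cl.P) * cl.D (ph h x) * V (h⁻¹ • x) := by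
          rw [hD]; simp only [mul_assoc]
      _ = cl.P * A h x := by
          rw [← hPV]; simp only [A, mul_assoc]
  have hAu : ∀ h x, star (A h x) * A h x = 1 := fun h x => by
    simp only [A, star_mul, cl.Q_star, V, mul_assoc]
    rw [← mul_assoc (cl.Q (c x.out)) (cl.Q (c x.out)), hVV x, one_mul,
      ← mul_assoc (star (cl.D (ph h x))), cl.D_unitary _ (hph h x), one_mul, hVV]
  obtain ⟨m, hm1, hmadd, hmsmul, hmpos, hminv⟩ := ham
  let orb : Subgroup.centralizer ({g} : Set G) → G ⧸ Subgroup.zpowers g :=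
    fun z => QuotientGroup.mk (z : G)
  let : TopologicalSpace (G ⧸ Subgroup.zpowers g) := ⊥
  have : DiscreteTopology (G ⧸ Subgroup.zpowers g) := ⟨rfl⟩
  have hbre : ∀ φ : (G ⧸ Subgroup.zpowers g) →ᵇ ℂ, ∀ z, |(φ (orb z)).re| ≤ ‖φ‖ := fun φ z =>
    (Complex.abs_re_le_norm _).trans (φ.norm_coe_le_norm _)
  have hbim : ∀ φ : (G ⧸ Subgroup.zpowers g) →ᵇ ℂ, ∀ z, |(φ (orb z)).im| ≤ ‖φ‖ := fun φ z =>
    (Complex.abs_im_le_norm _).trans (φ.norm_coe_le_norm _)
  have hmconst : ∀ C : ℝ, m (fun _ => C) = C := fun C => by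
    have h := hmsmul C (fun _ => 1) ⟨1, fun _ => by simp⟩
    simpa [hm1] using h
  have hmabs : ∀ (f : Subgroup.centralizer ({g} : Set G) → ℝ) (C : ℝ), (∀ z, |f z| ≤ C) →
      |m f| ≤ C := by
    intro f C hC
    have h1 : ∀ s : ℝ, |s| = 1 → 0 ≤ C + s * m f := by
      intro s hs
      have hb : ∃ C', ∀ z, |s * f z| ≤ C' := ⟨C, fun z => by rw [abs_mul, hs, one_mul]; exact hC z⟩
      have e := hmadd (fun _ => C) (fun z => s * f z) ⟨|C|, fun _ => le_rfl⟩ hb
      rw [hmconst, hmsmul s f ⟨C, hC⟩] at e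
      rw [← e]
      refine hmpos _ ⟨|C| + C, fun z => (abs_add_le _ _).trans
        (add_le_add le_rfl (by rw [abs_mul, hs, one_mul]; exact hC z))⟩ fun z => ?_
      have := (neg_abs_le (s * f z))
      rw [abs_mul, hs, one_mul] at this
      linarith [hC z]
    have := h1 1 abs_one
    have := h1 (-1) (by simp)
    rw [abs_le]; constructor <;> linarith
  let lam : ((G ⧸ Subgroup.zpowers g) →ᵇ ℂ) →ₗ[ℂ] ℂ :=
    { toFun := fun φ =>
        (m (fun z => (φ (orb z)).re) : ℂ) + (m (fun z => (φ (orb z)).im) : ℂ) * Complex.I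
      map_add' := fun φ ψ => by
        simp only [BoundedContinuousFunction.coe_add, Pi.add_apply, Complex.add_re, Complex.add_im]
        rw [hmadd _ _ ⟨_, hbre φ⟩ ⟨_, hbre ψ⟩, hmadd _ _ ⟨_, hbim φ⟩ ⟨_, hbim ψ⟩]
        push_cast; ring
      map_smul' := fun a φ => by
        simp only [BoundedContinuousFunction.coe_smul, smul_eq_mul, Complex.mul_re, Complex.mul_im,
          RingHom.id_apply, sub_eq_add_neg, ← neg_mul]
        have hb : ∀ (r : ℝ) (f : Subgroup.centralizer ({g} : Set G) → ℝ) (C : ℝ),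
            (∀ z, |f z| ≤ C) → ∃ C', ∀ z, |r * f z| ≤ C' := fun r f C hC =>
          ⟨|r| * C, fun z => by
            rw [abs_mul]; exact mul_le_mul_of_nonneg_left (hC z) (abs_nonneg r)⟩
        rw [hmadd _ _ (hb _ _ _ (hbre φ)) (hb _ _ _ (hbim φ)),
          hmadd _ _ (hb _ _ _ (hbim φ)) (hb _ _ _ (hbre φ)),
          hmsmul _ _ ⟨_, hbre φ⟩, hmsmul _ _ ⟨_, hbim φ⟩,
          hmsmul _ _ ⟨_, hbim φ⟩, hmsmul _ _ ⟨_, hbre φ⟩]
        apply Complex.ext <;> simp <;> ring }
  have hloop : ∀ x ∈ Set.range orb, ∀ i, ph g x i = star (ζ i) := by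
    rintro _ ⟨z, rfl⟩ i
    have hz : g * (z : G) = z * g := Subgroup.mem_centralizer_iff.1 z.2 g rfl
    have hfix : g⁻¹ • orb z = orb z := by
      rw [inv_smul_eq_iff]
      change QuotientGroup.mk (z : G) = QuotientGroup.mk (g * (z : G))
      rw [hz, hmk1]
    have hout : g * (orb z).out = (orb z).out * g := by
      obtain ⟨⟨_, n, rfl⟩, hn⟩ := QuotientGroup.mk_out_eq_mul (Subgroup.zpowers g) (z : G)
      rw [show (orb z).out = (z : G) * g ^ n from hn, ← mul_assoc, hz, mul_assoc, mul_assoc,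
        (Commute.self_zpow g n).eq]
    simp only [ph, hfix, hout]
    have h1 := hEmul i (orb z).out 1
    rw [zpow_one, zpow_one, hEout, mul_one] at h1
    rw [h1]
  refine ⟨{
    X := G ⧸ Subgroup.zpowers g, topX := inferInstance, discX := inferInstance
    actX := inferInstance
    ι := cl.ι, fin := inferInstance, dec := inferInstance
    U := fun h x => cl.D (ph h x) * cl.P + (1 - cl.P)
    U' := fun h x => A h x * cl.P + (1 - cl.P)
    one := fun x => by rw [hphone, cl.D_one, one_mul, add_sub_cancel]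
    one' := fun x => by
      simp only [A, hphone, cl.D_one, mul_one, inv_one, one_smul, hVV, one_mul, add_sub_cancel]
    mul := fun h k x => by rw [cl.block_mul (cl.D_P _), cl.D_mul, hphmul]
    mul' := fun h k x => by
      rw [cl.block_mul (hAP _ _)]
      congr 2
      simp only [A, hphmul, ← cl.D_mul, mul_inv_rev, mul_smul, mul_assoc]
      rw [← mul_assoc (V (h⁻¹ • x)) (V (h⁻¹ • x)), hVV, one_mul]
    norm_le := fun h x => cl.block_norm (cl.D_P _) (cl.D_unitary _ (hph h x))
    norm_le' := fun h x => cl.block_norm (hAP h x) (hAu h x)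
    close := fun k hk x => ?_
    X0 := Set.range orb
    fixed := ?_
    lam := lam, lamC := 2, lamC_nonneg := by norm_num
    lam_bound := fun φ => by
      change ‖(m _ : ℂ) + (m _ : ℂ) * Complex.I‖ ≤ _
      refine (norm_add_le _ _).trans ?_
      rw [norm_mul, Complex.norm_I, mul_one, Complex.norm_real, Complex.norm_real,
        Real.norm_eq_abs, Real.norm_eq_abs]
      linarith [hmabs _ _ (hbre φ), hmabs _ _ (hbim φ)]
    lam_one := by
      change (m _ : ℂ) + (m _ : ℂ) * Complex.I = 1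
      simp [hmconst]
    inv := fun a ha φ => by
      have hmem : a ∈ Subgroup.centralizer ({g} : Set G) :=
        Subgroup.mem_centralizer_singleton_iff.2 ha
      have e : ∀ z, pullFun φ (fun x => a • x) (orb z) = φ (orb (⟨a, hmem⟩ * z)) := fun z => rfl
      change (m _ : ℂ) + (m _ : ℂ) * Complex.I = (m _ : ℂ) + (m _ : ℂ) * Complex.I
      simp only [e]
      rw [hminv ⟨a, hmem⟩ (fun z => (φ (orb z)).re) ⟨_, hbre φ⟩,
        hminv ⟨a, hmem⟩ (fun z => (φ (orb z)).im) ⟨_, hbim φ⟩]
    loc := fun φ hφ => by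
      change (m _ : ℂ) + (m _ : ℂ) * Complex.I = 0
      simp [fun z => hφ (orb z) ⟨z, rfl⟩, hmconst]
    val := (cl.D (fun i => star (ζ i)) * cl.P).trace + (1 - cl.P).trace
    val' := (cl.D (fun i => star (ζ i)) * (1 - cl.P)).trace + (1 - cl.P).trace
    ne := ?_
    loop := fun x hx => by
      rw [show ph g x = fun i => star (ζ i) from funext (hloop x hx), Matrix.trace_add]
    loop' := ?_ }⟩
  · have hfix : ∀ h : G, cl.Q (c x.out) * cl.D (ph k x) =
        cl.D (ph k x) * cl.Q (c (k * (k⁻¹ • x).out)) := fun _ => by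
      rw [cl.D_Q _ _ (hph k x)]
      congr 2
      funext i
      obtain ⟨n, hn⟩ := hshift k x
      simp only [Pi.mul_apply, ph, hn, hcg, hEmul, hEout, mul_one]
      have : star (ζ i ^ n) * ζ i ^ n = 1 := by
        rw [Complex.star_def, Complex.conj_mul', norm_zpow, (hζ i).2.1]
        simp
      rw [← mul_assoc, this, one_mul]
    have e : cl.D (ph k x) * cl.P + (1 - cl.P) - (A k x * cl.P + (1 - cl.P)) =
        -(cl.D (ph k x) * ((cl.Q (c (k * (k⁻¹ • x).out)) - V (k⁻¹ • x)) * V (k⁻¹ • x)) *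
          cl.P) := by
      simp only [A, V]
      rw [hfix k, sub_mul, hVV, mul_sub, mul_one, sub_mul, mul_assoc (cl.D _)]
      abel
    rw [e, norm_neg]
    have h1 : ‖cl.Q (c (k * (k⁻¹ • x).out)) - V (k⁻¹ • x)‖ ≤ δ := by
      simp only [V, cl.Q_sub]
      have h2 := cl.Q_norm (c (k * (k⁻¹ • x).out) - c (k⁻¹ • x).out)
      exact (abs_le_of_sq_le_sq' (h2.trans_le (hclose k hk (k⁻¹ • x).out)) hδ.le).2
    have h3 : ‖V (k⁻¹ • x)‖ ≤ 1 := by
      have h4 := cl.Q_norm (c (k⁻¹ • x).out)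
      rw [hcnorm] at h4
      exact (abs_le_of_sq_le_sq' (h4.trans_le (by norm_num)) zero_le_one).2
    refine (norm_mul_le _ _).trans ((mul_le_of_le_one_right (norm_nonneg _) cl.P_norm).trans ?_)
    refine (norm_mul_le _ _).trans
      ((mul_le_of_le_one_left (norm_nonneg _) (cl.D_norm _ (hph k x))).trans ?_)
    exact (norm_mul_le _ _).trans ((mul_le_of_le_one_right (norm_nonneg _) h3).trans h1)
  · rintro _ ⟨z, rfl⟩
    change QuotientGroup.mk (g * (z : G)) = QuotientGroup.mk (z : G)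
    rw [Subgroup.mem_centralizer_iff.1 z.2 g rfl, hmk1]
  · intro h
    have h1 := cl.super (fun i => star (ζ i))
    rw [add_left_inj] at h
    rw [h, sub_self] at h1
    refine Finset.prod_ne_zero_iff.2 (fun i _ hi => (hζ i).1 ?_) h1.symm
    have := congrArg star (sub_eq_zero.1 hi)
    simpa using this.symm
  · intro x hx
    have hfix : g⁻¹ • x = x := by
      obtain ⟨z, rfl⟩ := hx
      rw [inv_smul_eq_iff]
      change QuotientGroup.mk (z : G) = QuotientGroup.mk (g * (z : G))
      rw [Subgroup.mem_centralizer_iff.1 z.2 g rfl, hmk1]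
    simp only [A, hfix]
    rw [show ph g x = fun i => star (ζ i) from funext (hloop x hx), Matrix.trace_add,
      mul_assoc (V x * _), cl.Q_P, mul_assoc (V x), Matrix.trace_mul_comm, mul_assoc, mul_assoc,
      hVV, mul_one]

/-- In an exact group, only finitely many classes with amenable centraliser, all of finite order,
can carry a nonzero coefficient. -/
theorem exact_support {G : Type u} [Group G] (hG : IsExactGroup G) {q : ℕ}
    {e : Fin q → Fin q → G → ℂ} (he : IsIdempotentMatrix e) :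
    ∃ F : Finset (ConjClasses G), (∀ C ∈ F, ∀ g, ConjClasses.mk g = C → IsOfFinOrder g) ∧
      ConjClasses.mk 1 ∈ F ∧
      ∀ C ∉ F, ∀ g, ConjClasses.mk g = C →
        IsAmenableGroup (Subgroup.centralizer ({g} : Set G)) → hsTrace e C = 0 := by
  classical
  obtain ⟨K, δ, hδ, hmain⟩ := exists_twist_bound he
  obtain ⟨S, p, hp0, hsupp, hsum, hvar⟩ := hG K (δ ^ 2 / 8) (by positivity)
  set T := diffSet (nbr S K)
  set Bad : Set G := {x | IsOfFinOrder x ∧
    x ∈ Subgroup.closure ((T : Set G) ∩ (Subgroup.zpowers x : Set G))} with hBad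
  have hfin : Bad.Finite := by
    refine Set.Finite.subset
      ((T.powerset.finite_toSet.subset (Set.sep_subset _
        (fun T0 : Finset G => ((Subgroup.closure (T0 : Set G) : Subgroup G) : Set G).Finite))).biUnion
          (fun T0 hT0 => hT0.2)) ?_
    rintro x ⟨hx, hxT⟩
    have hT0 : ((T.filter (· ∈ Subgroup.zpowers x) : Finset G) : Set G) =
        (T : Set G) ∩ (Subgroup.zpowers x : Set G) := by
      ext y; simp
    refine Set.mem_biUnion (x := T.filter (· ∈ Subgroup.zpowers x))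
      ⟨Finset.mem_coe.2 (Finset.mem_powerset.2 (Finset.filter_subset _ _)), ?_⟩ ?_
    · rw [hT0]
      refine hx.finite_zpowers.subset ?_
      exact (Subgroup.closure_le _).2 Set.inter_subset_right
    · rw [hT0]; exact hxT
  refine ⟨insert (ConjClasses.mk 1) (hfin.toFinset.image ConjClasses.mk), fun C hC g hg => ?_,
    Finset.mem_insert_self _ _, fun C hC g hg ham => ?_⟩
  · obtain ⟨x, hx, hxC⟩ : ∃ x, IsOfFinOrder x ∧ ConjClasses.mk x = C := by
      rcases Finset.mem_insert.1 hC with rfl | hC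
      · exact ⟨1, IsOfFinOrder.one, rfl⟩
      · obtain ⟨x, hx, rfl⟩ := Finset.mem_image.1 hC
        exact ⟨x, (hfin.mem_toFinset.1 hx).1, rfl⟩
    obtain ⟨s, hs⟩ := isConj_iff.1 (ConjClasses.mk_eq_mk_iff_isConj.1 (hxC.trans hg.symm))
    rw [← hs]
    exact (MulAut.conj s).toMonoidHom.isOfFinOrder hx
  · rw [← hg]
    refine hmain g (twist_of_exact hδ hp0 hsupp hsum hvar g (fun hfo r hr => ?_) ham)
    refine hC (Finset.mem_insert_of_mem (Finset.mem_image.2 ⟨r * g * r⁻¹,
      hfin.mem_toFinset.2 ⟨(MulAut.conj r).toMonoidHom.isOfFinOrder hfo, hr⟩, ?_⟩))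
    rw [← hg, ConjClasses.mk_eq_mk_iff_isConj]
    exact (isConj_iff.2 ⟨r, rfl⟩).symm

end Vale.Agent.P184
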