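import Mathlib

/-!
Involutions in the general linear group of a principal ideal domain with finite reduction modulo
two fall into finitely many conjugacy classes.
-/

namespace Vale.Agent.P184

open Matrix

universe u

/-- The standard involution on a split module attached to a matrix B. -/
noncomputable def stdInv {R : Type u} [CommRing R] {a b : ℕ} (B : Matrix (Fin a) (Fin b) R) :
    ((Fin a → R) × (Fin b → R)) →ₗ[R] (Fin a → R) × (Fin b → R) :=
  LinearMap.prod (LinearMap.fst R _ _ + (Matrix.mulVecLin B).comp (LinearMap.snd R _ _))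
    (-LinearMap.snd R _ _)

lemma stdInv_apply {R : Type u} [CommRing R] {a b : ℕ} (B : Matrix (Fin a) (Fin b) R)
    (x : Fin a → R) (y : Fin b → R) : stdInv B (x, y) = (x + B *ᵥ y, -y) := rfl

/-- Every involution of a finite free module has the standard shape in suitable bases. -/
theorem exists_split {R : Type u} [CommRing R] [IsDomain R] [IsPrincipalIdealRing R] [CharZero R]
    {n : ℕ} (A : Matrix (Fin n) (Fin n) R) (hA : A * A = 1) :
    ∃ (a b : Fin (n + 1)) (B : Matrix (Fin a) (Fin b) R)
      (φ : (Fin n → R) ≃ₗ[R] (Fin a → R) × (Fin b → R)),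
      ∀ v, φ (A *ᵥ v) = stdInv B (φ v) := by
  classical
  set f := Matrix.mulVecLin A
  set T := f - LinearMap.id with hT
  set U := LinearMap.ker T
  let ρ := LinearMap.range T
  have : Module.Free R ρ := inferInstance
  obtain ⟨sec, hsec⟩ := Module.projective_lifting_property T.rangeRestrict LinearMap.id
    T.surjective_rangeRestrict
  have hsec' : ∀ y : ρ, T (sec y) = y := fun y =>
    congrArg Subtype.val (LinearMap.congr_fun hsec y)
  have hinv : ∀ v, f (f v) = v := fun v => by
    simp [f, Matrix.mulVec_mulVec, hA]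
  have hTT : ∀ v, f v + v ∈ U := fun v => by
    simp only [U, LinearMap.mem_ker, hT, LinearMap.sub_apply, LinearMap.id_apply, map_add, hinv]
    abel
  let pr : (Fin n → R) →ₗ[R] U := LinearMap.codRestrict U
    (LinearMap.id - sec.comp T.rangeRestrict) fun v => by
      simp only [U, LinearMap.mem_ker, LinearMap.sub_apply, LinearMap.id_apply,
        LinearMap.comp_apply, map_sub, hsec']
      exact sub_self _
  let e : (Fin n → R) ≃ₗ[R] U × ρ :=
    LinearEquiv.ofLinear (pr.prod T.rangeRestrict) (U.subtype.coprod sec)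
      (by
        refine LinearMap.ext fun w => ?_
        obtain ⟨x, y⟩ := w
        have hx : T (x : Fin n → R) = 0 := x.2
        have h1 : T.rangeRestrict ((x : Fin n → R) + sec y) = y := Subtype.ext (by
          change T ((x : Fin n → R) + sec y) = _
          rw [map_add, hx, hsec', zero_add])
        refine Prod.ext (Subtype.ext ?_) (by simpa using h1)
        simp only [LinearMap.comp_apply, LinearMap.coprod_apply, Submodule.subtype_apply,
          LinearMap.prod_apply, LinearMap.id_apply]
        change ((x : Fin n → R) + sec y) - sec (T.rangeRestrict ((x : Fin n → R) + sec y)) = _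
        rw [h1, add_sub_cancel_right])
      (by
        refine LinearMap.ext fun v => ?_
        simp [pr])
  obtain ⟨a, bu⟩ := Submodule.basisOfPid (Pi.basisFun R (Fin n)) U
  obtain ⟨b, bw⟩ := Submodule.basisOfPid (Pi.basisFun R (Fin n)) ρ
  have hab : a + b = n := by
    have := e.finrank_eq
    rw [Module.finrank_prod, Module.finrank_eq_card_basis bu, Module.finrank_eq_card_basis bw,
      Module.finrank_fin_fun, Fintype.card_fin, Fintype.card_fin] at this
    omega
  set φ := e.trans (bu.equivFun.prodCongr bw.equivFun)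
  let β : ρ →ₗ[R] U := pr.comp (f.comp sec)
  set B := LinearMap.toMatrix' ((bu.equivFun.toLinearMap.comp β).comp bw.equivFun.symm.toLinearMap)
  refine ⟨⟨a, by omega⟩, ⟨b, by omega⟩, B, φ, fun v => ?_⟩
  obtain ⟨⟨x, y⟩, rfl⟩ := e.symm.surjective v
  have hfx : f (x : Fin n → R) = x := sub_eq_zero.1 x.2
  have hefst : ∀ z : U, e (z : Fin n → R) = (z, 0) := fun z => by
    refine e.eq_symm_apply.1 ?_
    change (z : Fin n → R) = (z : Fin n → R) + sec 0
    rw [map_zero, add_zero]
  have hTs : T.rangeRestrict (f (sec y)) = -y := Subtype.ext (by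
    change T (f (sec y)) = -(y : Fin n → R)
    rw [← hsec' y]
    simp [hT, hinv])
  have key : e (f (e.symm (x, y))) = (x + β y, -y) := by
    change e (f ((x : Fin n → R) + sec y)) = _
    rw [map_add, map_add, hfx, hefst, show e (f (sec y)) = (β y, -y) from Prod.ext rfl hTs]
    simp
  change (bu.equivFun.prodCongr bw.equivFun) (e (f (e.symm (x, y)))) =
    stdInv B ((bu.equivFun.prodCongr bw.equivFun) (e (e.symm (x, y))))
  rw [key, e.apply_symm_apply]
  simp only [LinearEquiv.prodCongr_apply, stdInv_apply, B, LinearMap.toMatrix'_mulVec,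
    LinearMap.comp_apply, LinearEquiv.coe_coe, LinearEquiv.symm_apply_apply, map_add, map_neg]

/-- Finitely many classes of involutions. -/
theorem finite_involutions {R : Type u} [CommRing R] [IsDomain R] [IsPrincipalIdealRing R]
    [CharZero R] [Finite (R ⧸ Ideal.span ({2} : Set R))] (n : ℕ) :
    ∃ reps : Finset (GL (Fin n) R), ∀ g : GL (Fin n) R, g * g = 1 →
      ∃ r ∈ reps, ∃ c : GL (Fin n) R, c * g * c⁻¹ = r := by
  classical
  have hsplit : ∀ g : {g : GL (Fin n) R // g * g = 1}, ∃ (a b : Fin (n + 1))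
      (B : Matrix (Fin a) (Fin b) R) (φ : (Fin n → R) ≃ₗ[R] (Fin a → R) × (Fin b → R)),
      ∀ v, φ ((g.1 : Matrix (Fin n) (Fin n) R) *ᵥ v) = stdInv B (φ v) := fun g =>
    exists_split _ (by rw [← Units.val_mul, g.2, Units.val_one])
  choose a b B φ hφ using hsplit
  let code : {g : GL (Fin n) R // g * g = 1} →
      Σ a : Fin (n + 1), Σ b : Fin (n + 1), Matrix (Fin a) (Fin b) (R ⧸ Ideal.span ({2} : Set R)) :=
    fun g => ⟨a g, b g, (B g).map (Ideal.Quotient.mk _)⟩
  have hconj : ∀ g g', code g = code g' → ∃ c : GL (Fin n) R, c * g.1 * c⁻¹ = g'.1 := by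
    suffices h : ∀ g g' (a b : Fin (n + 1)) (B B' : Matrix (Fin a) (Fin b) R)
        (φ φ' : (Fin n → R) ≃ₗ[R] (Fin a → R) × (Fin b → R)),
        (∀ v, φ (((g : {g : GL (Fin n) R // g * g = 1}).1 : Matrix (Fin n) (Fin n) R) *ᵥ v) =
          stdInv B (φ v)) →
        (∀ v, φ' (((g' : {g : GL (Fin n) R // g * g = 1}).1 : Matrix (Fin n) (Fin n) R) *ᵥ v) =
          stdInv B' (φ' v)) →
        B.map (Ideal.Quotient.mk (Ideal.span ({2} : Set R))) =
          B'.map (Ideal.Quotient.mk (Ideal.span ({2} : Set R))) →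
        ∃ c : GL (Fin n) R, c * g.1 * c⁻¹ = g'.1 by
      intro g g' hc
      have hg := hφ g
      have hg' := hφ g'
      simp only [code] at hc
      generalize a g = a1, b g = b1, B g = B1, φ g = φ1, a g' = a2, b g' = b2, B g' = B2,
        φ g' = φ2 at hc hg hg'
      obtain ⟨rfl, hc⟩ := Sigma.mk.inj_iff.1 hc
      obtain ⟨rfl, hc⟩ := Sigma.mk.inj_iff.1 (eq_of_heq hc)
      exact h g g' a1 b1 B1 B2 φ1 φ2 hg hg' (eq_of_heq hc)
    intro g g' a b B B' φ φ' hg hg' hB
    have hdiv : ∀ i j, ∃ t, B i j - B' i j = 2 * t := fun i j =>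
      Ideal.mem_span_singleton.1
        (Ideal.Quotient.eq.1 (congrFun (congrFun hB i) j))
    choose t ht using hdiv
    set T : Matrix (Fin a) (Fin b) R := Matrix.of t
    have hBT : B = B' + T + T := by
      ext i j
      have := ht i j
      simp only [T, Matrix.add_apply, Matrix.of_apply]
      linear_combination this
    let sh : ((Fin a → R) × (Fin b → R)) ≃ₗ[R] (Fin a → R) × (Fin b → R) :=
      { toFun := fun w => (w.1 + T *ᵥ w.2, w.2)
        invFun := fun w => (w.1 - T *ᵥ w.2, w.2)
        map_add' := fun w w' => Prod.ext (by simp [Matrix.mulVec_add]; abel) rfl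
        map_smul' := fun r w => Prod.ext (by simp [Matrix.mulVec_smul]) rfl
        left_inv := fun w => Prod.ext (by simp) rfl
        right_inv := fun w => Prod.ext (by simp) rfl }
    have hsh : ∀ w, sh (stdInv B w) = stdInv B' (sh w) := by
      rintro ⟨x, y⟩
      simp only [stdInv_apply, sh]
      refine Prod.ext ?_ rfl
      simp only [hBT, LinearEquiv.coe_mk, LinearMap.coe_mk, AddHom.coe_mk, stdInv_apply,
        Matrix.add_mulVec, Matrix.mulVec_neg]
      abel
    set θ := (φ.trans sh).trans φ'.symm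
    have hθ : ∀ v, θ ((g.1 : Matrix (Fin n) (Fin n) R) *ᵥ v) =
        (g'.1 : Matrix (Fin n) (Fin n) R) *ᵥ θ v := fun v => by
      apply φ'.injective
      rw [hg']
      simp [θ, hg, hsh]
    let c : GL (Fin n) R :=
      ⟨LinearMap.toMatrix' θ.toLinearMap, LinearMap.toMatrix' θ.symm.toLinearMap,
        by rw [← LinearMap.toMatrix'_comp]; simp,
        by rw [← LinearMap.toMatrix'_comp]; simp⟩
    refine ⟨c, mul_inv_eq_iff_eq_mul.2 (Units.ext (Matrix.ext_of_mulVec_single fun i => ?_))⟩
    simp only [c, Units.val_mul, ← Matrix.mulVec_mulVec, LinearMap.toMatrix'_mulVec]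
    exact hθ _
  have hfin : (Set.range code).Finite := Set.toFinite _
  have hpick : ∀ z : Set.range code, ∃ g, code g = z.1 := fun z => z.2
  choose pick hpick using hpick
  have : Fintype (Set.range code) := hfin.fintype
  refine ⟨Finset.univ.image fun z => (pick z).1, fun g hg => ?_⟩
  obtain ⟨c, hc⟩ := hconj ⟨g, hg⟩ _ (hpick ⟨code ⟨g, hg⟩, ⟨g, hg⟩, rfl⟩).symm
  exact ⟨_, Finset.mem_image_of_mem _ (Finset.mem_univ _), c, hc⟩

end Vale.Agent.P184
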