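import Vale.Agent.P184.SmallDegree
import Vale.Agent.P184.Involution
import Vale.Agent.P184.ExactTwist
import Vale.Agent.P184.Defs

/-!
The ℓ¹-Bass conjecture for finite index subgroups of GL₃ over rings of S-integers in ℚ.
-/

namespace Vale.Agent.P184

open Matrix Polynomial

universe u

/-- A monic cubic real polynomial has a root. -/
lemma exists_root_cubic (p : ℝ[X]) (hm : p.Monic) (hd : p.natDegree = 3) : ∃ x, p.eval x = 0 := by
  set B := 1 + |p.coeff 2| + |p.coeff 1| + |p.coeff 0|
  have hev : ∀ x, p.eval x = p.coeff 0 + p.coeff 1 * x + p.coeff 2 * x ^ 2 + x ^ 3 := fun x => by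
    rw [eval_eq_sum_range, hd]
    have h3 : p.coeff 3 = 1 := hd ▸ hm.coeff_natDegree
    simp [Finset.sum_range_succ, h3]
  have a0 := abs_nonneg (p.coeff 0)
  have a1 := abs_nonneg (p.coeff 1)
  have a2 := abs_nonneg (p.coeff 2)
  have hB1 : 1 ≤ B := by simp only [B]; linarith
  have hBsq : B ≤ B ^ 2 := by nlinarith
  have hsum : |p.coeff 0| + |p.coeff 1| * B + |p.coeff 2| * B ^ 2 ≤ (B - 1) * B ^ 2 := by
    have h1 := mul_le_mul_of_nonneg_left hBsq a1
    have h2 := mul_le_mul_of_nonneg_left (hB1.trans hBsq) a0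
    simp only [B] at h1 h2 ⊢
    nlinarith
  have hlo : p.eval (-B) ≤ 0 := by
    rw [hev]
    have := le_abs_self (p.coeff 0)
    have := mul_le_mul_of_nonneg_right (neg_abs_le (p.coeff 1)) (zero_le_one.trans hB1)
    have := mul_le_mul_of_nonneg_right (le_abs_self (p.coeff 2)) (sq_nonneg B)
    nlinarith
  have hhi : 0 ≤ p.eval B := by
    rw [hev]
    have := neg_abs_le (p.coeff 0)
    have := mul_le_mul_of_nonneg_right (neg_abs_le (p.coeff 1)) (zero_le_one.trans hB1)
    have := mul_le_mul_of_nonneg_right (neg_abs_le (p.coeff 2)) (sq_nonneg B)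
    nlinarith
  obtain ⟨x, -, hx⟩ := intermediate_value_Icc (by linarith : -B ≤ B) p.continuous.continuousOn
    (show (0 : ℝ) ∈ Set.Icc (p.eval (-B)) (p.eval B) from ⟨hlo, hhi⟩)
  exact ⟨x, hx⟩

/-- A torsion element of GL₃(ℚ) that is not an involution has amenable centraliser. -/
theorem isAmenableGroup_torsion_three (A : GL (Fin 3) ℚ) (hA : IsOfFinOrder A) (h2 : A * A ≠ 1) :
    IsAmenableGroup (Subgroup.centralizer ({A} : Set (GL (Fin 3) ℚ))) := by
  classical
  obtain ⟨k, hk, hAk⟩ := isOfFinOrder_iff_pow_eq_one.1 hA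
  set M := (A : Matrix (Fin 3) (Fin 3) ℚ)
  set p := minpoly ℚ M
  have hMk : M ^ k = 1 := by rw [← Units.val_pow_eq_pow_val, hAk, Units.val_one]
  have hpdvd : p ∣ X ^ k - 1 := minpoly.dvd ℚ M (by simp [hMk])
  have hsep : p.Separable :=
    (separable_X_pow_sub_C (1 : ℚ) (Nat.cast_ne_zero.2 hk.ne') one_ne_zero).of_dvd (by simpa using hpdvd)
  have hpm : p.Monic := minpoly.monic (Matrix.isIntegral M)
  have hcd : p ∣ M.charpoly := Matrix.minpoly_dvd_charpoly M
  have hdeg : p.natDegree ≤ 3 := by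
    have := natDegree_le_of_dvd hcd (charpoly_monic M).ne_zero
    rwa [charpoly_natDegree_eq_dim, Fintype.card_fin] at this
  have heig : ∀ {F : Type} [Field F] (f : ℚ →+* F) (l : F), (M.charpoly.map f).IsRoot l →
      ∃ v : Fin 3 → F, v ≠ 0 ∧ (M.map f) *ᵥ v = l • v ∧ (p.map f).IsRoot l := by
    intro F _ f l hl
    have hl' : (Matrix.scalar (Fin 3) l - M.map f).det = 0 := by
      rw [← Matrix.eval_charpoly]
      exact (congrArg (Polynomial.eval l) (Matrix.charpoly_map M f)).trans hl
    obtain ⟨v, hv0, hv⟩ := Matrix.exists_mulVec_eq_zero_iff.2 hl'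
    have hv' : (M.map f) *ᵥ v = l • v := by
      rw [Matrix.sub_mulVec, sub_eq_zero] at hv
      rw [← hv]
      funext i
      simp [Matrix.scalar_apply, Matrix.mulVec_diagonal]
    refine ⟨v, hv0, hv', ?_⟩
    have hpow : ∀ i : ℕ, ((M.map f) ^ i) *ᵥ v = (l ^ i) • v := fun i => by
      induction i with
      | zero => simp
      | succ i ih =>
        rw [pow_succ, ← Matrix.mulVec_mulVec, hv', Matrix.mulVec_smul, ih, smul_smul, pow_succ']
    have h0 : f.mapMatrix (Polynomial.aeval M p) = 0 := by rw [minpoly.aeval, map_zero]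
    rw [aeval_eq_sum_range, map_sum] at h0
    have h1 := congrArg (fun Z : Matrix (Fin 3) (Fin 3) F => Z *ᵥ v) h0
    have hterm : ∀ i, (f.mapMatrix (p.coeff i • M ^ i)) *ᵥ v = (f (p.coeff i) * l ^ i) • v := by
      intro i
      rw [← smul_smul, ← hpow, ← Matrix.smul_mulVec]
      congr 1
      rw [← RingHom.mapMatrix_apply, ← map_pow]
      ext a b
      simp only [RingHom.mapMatrix_apply, Matrix.map_apply, Matrix.smul_apply, smul_eq_mul, map_mul]
    simp only [Matrix.sum_mulVec, hterm, Matrix.zero_mulVec, ← Finset.sum_smul] at h1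
    have h3 := (smul_eq_zero.1 h1).resolve_right hv0
    rw [IsRoot, eval_map, eval₂_eq_sum_range]
    exact h3
  rcases Nat.lt_or_ge p.natDegree 3 with hlt | hge
  · exfalso
    obtain ⟨x, hx⟩ := exists_root_cubic (M.charpoly.map (Rat.castHom ℝ))
      ((charpoly_monic M).map _) (by rw [natDegree_map, charpoly_natDegree_eq_dim, Fintype.card_fin])
    obtain ⟨-, -, -, hxp⟩ := heig (Rat.castHom ℝ) x hx
    have hroot : ∀ {F : Type} [Field F] (f : ℚ →+* F) (l : F), (p.map f).IsRoot l → l ^ k = 1 := by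
      intro F _ f l hl
      have := hl.dvd (Polynomial.map_dvd f hpdvd)
      simpa [IsRoot, sub_eq_zero] using this
    have hpm1 : ∀ {F : Type} [Field F] [LinearOrder F] [IsStrictOrderedRing F] (y : F),
        y ^ k = 1 → y = 1 ∨ y = -1 := by
      intro F _ _ _ y hy
      exact (abs_eq zero_le_one).1 ((pow_eq_one_iff_of_nonneg (abs_nonneg y) hk.ne').1
        (by rw [← abs_pow, hy, abs_one]))
    obtain ⟨ε, hε, hεroot⟩ : ∃ ε : ℚ, (ε = 1 ∨ ε = -1) ∧ p.IsRoot ε := by
      rcases hpm1 x (hroot _ x hxp) with rfl | rfl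
      · refine ⟨1, Or.inl rfl, (Polynomial.isRoot_map_iff (Rat.castHom ℝ).injective).1 ?_⟩
        rw [map_one]; exact hxp
      · refine ⟨-1, Or.inr rfl, (Polynomial.isRoot_map_iff (Rat.castHom ℝ).injective).1 ?_⟩
        rw [map_neg, map_one]; exact hxp
    obtain ⟨r, hr⟩ := dvd_iff_isRoot.2 hεroot
    have hrm : r.Monic := (monic_X_sub_C ε).of_mul_monic_left (hr ▸ hpm)
    have hrd : r.natDegree ≤ 1 := by
      rw [hr, (monic_X_sub_C ε).natDegree_mul hrm, natDegree_X_sub_C] at hlt
      omega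
    refine h2 (Units.ext ?_)
    rw [Units.val_mul, Units.val_one]
    have hann := minpoly.aeval ℚ M
    change Polynomial.aeval M p = 0 at hann
    rw [hr] at hann
    rcases Nat.eq_zero_or_pos r.natDegree with h0 | h1
    · rw [hrm.natDegree_eq_zero.1 h0, mul_one, map_sub, aeval_X, aeval_C, sub_eq_zero] at hann
      change M * M = 1
      rw [hann, ← map_mul]
      rcases hε with rfl | rfl <;> simp
    · have hr1 : r = X + C (r.coeff 0) := hrm.eq_X_add_C (by omega)
      have hμroot : p.IsRoot (-(r.coeff 0)) := by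
        rw [hr, hr1]; simp [IsRoot]
      have hμ := hpm1 (-(r.coeff 0)) (hroot (RingHom.id ℚ) _ (by rwa [Polynomial.map_id]))
      have hne : -(r.coeff 0) ≠ ε := by
        intro he
        have h3 := hsep.squarefree (X - C ε) ⟨1, by
          rw [hr]
          conv_lhs => rw [hr1]
          rw [← he, map_neg, sub_neg_eq_add, mul_one]⟩
        exact not_isUnit_X_sub_C ε h3
      rw [hr1, map_mul, map_sub, map_add, aeval_X, aeval_C, aeval_C] at hann
      change M * M = 1
      rcases hμ with hμ | hμ <;> rcases hε with rfl | rfl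
      · exact absurd hμ hne
      · rw [show r.coeff 0 = -1 by linarith, map_neg, map_one] at hann
        exact sub_eq_zero.1 (by rw [← hann]; noncomm_ring)
      · rw [show r.coeff 0 = 1 by linarith, map_one] at hann
        exact sub_eq_zero.1 (by rw [← hann]; noncomm_ring)
      · exact absurd hμ hne
  set f := algebraMap ℚ ℂ
  have hcard : Fintype.card ↥((p.map f).roots.toFinset) = 3 := by
    rw [Fintype.card_coe, Multiset.toFinset_card_of_nodup (nodup_roots hsep.map),
      IsAlgClosed.card_roots_eq_natDegree, natDegree_map]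
    omega
  set e := (Fintype.equivFinOfCardEq hcard).symm
  set l : Fin 3 → ℂ := fun i => ((e i : ℂ))
  have hl : Function.Injective l := Subtype.val_injective.comp e.injective
  have hlroot : ∀ i, (M.charpoly.map f).IsRoot (l i) := fun i =>
    ((mem_roots'.1 (Multiset.mem_toFinset.1 (e i).2)).2).dvd (Polynomial.map_dvd f hcd)
  choose v hv0 hv _ using fun i => heig f (l i) (hlroot i)
  have hli : LinearIndependent ℂ v :=
    Module.End.eigenvectors_linearIndependent' (Matrix.mulVecLin (M.map f)) l hl v fun i =>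
      Module.End.hasEigenvector_iff.2 ⟨Module.End.mem_eigenspace_iff.2 (hv i), hv0 i⟩
  set B : Matrix (Fin 3) (Fin 3) ℂ := Matrix.of fun a i => v i a
  have hBu : IsUnit B := Matrix.linearIndependent_cols_iff_isUnit.1 hli
  have hMB : M.map f * B = B * Matrix.diagonal l := by
    ext a i
    rw [Matrix.mul_diagonal]
    exact (congrFun (hv i) a).trans (mul_comm _ _)
  obtain ⟨P, hP⟩ := hBu
  let F : Subgroup.centralizer ({A} : Set (GL (Fin 3) ℚ)) → Matrix (Fin 3) (Fin 3) ℂ := fun Y =>
    Units.val P⁻¹ * ((Y : GL (Fin 3) ℚ) : Matrix (Fin 3) (Fin 3) ℚ).map f * B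
  have hdiag : ∀ Y, ∀ a b, a ≠ b → F Y a b = 0 := by
    intro Y a b hab
    have hY : ((Y : GL (Fin 3) ℚ) : Matrix (Fin 3) (Fin 3) ℚ).map f * M.map f =
        M.map f * ((Y : GL (Fin 3) ℚ) : Matrix (Fin 3) (Fin 3) ℚ).map f := by
      have h1 := congrArg (fun Z : GL (Fin 3) ℚ => f.mapMatrix (Units.val Z))
        (Subgroup.mem_centralizer_singleton_iff.1 Y.2)
      simpa only [Units.val_mul, map_mul, RingHom.mapMatrix_apply] using h1
    have e3 : Matrix.diagonal l * Units.val P⁻¹ = Units.val P⁻¹ * M.map f := by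
      calc Matrix.diagonal l * Units.val P⁻¹
          = Units.val P⁻¹ * (Units.val P * Matrix.diagonal l) * Units.val P⁻¹ := by
            rw [← Matrix.mul_assoc, Units.inv_mul, Matrix.one_mul]
        _ = Units.val P⁻¹ * (M.map f * Units.val P) * Units.val P⁻¹ := by rw [hP, hMB]
        _ = _ := by rw [Matrix.mul_assoc, Matrix.mul_assoc, Units.mul_inv, Matrix.mul_one]
    have h4 : F Y * Matrix.diagonal l = Matrix.diagonal l * F Y := by
      simp only [F]
      calc Units.val P⁻¹ * ((Y : GL (Fin 3) ℚ) : Matrix (Fin 3) (Fin 3) ℚ).map f * B *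
            Matrix.diagonal l
          = Units.val P⁻¹ * (((Y : GL (Fin 3) ℚ) : Matrix (Fin 3) (Fin 3) ℚ).map f * M.map f) * B := by
            rw [Matrix.mul_assoc, ← hMB]; simp only [Matrix.mul_assoc]
        _ = Units.val P⁻¹ * M.map f * ((Y : GL (Fin 3) ℚ) : Matrix (Fin 3) (Fin 3) ℚ).map f * B := by
            rw [hY]; simp only [Matrix.mul_assoc]
        _ = _ := by rw [← e3]; simp only [Matrix.mul_assoc]
    have h5 := congrFun (congrFun h4 a) b
    rw [Matrix.mul_diagonal, Matrix.diagonal_mul] at h5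
    have h6 : F Y a b * (l b - l a) = 0 := by linear_combination h5
    exact (mul_eq_zero.1 h6).resolve_right (sub_ne_zero.2 fun h => hab (hl h).symm)
  refine isAmenableGroup_of_comm fun Y Z => Subtype.ext (Units.ext ?_)
  refine Matrix.map_injective f.injective ?_
  have hFd : ∀ W, F W = Matrix.diagonal fun a => F W a a := fun W => Matrix.ext fun a b => by
    rcases eq_or_ne a b with rfl | h
    · simp
    · rw [Matrix.diagonal_apply_ne _ h, hdiag W a b h]
  have hFmul : ∀ W W', F (W * W') = F W * F W' := fun W W' => by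
    simp only [F, Subgroup.coe_mul, Units.val_mul, Matrix.map_mul]
    rw [← hP]
    simp only [Matrix.mul_assoc, Units.mul_inv_cancel_left]
  have h6 : F (Y * Z) = F (Z * Y) := by
    rw [hFmul, hFmul, hFd Y, hFd Z, Matrix.diagonal_mul_diagonal, Matrix.diagonal_mul_diagonal]
    exact congrArg _ (funext fun a => mul_comm _ _)
  simp only [F] at h6
  rw [← hP] at h6
  exact (Units.mul_right_inj (P⁻¹)).1 ((Units.mul_left_inj P).1 h6)

/-- The conjecture for groups embedded with finite index in GL₃ over a subring of S-integers. -/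
theorem satisfiesL1Bass_gl_three {G : Type u} [Group G] {R : Type} [CommRing R] [IsDomain R]
    [IsPrincipalIdealRing R] [CharZero R] [Finite (R ⧸ Ideal.span ({2} : Set R))]
    (f : R →+* ℚ) (hf : Function.Injective f) (P : Finset ℕ) (hP : ∀ r, DenIn P (f r))
    (ρ : G →* GL (Fin 3) R) (hρ : Function.Injective ρ) [hfi : ρ.range.FiniteIndex] :
    SatisfiesL1Bass G := by
  classical
  set ψ : G →* GL (Fin 3) ℚ := (Units.map f.mapMatrix.toMonoidHom).comp ρ
  have hmapinj : Function.Injective (Units.map (f.mapMatrix (m := Fin 3)).toMonoidHom) :=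
    Units.map_injective (Matrix.map_injective hf)
  have hψ : Function.Injective ψ := hmapinj.comp hρ
  have hex : IsExactGroup G := isExactGroup_of_rat ψ hψ P fun h i j => hP _
  have htor : ∀ g : G, IsOfFinOrder g → g * g ≠ 1 →
      IsAmenableGroup (Subgroup.centralizer ({g} : Set G)) := by
    intro g hg hg2
    let π : Subgroup.centralizer ({g} : Set G) →*
        Subgroup.centralizer ({ψ g} : Set (GL (Fin 3) ℚ)) :=
      (ψ.comp (Subgroup.subtype _)).codRestrict _ fun c => by
        rw [Subgroup.mem_centralizer_singleton_iff]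
        change ψ c * ψ g = ψ g * ψ c
        rw [← map_mul, ← map_mul, Subgroup.mem_centralizer_singleton_iff.1 c.2]
    refine IsAmenableGroup.of_injective π
      (fun a b hab => Subtype.ext (hψ (congrArg Subtype.val hab)))
      (isAmenableGroup_torsion_three _ (ψ.isOfFinOrder hg) fun h => hg2 (hψ ?_))
    rw [map_mul, map_one]; exact h
  obtain ⟨reps, hreps⟩ := finite_involutions (R := R) 3
  set I : Set (ConjClasses G) := {C | ∃ g, ConjClasses.mk g = C ∧ g * g = 1}
  have hI : I.Finite := by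
    have key : ∀ C : I, ∃ (r : reps) (t : GL (Fin 3) R ⧸ ρ.range) (y : G),
        ConjClasses.mk y = C.1 ∧ ρ y = t.out⁻¹ * r.1 * t.out := by
      rintro ⟨C, g, rfl, hg⟩
      obtain ⟨r, hr, c, hc⟩ := hreps (ρ g) (by rw [← map_mul, hg, map_one])
      obtain ⟨s, hs⟩ : ∃ s : ρ.range,
          (QuotientGroup.mk c : GL (Fin 3) R ⧸ ρ.range).out = c * s :=
        QuotientGroup.mk_out_eq_mul ρ.range c
      obtain ⟨s0, hs0⟩ := s.2
      refine ⟨⟨r, hr⟩, QuotientGroup.mk c, s0⁻¹ * g * s0, ?_, ?_⟩
      · rw [ConjClasses.mk_eq_mk_iff_isConj]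
        exact (isConj_iff.2 ⟨s0⁻¹, by group⟩ : IsConj g (s0⁻¹ * g * s0)).symm
      · change ρ (s0⁻¹ * g * s0) = _⁻¹ * r * _
        rw [hs, ← hs0, map_mul, map_mul, map_inv, ← hc]
        group
    choose rr tt yy hyy using key
    have hinj : Function.Injective fun C : I => (rr C, tt C) := by
      intro C C' h
      simp only [Prod.mk.injEq] at h
      have h1 := (hyy C).2
      rw [h.1, h.2, ← (hyy C').2] at h1
      exact Subtype.ext (by rw [← (hyy C).1, ← (hyy C').1, hρ h1])
    exact Set.finite_coe_iff.1 (Finite.of_injective _ hinj)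
  intro q e he
  obtain ⟨F, hF, -, hF0⟩ := exact_support hex he
  refine ⟨F ∪ hI.toFinset, fun C hC g hg => ?_, fun C hC => ?_⟩
  · rcases Finset.mem_union.1 hC with hC | hC
    · exact hF C hC g hg
    · obtain ⟨x, hxC, hx⟩ := hI.mem_toFinset.1 hC
      obtain ⟨s, hs⟩ := isConj_iff.1 (ConjClasses.mk_eq_mk_iff_isConj.1 (hxC.trans hg.symm))
      rw [← hs]
      exact (MulAut.conj s).toMonoidHom.isOfFinOrder
        (isOfFinOrder_iff_pow_eq_one.2 ⟨2, two_pos, by rw [sq, hx]⟩)
  · obtain ⟨g, rfl⟩ := C.exists_rep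
    simp only [Finset.mem_union, not_or, Set.Finite.mem_toFinset] at hC
    by_cases hg : IsOfFinOrder g
    · exact hF0 _ hC.1 g rfl (htor g hg fun h => hC.2 ⟨g, rfl, h⟩)
    · exact hsTrace_eq_zero_degree_three le_rfl ψ hψ g hg he

end Vale.Agent.P184
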