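import Mathlib

/-!
Clifford elements: a linear odd self-adjoint family squaring to the squared length, equivariant
for diagonal phases, with supertrace of the phases equal to a product.
-/

namespace Vale.Agent.P184

open Matrix
open scoped Matrix.Norms.L2Operator

/-- Clifford data on N complex variables. -/
structure Cliff (N : ℕ) where
  ι : Type
  fin : Fintype ι
  dec : DecidableEq ι
  nonempty : Nonempty ι
  Q : (Fin N → ℂ) → Matrix ι ι ℂ
  P : Matrix ι ι ℂ
  D : (Fin N → ℂ) → Matrix ι ι ℂ
  P_idem : P * P = P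
  P_star : star P = P
  Q_sub : ∀ v w, Q v - Q w = Q (v - w)
  Q_star : ∀ v, star (Q v) = Q v
  Q_sq : ∀ v, Q v * Q v = ((∑ i, ‖v i‖ ^ 2 : ℝ) : ℂ) • 1
  Q_P : ∀ v, Q v * P = (1 - P) * Q v
  D_P : ∀ u, D u * P = P * D u
  D_one : D (fun _ => 1) = 1
  D_mul : ∀ u u', D u * D u' = D (u * u')
  D_star : ∀ u, star (D u) = D (star u)
  D_Q : ∀ u v, (∀ i, ‖u i‖ = 1) → D u * Q v = Q (u * v) * D u
  super : ∀ u, (D u * P).trace - (D u * (1 - P)).trace = ∏ i, (1 - u i)

attribute [instance] Cliff.fin Cliff.dec Cliff.nonempty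

/-- Clifford data exist in every dimension. -/
theorem exists_cliff : ∀ N : ℕ, Nonempty (Cliff N) := by
  intro N
  induction N with
  | zero =>
    exact ⟨{
      ι := Unit, fin := inferInstance, dec := inferInstance, nonempty := inferInstance
      Q := fun _ => 0, P := 1, D := fun _ => 1
      P_idem := by simp
      P_star := by simp
      Q_sub := fun _ _ => sub_zero 0
      Q_star := fun _ => star_zero _
      Q_sq := fun _ => by simp
      Q_P := fun _ => by simp
      D_P := fun _ => by simp
      D_one := rfl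
      D_mul := fun _ _ => one_mul 1
      D_star := fun _ => star_one _
      D_Q := fun _ _ _ => by simp
      super := fun _ => by simp }⟩
  | succ N ih =>
    obtain ⟨c⟩ := ih
    have hR : (1 : Matrix (c.ι ⊕ c.ι) (c.ι ⊕ c.ι) ℂ) - fromBlocks c.P 0 0 (1 - c.P) =
        fromBlocks (1 - c.P) 0 0 c.P := by
      rw [eq_comm, eq_sub_iff_add_eq, fromBlocks_add]
      simp [fromBlocks_one]
    exact ⟨{
      ι := c.ι ⊕ c.ι, fin := inferInstance, dec := inferInstance, nonempty := inferInstance
      Q := fun v => fromBlocks (c.Q (fun i => v i.succ)) (star (v 0) • 1) (v 0 • 1)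
        (-c.Q (fun i => v i.succ))
      P := fromBlocks c.P 0 0 (1 - c.P)
      D := fun u => fromBlocks (c.D (fun i => u i.succ)) 0 0 (u 0 • c.D (fun i => u i.succ))
      P_idem := by
        simp [fromBlocks_multiply, sub_mul, mul_sub, c.P_idem]
      P_star := by
        simp [star_eq_conjTranspose, fromBlocks_conjTranspose,
          (star_eq_conjTranspose c.P).symm.trans c.P_star]
      Q_sub := fun v w => by
        rw [sub_eq_add_neg, fromBlocks_neg, fromBlocks_add]
        congr 1
        · rw [← sub_eq_add_neg, c.Q_sub]; rfl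
        · rw [← sub_eq_add_neg, ← sub_smul, Pi.sub_apply, star_sub]
        · rw [← sub_eq_add_neg, ← sub_smul]; rfl
        · have h := c.Q_sub (fun i => v i.succ) (fun i => w i.succ)
          rw [neg_neg, neg_add_eq_sub, ← neg_sub (c.Q (fun i => v i.succ)), h]; rfl
      Q_star := fun v => by
        have h := fun x => (star_eq_conjTranspose (c.Q x)).symm.trans (c.Q_star x)
        simp [star_eq_conjTranspose, fromBlocks_conjTranspose, h]
      Q_sq := fun v => by
        have h : star (v 0) * v 0 = ((‖v 0‖ ^ 2 : ℝ) : ℂ) := by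
          rw [Complex.star_def, Complex.conj_mul']; push_cast; ring
        rw [fromBlocks_multiply, Fin.sum_univ_succ, ← fromBlocks_one, fromBlocks_smul]
        simp only [smul_mul_smul_comm, mul_one, neg_mul, mul_neg, neg_neg, smul_zero,
          mul_comm (v 0) (star (v 0)), h, c.Q_sq, ← add_smul, Complex.ofReal_add]
        congr 1
        · congr 1; ring
        · rw [Matrix.mul_smul, Matrix.smul_mul, mul_one, one_mul, add_neg_cancel]
        · rw [Matrix.mul_smul, Matrix.smul_mul, mul_one, one_mul, add_neg_cancel]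
      Q_P := fun v => by
        simp only [hR, fromBlocks_multiply, zero_mul, mul_zero, zero_add, add_zero]
        congr 1
        · exact c.Q_P _
        · simp [mul_sub, smul_sub]
        · simp
        · rw [neg_mul, mul_neg, neg_inj, mul_sub, mul_one, c.Q_P, sub_mul, one_mul,
            sub_sub_cancel]
      D_P := fun u => by
        simp [fromBlocks_multiply, c.D_P, sub_mul, mul_sub, smul_sub]
      D_one := by simp [c.D_one, fromBlocks_one]
      D_mul := fun u u' => by
        simp only [fromBlocks_multiply, mul_zero, zero_mul, add_zero, zero_add, c.D_mul,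
          smul_mul_smul_comm]
        rfl
      D_star := fun u => by
        have h := fun x => (star_eq_conjTranspose (c.D x)).symm.trans (c.D_star x)
        simp [star_eq_conjTranspose, fromBlocks_conjTranspose, conjTranspose_smul, h]
        exact ⟨rfl, congrArg _ rfl⟩
      D_Q := fun u v hu => by
        have h := c.D_Q (fun i => u i.succ) (fun i => v i.succ) (fun i => hu _)
        have h0 : star (u 0) * u 0 = 1 := by
          rw [Complex.star_def, Complex.conj_mul', hu]; simp
        simp only [fromBlocks_multiply, mul_zero, zero_mul, add_zero, zero_add, Pi.mul_apply]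
        congr 1
        · rw [Matrix.mul_smul, mul_one, Matrix.smul_mul, one_mul, smul_smul]
          congr 1
          rw [star_mul', mul_right_comm, h0, one_mul]
        · rw [Matrix.mul_smul, mul_one, Matrix.smul_mul, one_mul, smul_smul, mul_comm (v 0)]
        · rw [Matrix.smul_mul, mul_neg, h, neg_mul, Matrix.mul_smul, smul_neg]; rfl
      super := fun u => by
        simp only [hR, fromBlocks_multiply, mul_zero, zero_mul, add_zero, zero_add,
          Matrix.smul_mul, Matrix.trace, Fintype.sum_sum_type, Matrix.diag_apply,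
          fromBlocks_apply₁₁, fromBlocks_apply₂₂, Matrix.smul_apply, smul_eq_mul,
          ← Finset.mul_sum, Fin.prod_univ_succ]
        rw [← c.super]
        simp only [Matrix.trace, Matrix.diag_apply]
        ring }⟩

namespace Cliff

variable {N : ℕ} (c : Cliff N)

lemma Q_norm (v : Fin N → ℂ) : ‖c.Q v‖ ^ 2 = ∑ i, ‖v i‖ ^ 2 := by
  have h := CStarRing.norm_star_mul_self (x := c.Q v)
  rw [c.Q_star, c.Q_sq, norm_smul, norm_one, mul_one, Complex.norm_real, Real.norm_eq_abs,
    abs_of_nonneg (Finset.sum_nonneg fun i _ => sq_nonneg _)] at h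
  rw [h]; ring

lemma P_norm : ‖c.P‖ ≤ 1 := by
  have h := CStarRing.norm_star_mul_self (x := c.P)
  rw [c.P_star, c.P_idem] at h
  rcases eq_or_ne ‖c.P‖ 0 with h0 | h0
  · rw [h0]; exact zero_le_one
  · exact le_of_eq (mul_right_cancel₀ h0 (by rw [← h, one_mul]))

lemma D_unitary (u : Fin N → ℂ) (hu : ∀ i, ‖u i‖ = 1) : star (c.D u) * c.D u = 1 := by
  rw [c.D_star, c.D_mul]
  have e : star u * u = fun _ => 1 := by
    funext i
    simp [Complex.conj_mul', hu]
  rw [e, c.D_one]

lemma D_norm (u : Fin N → ℂ) (hu : ∀ i, ‖u i‖ = 1) : ‖c.D u‖ ≤ 1 := by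
  have h := CStarRing.norm_star_mul_self (x := c.D u)
  rw [c.D_unitary u hu, norm_one] at h
  nlinarith [norm_nonneg (c.D u)]

lemma P_mul_compl : c.P * (1 - c.P) = 0 ∧ (1 - c.P) * c.P = 0 ∧
    (1 - c.P) * (1 - c.P) = 1 - c.P := by
  refine ⟨?_, ?_, ?_⟩ <;> simp [mul_sub, sub_mul, c.P_idem]

/-- Products of operators extended by the identity from the even part. -/
lemma block_mul {A B : Matrix c.ι c.ι ℂ} (hB : B * c.P = c.P * B) :
    (A * c.P + (1 - c.P)) * (B * c.P + (1 - c.P)) = A * B * c.P + (1 - c.P) := by
  obtain ⟨h1, h2, h3⟩ := c.P_mul_compl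
  have e1 : A * c.P * (B * c.P) = A * B * c.P := by
    rw [hB, mul_assoc A, ← mul_assoc c.P c.P, c.P_idem, ← hB, mul_assoc]
  have e2 : A * c.P * (1 - c.P) = 0 := by rw [mul_assoc, h1, mul_zero]
  have e3 : (1 - c.P) * (B * c.P) = 0 := by rw [hB, ← mul_assoc, h2, zero_mul]
  rw [add_mul, mul_add, mul_add, e1, e2, e3, h3, add_zero, zero_add]

lemma block_norm {A : Matrix c.ι c.ι ℂ} (hA : A * c.P = c.P * A) (hu : star A * A = 1) :
    ‖A * c.P + (1 - c.P)‖ ≤ 1 := by
  have hs : star (A * c.P + (1 - c.P)) = star A * c.P + (1 - c.P) := by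
    have := congrArg star hA
    rw [star_mul, star_mul, c.P_star] at this
    rw [star_add, star_mul, c.P_star, star_sub, star_one, c.P_star, this]
  have h := CStarRing.norm_star_mul_self (x := A * c.P + (1 - c.P))
  rw [hs, c.block_mul hA, hu, one_mul, add_sub_cancel, norm_one] at h
  nlinarith [norm_nonneg (A * c.P + (1 - c.P))]

end Cliff

end Vale.Agent.P184
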