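import Vale.Agent.P184.ExactDefs

/-!
A criterion for exactness: a proper orbit in a space of bounded geometry carrying flows that bring
nearby points together.
-/

namespace Vale.Agent.P184

open Filter Topology

universe u

/-- Uniform bounded geometry: balls are covered by boundedly many balls of radius 1/4. -/
def HasBddGeom (X : Type*) [PseudoMetricSpace X] : Prop :=
  ∀ R : ℝ, ∃ M : ℕ, ∀ x : X, ∃ F : Finset X, F.card ≤ M ∧
    ∀ y, dist x y ≤ R → ∃ z ∈ F, dist z y ≤ 1 / 4

open Classical in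
/-- Finite families of bounded displacement maps which move nearby points ε-close, after
permuting the index and up to an ε-fraction of indices. -/
def HasFlows (X : Type*) [PseudoMetricSpace X] : Prop :=
  ∀ R ε : ℝ, 0 < ε → ∃ (D : ℝ) (I : Type) (_ : Fintype I) (Φ : I → X → X), Nonempty I ∧
    (∀ x i, dist x (Φ i x) ≤ D) ∧
    ∀ x y, dist x y ≤ R → ∃ σ : I ≃ I,
      ((Finset.univ.filter fun i => ε < dist (Φ i x) (Φ (σ i) y)).card : ℝ) ≤ ε * Fintype.card I

theorem hasBddGeom_prod {X Y : Type*} [PseudoMetricSpace X] [PseudoMetricSpace Y]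
    (hX : HasBddGeom X) (hY : HasBddGeom Y) : HasBddGeom (X × Y) := by
  intro R
  obtain ⟨M, hM⟩ := hX R
  obtain ⟨M', hM'⟩ := hY R
  refine ⟨M * M', fun p => ?_⟩
  obtain ⟨F, hF, hF'⟩ := hM p.1
  obtain ⟨G, hG, hG'⟩ := hM' p.2
  refine ⟨F ×ˢ G, (Finset.card_product F G).le.trans (Nat.mul_le_mul hF hG), fun y hy => ?_⟩
  rw [Prod.dist_eq, max_le_iff] at hy
  obtain ⟨z, hz, hz'⟩ := hF' y.1 hy.1
  obtain ⟨w, hw, hw'⟩ := hG' y.2 hy.2
  exact ⟨(z, w), Finset.mem_product.2 ⟨hz, hw⟩, max_le hz' hw'⟩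

theorem hasFlows_prod {X Y : Type*} [PseudoMetricSpace X] [PseudoMetricSpace Y]
    (hX : HasFlows X) (hY : HasFlows Y) : HasFlows (X × Y) := by
  classical
  intro R ε hε
  obtain ⟨D, I, _, Φ, hI, hD, hσ⟩ := hX R (ε / 2) (by positivity)
  obtain ⟨D', J, _, Ψ, hJ, hD', hσ'⟩ := hY R (ε / 2) (by positivity)
  refine ⟨max D D', I × J, inferInstance, fun ij p => (Φ ij.1 p.1, Ψ ij.2 p.2), inferInstance,
    fun p ij => max_le_max (hD _ _) (hD' _ _), fun p p' h => ?_⟩
  rw [Prod.dist_eq, max_le_iff] at h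
  obtain ⟨s, hs⟩ := hσ p.1 p'.1 h.1
  obtain ⟨t, ht⟩ := hσ' p.2 p'.2 h.2
  refine ⟨s.prodCongr t, ?_⟩
  set A := Finset.univ.filter fun i => ε / 2 < dist (Φ i p.1) (Φ (s i) p'.1)
  set B := Finset.univ.filter fun j => ε / 2 < dist (Ψ j p.2) (Ψ (t j) p'.2)
  refine le_trans (Nat.cast_le.2 ((Finset.card_le_card (t := A ×ˢ Finset.univ ∪ Finset.univ ×ˢ B)
    fun ij hij => ?_).trans (Finset.card_union_le _ _))) ?_
  · simp only [Finset.mem_filter, Finset.mem_univ, true_and, Prod.dist_eq, lt_max_iff,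
      Equiv.prodCongr_apply, Prod.map_apply'] at hij
    simp only [Finset.mem_union, Finset.mem_product, Finset.mem_univ, and_true, true_and, A, B,
      Finset.mem_filter]
    exact hij.imp (fun h => by linarith) (fun h => by linarith)
  · simp only [Finset.card_product, Finset.card_univ, Fintype.card_prod]
    push_cast
    have h1 := mul_le_mul_of_nonneg_right hs (Nat.cast_nonneg (α := ℝ) (Fintype.card J))
    have h2 := mul_le_mul_of_nonneg_left ht (Nat.cast_nonneg (α := ℝ) (Fintype.card I))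
    linarith

theorem hasBddGeom_pi {ι : Type*} [Fintype ι] {X : ι → Type*} [∀ a, PseudoMetricSpace (X a)]
    (hX : ∀ a, HasBddGeom (X a)) : HasBddGeom (∀ a, X a) := by
  classical
  intro R
  choose M hM using fun a => hX a R
  refine ⟨∏ a, M a, fun p => ?_⟩
  choose F hF hF' using fun a => hM a (p a)
  refine ⟨Fintype.piFinset F, (Fintype.card_piFinset F).le.trans
    (Finset.prod_le_prod' fun a _ => hF a), fun y hy => ?_⟩
  choose z hz hz' using fun a => hF' a (y a) ((dist_le_pi_dist p y a).trans hy)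
  exact ⟨z, Fintype.mem_piFinset.2 hz, (dist_pi_le_iff (by norm_num)).2 hz'⟩

theorem hasFlows_pi {ι : Type} [Fintype ι] {X : ι → Type*} [∀ a, PseudoMetricSpace (X a)]
    (hX : ∀ a, HasFlows (X a)) : HasFlows (∀ a, X a) := by
  classical
  intro R ε hε
  set ε' := ε / (Fintype.card ι + 1) with hε'
  have hε'0 : 0 < ε' := by positivity
  have hεle : ε' ≤ ε := div_le_self hε.le (by linarith [Nat.cast_nonneg (α := ℝ) (Fintype.card ι)])
  choose D I hfin Φ hne hD hσ using fun a => hX a R ε' hε'0
  let : ∀ a, Fintype (I a) := hfin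
  have := hne
  refine ⟨∑ a, |D a|, ∀ a, I a, inferInstance, fun i p a => Φ a (i a) (p a), inferInstance,
    fun p i => ?_, fun p p' h => ?_⟩
  · refine (dist_pi_le_iff (Finset.sum_nonneg fun a _ => abs_nonneg _)).2 fun a => ?_
    exact ((hD a _ _).trans (le_abs_self _)).trans
      (Finset.single_le_sum (f := fun a => |D a|) (fun a _ => abs_nonneg _) (Finset.mem_univ a))
  choose s hs using fun a => hσ a (p a) (p' a) ((dist_le_pi_dist p p' a).trans h)
  refine ⟨Equiv.piCongrRight s, ?_⟩
  set A := fun a => Finset.univ.filter fun i => ε' < dist (Φ a i (p a)) (Φ a (s a i) (p' a))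
  have hA : ∀ a, ((Finset.univ.filter fun i : ∀ b, I b => i a ∈ A a).card : ℝ) ≤
      ε' * Fintype.card (∀ b, I b) := by
    intro a
    set e := Equiv.piSplitAt a I
    have : (Finset.univ.filter fun i : ∀ b, I b => i a ∈ A a) =
        (A a ×ˢ (Finset.univ : Finset (∀ b : {b // b ≠ a}, I b))).map e.symm.toEmbedding := by
      ext i
      simp [Finset.mem_map_equiv, e]
    rw [this, Finset.card_map, Finset.card_product, Finset.card_univ, Fintype.card_congr e,
      Fintype.card_prod]
    push_cast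
    rw [← mul_assoc]
    refine mul_le_mul_of_nonneg_right ?_ (Nat.cast_nonneg _)
    refine le_trans (le_of_eq (congrArg (fun t : Finset (I a) => (t.card : ℝ)) ?_)) (hs a)
    ext i
    simp [A]
  refine le_trans (Nat.cast_le.2 ((Finset.card_le_card
    (t := Finset.univ.biUnion fun a => Finset.univ.filter fun i : ∀ b, I b => i a ∈ A a)
    fun i hi => ?_).trans Finset.card_biUnion_le)) ?_
  · simp only [Finset.mem_filter, Finset.mem_univ, true_and] at hi
    by_contra hc
    refine absurd hi (not_lt.2 ((dist_pi_le_iff hε.le).2 fun a => ?_))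
    simp only [A, Finset.mem_biUnion, Finset.mem_filter, Finset.mem_univ, true_and, not_exists,
      not_lt] at hc
    exact (hc a).trans hεle
  · push_cast
    refine (Finset.sum_le_sum fun a _ => hA a).trans ?_
    rw [Finset.sum_const, Finset.card_univ, nsmul_eq_mul, ← mul_assoc]
    refine mul_le_mul_of_nonneg_right ?_ (Nat.cast_nonneg _)
    rw [hε', mul_div_assoc', div_le_iff₀ (by positivity)]
    nlinarith

/-- Exactness from a proper left-invariant orbit map into a space with bounded geometry and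
flows. -/
theorem isExactGroup_of_flows {Γ : Type u} [Group Γ] {X : Type*} [PseudoMetricSpace X]
    (f : Γ → X) (hinv : ∀ a b c, dist (f (c * a)) (f (c * b)) = dist (f a) (f b))
    (hfin : ∀ R : ℝ, {γ | dist (f 1) (f γ) ≤ R}.Finite)
    (hgeom : HasBddGeom X) (hflow : HasFlows X) : IsExactGroup Γ := by
  classical
  intro K ε hε
  obtain ⟨Λ, hΛmax⟩ := zorn_subset {s : Set X | s.Pairwise fun a b => 1 ≤ dist a b}
    fun c hc hchain => ⟨⋃₀ c, fun a ⟨s, hs, ha⟩ b ⟨t, ht, hb⟩ hab => by
      rcases hchain.total hs ht with hst | hst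
      · exact hc ht (hst ha) hb hab
      · exact hc hs ha (hst hb) hab, fun s hs => Set.subset_sUnion_of_mem hs⟩
  have hsep : Λ.Pairwise fun a b => 1 ≤ dist a b := hΛmax.1
  have hcov : ∀ x, ∃ l ∈ Λ, dist x l < 1 := by
    intro x
    by_contra! hc
    have hx : x ∈ Λ := by
      refine hΛmax.2 (y := insert x Λ) ?_ (Set.subset_insert x Λ) (Set.mem_insert x Λ)
      exact hsep.insert fun b hb _ => ⟨hc b hb, by rw [dist_comm]; exact hc b hb⟩
    exact absurd (hc x hx) (by simp)
  obtain ⟨M, hM⟩ := hgeom 2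
  have hball : ∀ x, ∃ Nx : Finset X, Nx.card ≤ M ∧ ∀ l, l ∈ Nx ↔ l ∈ Λ ∧ dist x l < 2 := by
    intro x
    obtain ⟨F, hF, hF'⟩ := hM x
    have hz : ∀ l : {l | l ∈ Λ ∧ dist x l < 2}, ∃ z : F, dist (z : X) l ≤ 1 / 4 := fun l => by
      obtain ⟨z, hz, hz'⟩ := hF' l l.2.2.le
      exact ⟨⟨z, hz⟩, hz'⟩
    choose z hz using hz
    have hinj : Function.Injective z := by
      intro a b hab
      by_contra hne
      have h1 : 1 ≤ dist (a : X) b := hsep a.2.1 b.2.1 fun h => hne (Subtype.ext h)
      have h2 := hz a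
      have h3 := hz b
      rw [← hab] at h3
      have h4 := dist_triangle_left (a : X) b (z a)
      linarith
    have : Finite {l | l ∈ Λ ∧ dist x l < 2} := Finite.of_injective z hinj
    have := Fintype.ofFinite {l | l ∈ Λ ∧ dist x l < 2}
    refine ⟨{l | l ∈ Λ ∧ dist x l < 2}.toFinset, ?_, fun l => Set.mem_toFinset⟩
    rw [Set.toFinset_card]
    exact (Fintype.card_le_of_injective z hinj).trans ((Fintype.card_coe F).le.trans hF)
  choose N hNcard hN using hball
  set φ : X → X → ℝ := fun x l => max 0 (2 - dist x l) with hφ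
  set s : X → ℝ := fun x => ∑ l ∈ N x, φ x l
  have hs1 : ∀ x, 1 ≤ s x := fun x => by
    obtain ⟨l, hl, hd⟩ := hcov x
    refine le_trans ?_ (Finset.single_le_sum (f := φ x) (fun l _ => le_max_left _ _)
      ((hN x l).2 ⟨hl, by linarith⟩))
    exact le_trans (by linarith) (le_max_right _ _)
  set w : X → X → ℝ := fun x l => if l ∈ Λ then φ x l / s x else 0
  have hw0 : ∀ x l, 0 ≤ w x l := fun x l => by
    simp only [w]
    split_ifs
    · exact div_nonneg (le_max_left _ _) (zero_le_one.trans (hs1 x))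
    · exact le_rfl
  have hwN : ∀ x l, l ∉ N x → w x l = 0 := fun x l hl => by
    simp only [w]
    split_ifs with h
    · rw [hN] at hl
      rw [hφ]; dsimp only
      rw [max_eq_left (by
        have := not_lt.1 (fun h' => hl ⟨h, h'⟩)
        linarith), zero_div]
    · rfl
  have hwsum : ∀ x U, N x ⊆ U → ∑ l ∈ U, w x l = 1 := fun x U hU => by
    rw [← Finset.sum_subset hU fun l _ hl => hwN x l hl]
    have : ∀ l ∈ N x, w x l = φ x l / s x := fun l hl => if_pos ((hN x l).1 hl).1
    rw [Finset.sum_congr rfl this, ← Finset.sum_div, div_self (zero_lt_one.trans_le (hs1 x)).ne']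
  have hφlip : ∀ x y l, |φ x l - φ y l| ≤ dist x y := fun x y l => by
    refine (abs_max_sub_max_le_max _ _ _ _).trans ?_
    rw [sub_self, abs_zero, max_le_iff]
    refine ⟨dist_nonneg, ?_⟩
    rw [sub_sub_sub_cancel_left, abs_sub_comm]
    exact abs_dist_sub_le x y l
  have hwlip : ∀ x y U, N x ⊆ U → N y ⊆ U → ∑ l ∈ U, |w x l - w y l| ≤ 4 * M * dist x y := by
    intro x y U hx hy
    set V := N x ∪ N y
    have hV : V ⊆ U := Finset.union_subset hx hy
    rw [← Finset.sum_subset hV fun l _ hl => by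
      rw [hwN x l fun h => hl (Finset.mem_union_left _ h),
        hwN y l fun h => hl (Finset.mem_union_right _ h), sub_self, abs_zero]]
    have hΛV : ∀ l ∈ V, l ∈ Λ := fun l hl =>
      (Finset.mem_union.1 hl).elim (fun h => ((hN x l).1 h).1) (fun h => ((hN y l).1 h).1)
    have hsV : ∀ z, N z ⊆ V → s z = ∑ l ∈ V, φ z l := fun z hz =>
      Finset.sum_subset hz fun l hl hl' => by
        rw [hN] at hl'
        exact max_eq_left (by
          have := not_lt.1 (fun h' => hl' ⟨hΛV l hl, h'⟩)
          linarith)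
    have hdiff : ∑ l ∈ V, |φ x l - φ y l| ≤ 2 * M * dist x y := by
      refine (Finset.sum_le_sum fun l _ => hφlip x y l).trans ?_
      rw [Finset.sum_const, nsmul_eq_mul]
      refine mul_le_mul_of_nonneg_right ?_ dist_nonneg
      calc (V.card : ℝ) ≤ ((N x).card + (N y).card : ℕ) := Nat.cast_le.2 (Finset.card_union_le _ _)
        _ ≤ ((M + M : ℕ) : ℝ) := Nat.cast_le.2 (add_le_add (hNcard x) (hNcard y))
        _ = 2 * M := by push_cast; ring
    have hsd : |s y - s x| ≤ ∑ l ∈ V, |φ x l - φ y l| := by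
      rw [abs_sub_comm, hsV x Finset.subset_union_left, hsV y Finset.subset_union_right,
        ← Finset.sum_sub_distrib]
      exact Finset.abs_sum_le_sum_abs _ _
    have hpt : ∀ l ∈ V, |w x l - w y l| ≤ |φ x l - φ y l| + φ y l / s y * |s y - s x| := by
      intro l hl
      have e : w x l - w y l =
          (φ x l - φ y l) / s x + φ y l / s y * ((s y - s x) / s x) := by
        simp only [w, if_pos (hΛV l hl)]
        have := (zero_lt_one.trans_le (hs1 x)).ne'
        have := (zero_lt_one.trans_le (hs1 y)).ne'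
        field_simp
        ring
      rw [e]
      refine (abs_add_le _ _).trans (add_le_add ?_ ?_)
      · rw [abs_div, abs_of_pos (zero_lt_one.trans_le (hs1 x))]
        exact div_le_self (abs_nonneg _) (hs1 x)
      · rw [abs_mul, abs_div (s y - s x), abs_of_pos (zero_lt_one.trans_le (hs1 x)),
          abs_of_nonneg (div_nonneg (le_max_left _ _) (zero_le_one.trans (hs1 y)))]
        exact mul_le_mul_of_nonneg_left (div_le_self (abs_nonneg _) (hs1 x))
          (div_nonneg (le_max_left _ _) (zero_le_one.trans (hs1 y)))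
    refine (Finset.sum_le_sum hpt).trans ?_
    rw [Finset.sum_add_distrib, ← Finset.sum_mul, ← Finset.sum_div,
      ← hsV y Finset.subset_union_right, div_self (zero_lt_one.trans_le (hs1 y)).ne', one_mul]
    linarith
  have hr : ∀ l, ∃ γ, ∀ γ', dist l (f γ) ≤ dist l (f γ') + 1 := fun l => by
    obtain ⟨γ, hγ⟩ := exists_lt_of_ciInf_lt
      (lt_add_one (⨅ γ, dist l (f γ)))
    refine ⟨γ, fun γ' => hγ.le.trans ?_⟩
    gcongr
    exact ciInf_le ⟨0, Set.forall_mem_range.2 fun _ => dist_nonneg⟩ γ'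
  choose r hr using hr
  set R := ∑ k ∈ K, dist (f 1) (f k⁻¹)
  set η := ε / (4 * M + 2)
  have hη : 0 < η := by positivity
  obtain ⟨D, I, _, Φ, hI, hD, hσ⟩ := hflow R η hη
  set card : ℝ := (Fintype.card I : ℝ) with hcard
  have hc0 : 0 < card := Nat.cast_pos.2 Fintype.card_pos
  set U : X → Finset X := fun x => Finset.univ.biUnion fun i => N (Φ i x)
  set a : X → X → ℝ := fun x l => (∑ i, w (Φ i x) l) / card
  have ha0 : ∀ x l, 0 ≤ a x l := fun x l =>
    div_nonneg (Finset.sum_nonneg fun i _ => hw0 _ _) hc0.le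
  have hsubU : ∀ x i, N (Φ i x) ⊆ U x := fun x i =>
    Finset.subset_biUnion_of_mem (fun i => N (Φ i x)) (Finset.mem_univ i)
  have haU : ∀ x l, l ∉ U x → a x l = 0 := fun x l hl => by
    simp only [a]
    rw [Finset.sum_eq_zero fun i _ => hwN _ l fun h => hl (hsubU x i h), zero_div]
  have hasum : ∀ x, ∑ l ∈ U x, a x l = 1 := fun x => by
    simp only [a, ← Finset.sum_div]
    rw [Finset.sum_comm, Finset.sum_congr rfl fun i _ => hwsum _ _ (hsubU x i),
      Finset.sum_const, Finset.card_univ, nsmul_eq_mul, mul_one, div_self hc0.ne']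
  let p : Γ → Γ → ℝ := fun h z => ∑ l ∈ U (f h⁻¹), if (r l)⁻¹ = z then a (f h⁻¹) l else 0
  refine ⟨(hfin (2 * (D + 2) + 1)).toFinset.image (·⁻¹), p,
    fun h z => Finset.sum_nonneg fun l _ => by split_ifs <;> simp [ha0],
    fun h z hz => Finset.sum_eq_zero fun l hl => if_neg fun hzl => hz ?_,
    fun h => ?_, fun k hk h => ?_⟩
  · obtain ⟨i, -, hli⟩ := Finset.mem_biUnion.1 hl
    have h1 : dist (f h⁻¹) l ≤ D + 2 :=
      (dist_triangle _ (Φ i (f h⁻¹)) _).trans (add_le_add (hD _ _) ((hN _ l).1 hli).2.le)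
    have h2 := hr l h⁻¹
    refine Finset.mem_image.2 ⟨h * r l, (hfin _).mem_toFinset.2 ?_, by rw [← hzl]; group⟩
    change dist (f 1) (f (h * r l)) ≤ _
    rw [← mul_inv_cancel h, hinv]
    have h3 := dist_triangle (f h⁻¹) l (f (r l))
    rw [dist_comm l (f h⁻¹)] at h2
    linarith
  · rw [tsum_eq_sum (s := (U (f h⁻¹)).image fun l => (r l)⁻¹) fun z hz =>
      Finset.sum_eq_zero fun l hl => if_neg fun hzl =>
        hz (Finset.mem_image.2 ⟨l, hl, hzl⟩)]
    show ∑ z ∈ _, ∑ l ∈ U (f h⁻¹), _ = _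
    rw [Finset.sum_comm, ← hasum (f h⁻¹)]
    refine Finset.sum_congr rfl fun l hl => ?_
    rw [Finset.sum_ite_eq, if_pos (Finset.mem_image_of_mem _ hl)]
  · set x := f (k * h)⁻¹
    set y := f h⁻¹
    have hxy : dist x y ≤ R := by
      simp only [x, y, mul_inv_rev]
      have e : dist (f (h⁻¹ * k⁻¹)) (f h⁻¹) = dist (f k⁻¹) (f 1) := by
        conv_lhs => rw [← mul_one h⁻¹, mul_assoc, one_mul, hinv]
      rw [e, dist_comm]
      exact Finset.single_le_sum (f := fun k => dist (f 1) (f k⁻¹)) (fun k _ => dist_nonneg) hk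
    obtain ⟨σ, hσ'⟩ := hσ x y hxy
    set V := U x ∪ U y
    have hp : ∀ z, ∀ g : Γ, U (f g⁻¹) ⊆ V → p g z =
        ∑ l ∈ V, if (r l)⁻¹ = z then a (f g⁻¹) l else 0 := fun z g hg =>
      Finset.sum_subset hg fun l _ hl => by rw [haU _ l hl, ite_self]
    have hbound : ∑ l ∈ V, |a x l - a y l| ≤ ε := by
      have e : ∀ l, a x l - a y l = (∑ i, (w (Φ i x) l - w (Φ (σ i) y) l)) / card := fun l => by
        simp only [a]
        rw [← Equiv.sum_comp σ (fun i => w (Φ i y) l), ← sub_div, ← Finset.sum_sub_distrib]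
      simp only [e, abs_div, abs_of_pos hc0, ← Finset.sum_div]
      rw [div_le_iff₀ hc0]
      refine (Finset.sum_le_sum fun l _ => Finset.abs_sum_le_sum_abs _ _).trans ?_
      rw [Finset.sum_comm]
      have hi : ∀ i, ∑ l ∈ V, |w (Φ i x) l - w (Φ (σ i) y) l| ≤
          4 * M * η + (if η < dist (Φ i x) (Φ (σ i) y) then 2 else 0) := by
        intro i
        have hx' : N (Φ i x) ⊆ V := (hsubU x i).trans Finset.subset_union_left
        have hy' : N (Φ (σ i) y) ⊆ V := (hsubU y (σ i)).trans Finset.subset_union_right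
        split_ifs with hb
        · refine (Finset.sum_le_sum fun l _ => abs_sub _ _).trans ?_
          simp only [abs_of_nonneg (hw0 _ _), Finset.sum_add_distrib, hwsum _ _ hx', hwsum _ _ hy']
          linarith [show 0 ≤ 4 * (M : ℝ) * η by positivity]
        · rw [add_zero]
          exact (hwlip _ _ _ hx' hy').trans
            (mul_le_mul_of_nonneg_left (not_lt.1 hb) (by positivity))
      refine (Finset.sum_le_sum fun i _ => hi i).trans ?_
      rw [Finset.sum_add_distrib, Finset.sum_const, Finset.card_univ, nsmul_eq_mul, ← hcard,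
        ← Finset.sum_filter, Finset.sum_const, nsmul_eq_mul]
      have e' : ε = 4 * M * η + 2 * η := by simp only [η]; field_simp
      rw [e']
      nlinarith [hσ']
    refine le_trans ?_ hbound
    rw [tsum_eq_sum (s := V.image fun l => (r l)⁻¹) fun z hz => by
      rw [hp z (k * h) Finset.subset_union_left, hp z h Finset.subset_union_right,
        Finset.sum_eq_zero fun l hl => if_neg fun hzl => hz (Finset.mem_image.2 ⟨l, hl, hzl⟩),
        Finset.sum_eq_zero fun l hl => if_neg fun hzl => hz (Finset.mem_image.2 ⟨l, hl, hzl⟩),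
        sub_self, abs_zero]]
    calc ∑ z ∈ V.image (fun l => (r l)⁻¹), |p (k * h) z - p h z|
        ≤ ∑ z ∈ V.image (fun l => (r l)⁻¹), ∑ l ∈ V,
            (if (r l)⁻¹ = z then |a x l - a y l| else 0) := by
          refine Finset.sum_le_sum fun z _ => ?_
          rw [hp z (k * h) Finset.subset_union_left, hp z h Finset.subset_union_right,
            ← Finset.sum_sub_distrib]
          refine (Finset.abs_sum_le_sum_abs _ _).trans (le_of_eq (Finset.sum_congr rfl fun l _ => ?_))
          split_ifs <;> simp [x, y]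
      _ = _ := by
          rw [Finset.sum_comm]
          refine Finset.sum_congr rfl fun l hl => ?_
          rw [Finset.sum_ite_eq, if_pos (Finset.mem_image_of_mem _ hl)]

end Vale.Agent.P184
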