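import Vale.Agent.P184.SmallDegree

/-!
Elements of linear groups whose commutant is commutative modulo nilpotents.
-/

namespace Vale.Agent.P184

open Matrix

universe u v

/-- The generators of the commutator ideal of a set of matrices. -/
def commGens {L : Type v} [CommRing L] {n : ℕ} (C : Set (Matrix (Fin n) (Fin n) L)) :
    Set (Matrix (Fin n) (Fin n) L) :=
  {z | ∃ a ∈ C, ∃ b ∈ C, ∃ c ∈ C, z = (a * b - b * a) * c}

/-- A group with values congruent to one modulo a nilpotent filtration is amenable. -/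
theorem isAmenableGroup_filtration {A : Type v} [Ring A] {H : Type v} [Group H] (val : H →* A)
    (hval : Function.Injective val) (I : ℕ → AddSubgroup A) (h1 : ∀ h, val h - 1 ∈ I 1)
    (hanti : ∀ i, 1 ≤ i → I i ≤ I 1)
    (hmul : ∀ i a b, 1 ≤ i → a ∈ I i → b ∈ I 1 → a * b ∈ I (i + 1))
    (N : ℕ) (hN : ∀ i, N ≤ i → I i = ⊥) : IsAmenableGroup H := by
  have key : ∀ (k i : ℕ) (S : Subgroup H), 1 ≤ i → N ≤ i + k → (∀ s ∈ S, val s - 1 ∈ I i) →
      IsAmenableGroup S := by
    intro k
    induction k with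
    | zero =>
      intro i S _ hi hS
      refine isAmenableGroup_of_comm fun a b => ?_
      have htriv : ∀ w : S, w = 1 := fun w => by
        have h := hS w w.2
        rw [hN i (by omega), AddSubgroup.mem_bot, sub_eq_zero] at h
        exact Subtype.ext (hval (h.trans val.map_one.symm))
      rw [htriv a, htriv b]
    | succ k ih =>
      intro i S hi1 hi hS
      let φ : S →* Multiplicative (A ⧸ I (i + 1)) :=
        { toFun := fun w => Multiplicative.ofAdd (QuotientAddGroup.mk (val w - 1))
          map_one' := by simp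
          map_mul' := fun a b => by
            rw [← ofAdd_add, ← QuotientAddGroup.mk_add]
            refine congrArg Multiplicative.ofAdd (QuotientAddGroup.eq.2 ?_)
            have e : -(val ((a * b : S) : H) - 1) + (val a - 1 + (val b - 1)) =
                -((val a - 1) * (val b - 1)) := by
              rw [Subgroup.coe_mul, map_mul]; noncomm_ring
            rw [e]
            exact (I (i + 1)).neg_mem (hmul i _ _ hi1 (hS a a.2) (hanti i hi1 (hS b b.2))) }
      refine isAmenableGroup_of_ker φ ?_ (isAmenableGroup_of_comm_hom _ φ.range.subtype_injective)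
      let f : φ.ker →* φ.ker.map S.subtype :=
        (S.subtype.comp φ.ker.subtype).codRestrict _ fun w => ⟨w.1, w.2, rfl⟩
      refine IsAmenableGroup.of_injective f
        (fun a b hab => Subtype.ext (Subtype.ext (congrArg Subtype.val hab :)))
        (ih (i + 1) _ (by omega) (by omega) ?_)
      rintro _ ⟨w, hw, rfl⟩
      exact (QuotientAddGroup.eq_zero_iff _).1 (congrArg Multiplicative.toAdd hw)
  refine IsAmenableGroup.of_injective (Subgroup.topEquiv (G := H)).symm.toMonoidHom
    (Subgroup.topEquiv (G := H)).symm.injective (key N 1 ⊤ le_rfl (by omega) fun s _ => h1 s)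

/-- A group of invertible matrices inside the span of a ring of matrices whose commutator ideal is
nilpotent is amenable. -/
theorem isAmenableGroup_of_commGens {L : Type v} [Field L] {n : ℕ}
    (C : Subring (Matrix (Fin n) (Fin n) L)) (W : Subgroup (GL (Fin n) L))
    (hW : ∀ w ∈ W, (w : Matrix (Fin n) (Fin n) L) ∈
      Submodule.span L (C : Set (Matrix (Fin n) (Fin n) L)))
    (N : ℕ) (hN : ∀ f : Fin N → Matrix (Fin n) (Fin n) L,
      (∀ i, f i ∈ commGens (C : Set (Matrix (Fin n) (Fin n) L))) → (List.ofFn f).prod = 0) :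
    IsAmenableGroup W := by
  classical
  set V := Submodule.span L (C : Set (Matrix (Fin n) (Fin n) L))
  set J := Submodule.span L (commGens (C : Set (Matrix (Fin n) (Fin n) L)))
  have hVV : V * V ≤ V := by
    rw [Submodule.span_mul_span]
    exact Submodule.span_mono (Set.mul_subset_iff.2 fun a ha b hb => C.mul_mem ha hb)
  have hJV : J * V ≤ J := by
    rw [Submodule.span_mul_span]
    refine Submodule.span_mono (Set.mul_subset_iff.2 ?_)
    rintro _ ⟨a, ha, b, hb, c, hc, rfl⟩ d hd
    exact ⟨a, ha, b, hb, c * d, C.mul_mem hc hd, by rw [mul_assoc]⟩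
  have hVJ : V * J ≤ J := by
    rw [Submodule.span_mul_span, Submodule.span_le]
    rintro _ ⟨d, hd, _, ⟨a, ha, b, hb, c, hc, rfl⟩, rfl⟩
    have e : d * ((a * b - b * a) * c) =
        ((d * (a * b - b * a) - (a * b - b * a) * d) * c) + (a * b - b * a) * (d * c) := by
      noncomm_ring
    change d * ((a * b - b * a) * c) ∈ J
    rw [e]
    refine J.add_mem (Submodule.subset_span ⟨d, hd, _, ?_, c, hc, rfl⟩)
      (Submodule.subset_span ⟨a, ha, b, hb, d * c, C.mul_mem hd hc, rfl⟩)
    exact C.sub_mem (C.mul_mem ha hb) (C.mul_mem hb ha)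
  have hJN : J ^ N = ⊥ := by
    rw [Submodule.span_pow, Submodule.span_eq_bot]
    intro z hz
    obtain ⟨f, rfl⟩ := Set.mem_pow.1 hz
    exact hN _ fun i => (f i).2
  have hcomm : ∀ a ∈ V, ∀ b ∈ V, a * b - b * a ∈ J := by
    intro a ha b hb
    induction ha using Submodule.span_induction with
    | mem a ha =>
      induction hb using Submodule.span_induction with
      | mem b hb => exact Submodule.subset_span ⟨a, ha, b, hb, 1, C.one_mem, by rw [mul_one]⟩
      | zero => simp
      | add x y _ _ hx hy =>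
        rw [mul_add, add_mul, add_sub_add_comm]; exact J.add_mem hx hy
      | smul r x _ hx =>
        rw [mul_smul_comm, smul_mul_assoc, ← smul_sub]; exact J.smul_mem r hx
    | zero => simp
    | add x y _ _ hx hy =>
      rw [mul_add, add_mul, add_sub_add_comm]; exact J.add_mem hx hy
    | smul r x _ hx =>
      rw [mul_smul_comm, smul_mul_assoc, ← smul_sub]; exact J.smul_mem r hx
  have hJpow : ∀ i, J ^ (i + 1) * V ≤ J ^ (i + 1) ∧ V * J ^ (i + 1) ≤ J ^ (i + 1) := fun i =>
    ⟨by rw [pow_succ, mul_assoc]; exact mul_le_mul' le_rfl hJV,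
      by rw [pow_succ', ← mul_assoc]; exact mul_le_mul' hVJ le_rfl⟩
  have hJ1 : ∀ i, J ^ (i + 2) ≤ J ^ (i + 1) := fun i => by
    rw [pow_succ]
    refine le_trans (mul_le_mul' le_rfl ?_) (hJpow i).1
    refine Submodule.span_le.2 ?_
    rintro _ ⟨a, ha, b, hb, c, hc, rfl⟩
    exact Submodule.subset_span (C.mul_mem (C.sub_mem (C.mul_mem ha hb) (C.mul_mem hb ha)) hc)
  let U : ℕ → Subgroup W := fun i =>
    { carrier := {w | ((w : GL (Fin n) L) : Matrix (Fin n) (Fin n) L) - 1 ∈ J ^ (i + 1)}
      one_mem' := by simp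
      mul_mem' := fun {a b} ha hb => by
        simp only [Set.mem_ofPred_eq, Subgroup.coe_mul, Units.val_mul] at *
        have e : ((a : GL (Fin n) L) : Matrix (Fin n) (Fin n) L) *
            ((b : GL (Fin n) L) : Matrix (Fin n) (Fin n) L) - 1 =
            (((a : GL (Fin n) L) : Matrix (Fin n) (Fin n) L) - 1) *
              ((b : GL (Fin n) L) : Matrix (Fin n) (Fin n) L) +
            (((b : GL (Fin n) L) : Matrix (Fin n) (Fin n) L) - 1) := by noncomm_ring
        rw [e]
        exact Submodule.add_mem _ ((hJpow i).1 (Submodule.mul_mem_mul ha (hW _ b.2))) hb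
      inv_mem' := fun {a} ha => by
        simp only [Set.mem_ofPred_eq, Subgroup.coe_inv] at *
        have e : (((a : GL (Fin n) L)⁻¹ : GL (Fin n) L) : Matrix (Fin n) (Fin n) L) - 1 =
            -((((a : GL (Fin n) L)⁻¹ : GL (Fin n) L) : Matrix (Fin n) (Fin n) L) *
              (((a : GL (Fin n) L) : Matrix (Fin n) (Fin n) L) - 1)) := by
          rw [mul_sub, Units.inv_mul, mul_one, neg_sub]
        rw [e]
        exact Submodule.neg_mem _ ((hJpow i).2 (Submodule.mul_mem_mul (hW _ (W.inv_mem a.2)) ha)) }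
  have hU : IsAmenableGroup (U 0) := by
    have hle : ∀ j, J ^ (j + 1) ≤ J := fun j => by
      induction j with
      | zero => rw [zero_add, pow_one]
      | succ j ihj => exact (hJ1 j).trans ihj
    refine isAmenableGroup_filtration
      ((Units.coeHom (Matrix (Fin n) (Fin n) L)).comp (W.subtype.comp (U 0).subtype))
      (fun a b hab => Subtype.ext (Subtype.ext (Units.ext hab)))
      (fun i => (J ^ i).toAddSubgroup) (fun h => ?_) (fun i hi => ?_)
      (fun i a b hi ha hb => ?_) N (fun i hi => ?_)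
    · exact h.2
    · intro z hz
      obtain ⟨j, rfl⟩ : ∃ j, i = j + 1 := ⟨i - 1, by omega⟩
      change z ∈ J ^ 1
      rw [pow_one]; exact hle j hz
    · change a * b ∈ J ^ (i + 1)
      rw [pow_succ]
      refine Submodule.mul_mem_mul ha ?_
      have hb' : b ∈ J ^ 1 := hb
      rwa [pow_one] at hb'
    · rw [show i = N + (i - N) by omega, pow_add, hJN, Submodule.bot_mul]
      rfl
  have hn1 : (U 0).Normal := ⟨fun w hw c => by
    have h1 : (((w : GL (Fin n) L)) : Matrix (Fin n) (Fin n) L) - 1 ∈ J ^ (0 + 1) := hw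
    change ((((c * w * c⁻¹ : W)) : GL (Fin n) L) : Matrix (Fin n) (Fin n) L) - 1 ∈ J ^ (0 + 1)
    simp only [Subgroup.coe_mul, Subgroup.coe_inv, Units.val_mul]
    have e : ((c : GL (Fin n) L) : Matrix (Fin n) (Fin n) L) * ((w : GL (Fin n) L) : _) *
        (((c : GL (Fin n) L)⁻¹ : GL (Fin n) L) : Matrix (Fin n) (Fin n) L) - 1 =
        ((c : GL (Fin n) L) : Matrix (Fin n) (Fin n) L) * ((((w : GL (Fin n) L)) : _) - 1) *
        (((c : GL (Fin n) L)⁻¹ : GL (Fin n) L) : Matrix (Fin n) (Fin n) L) := by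
      rw [mul_sub, sub_mul, mul_one, Units.mul_inv]
    rw [e]
    exact (hJpow 0).1 (Submodule.mul_mem_mul
      ((hJpow 0).2 (Submodule.mul_mem_mul (hW _ c.2) h1)) (hW _ (W.inv_mem c.2)))⟩
  refine isAmenableGroup_of_ker (QuotientGroup.mk' (U 0)) ?_ (isAmenableGroup_of_comm fun a b => ?_)
  · let ψ : (QuotientGroup.mk' (U 0)).ker →* U 0 :=
      ((QuotientGroup.mk' (U 0)).ker.subtype).codRestrict _ fun w =>
        (QuotientGroup.eq_one_iff _).1 w.2
    exact IsAmenableGroup.of_injective ψ
      (fun a b hab => Subtype.ext (congrArg (fun z : U 0 => (z : W)) hab)) hU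
  obtain ⟨_, x, rfl⟩ := a
  obtain ⟨_, y, rfl⟩ := b
  refine Subtype.ext ?_
  change QuotientGroup.mk' (U 0) x * QuotientGroup.mk' (U 0) y = _ * _
  change QuotientGroup.mk' (U 0) x * QuotientGroup.mk' (U 0) y =
    QuotientGroup.mk' (U 0) y * QuotientGroup.mk' (U 0) x
  rw [← map_mul, ← map_mul]
  refine QuotientGroup.eq.2 ?_
  change ((((x * y)⁻¹ * (y * x) : W)) : GL (Fin n) L).val - 1 ∈ J ^ (0 + 1)
  set p := ((x * y)⁻¹ : W)
  have e : ((((p * (y * x) : W)) : GL (Fin n) L) : Matrix (Fin n) (Fin n) L) - 1 =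
      ((p : GL (Fin n) L) : Matrix (Fin n) (Fin n) L) *
        (((y : GL (Fin n) L) : Matrix (Fin n) (Fin n) L) * ((x : GL (Fin n) L) : _) -
          ((x : GL (Fin n) L) : Matrix (Fin n) (Fin n) L) * ((y : GL (Fin n) L) : _)) := by
    have h1 : ((p : GL (Fin n) L) : Matrix (Fin n) (Fin n) L) *
        (((x : GL (Fin n) L) : Matrix (Fin n) (Fin n) L) * ((y : GL (Fin n) L) : _)) = 1 := by
      rw [← Units.val_mul, ← Units.val_mul, ← Subgroup.coe_mul, ← Subgroup.coe_mul,
        inv_mul_cancel, Subgroup.coe_one, Units.val_one]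
    rw [mul_sub, h1]
    rfl
  rw [e, zero_add, pow_one]
  exact hVJ (Submodule.mul_mem_mul (hW _ p.2) (hcomm _ (hW _ y.2) _ (hW _ x.2)))

/-- The commutant of A is commutative modulo a nilpotent ideal. -/
def HasSolvableCommutant {K : Type v} [CommRing K] {n : ℕ} (A : Matrix (Fin n) (Fin n) K) : Prop :=
  ∃ N, ∀ f : Fin N → Matrix (Fin n) (Fin n) K,
    (∀ i, f i ∈ commGens {B | B * A = A * B}) → (List.ofFn f).prod = 0

/-- An element of infinite order with solvable commutant in a finitely generated linear group of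
characteristic zero is detected by an exact group with amenable centraliser. -/
theorem hasExactImage_of_commutant {H : Type u} [Group H] (hfg : Group.FG H) {K : Type v}
    [Field K] [CharZero K] {n : ℕ} [NeZero n] (ρ : H →* Matrix (Fin n) (Fin n) K) (x : H)
    (m : ℕ) (hu : (ρ x ^ m - 1) ^ n = 0) (hne : ρ x ^ m - 1 ≠ 0)
    (hsol : HasSolvableCommutant (ρ x)) :
    HasExactImage x := by
  classical
  obtain ⟨i0, j0, hw⟩ : ∃ i0 j0, (ρ x ^ m - 1) i0 j0 ≠ 0 := by
    by_contra! hc
    exact hne (Matrix.ext hc)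
  set w := (ρ x ^ m - 1) i0 j0
  -- a generalised inverse of the commutator map with x
  set ad : Matrix (Fin n) (Fin n) K →ₗ[K] Matrix (Fin n) (Fin n) K :=
    LinearMap.mulRight K (ρ x) - LinearMap.mulLeft K (ρ x) with had
  obtain ⟨Sk, hSk⟩ : ∃ Sk : Matrix (Fin n) (Fin n) K →ₗ[K] Matrix (Fin n) (Fin n) K,
      ∀ z, ad (Sk (ad z)) = ad z := by
    obtain ⟨s, hs⟩ := Module.projective_lifting_property ad.rangeRestrict LinearMap.id
      ad.surjective_rangeRestrict
    obtain ⟨ext, hext⟩ := LinearMap.exists_extend s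
    refine ⟨ext, fun z => ?_⟩
    have h1 : ext (ad z) = s ⟨ad z, LinearMap.mem_range_self ad z⟩ :=
      LinearMap.congr_fun hext ⟨ad z, LinearMap.mem_range_self ad z⟩
    rw [h1]
    exact congrArg Subtype.val (LinearMap.congr_fun hs ⟨ad z, LinearMap.mem_range_self ad z⟩)
  obtain ⟨S, hS⟩ := hfg.out
  set gens : Finset H := S ∪ S.image (·⁻¹)
  set ent : Finset K := insert w⁻¹ ((gens.biUnion fun h =>
    (Finset.univ : Finset (Fin n × Fin n)).image fun p => ρ h p.1 p.2) ∪
    (Finset.univ : Finset ((Fin n × Fin n) × Fin n × Fin n)).image fun p =>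
      Sk (Matrix.single p.1.1 p.1.2 1) p.2.1 p.2.2)
  set R : Subalgebra ℚ K := Algebra.adjoin ℚ (ent : Set K)
  set M : Subalgebra ℚ (Matrix (Fin n) (Fin n) K) :=
    { carrier := {A | ∀ i j, A i j ∈ R}
      mul_mem' := fun {A B} hA hB i j => by
        rw [Matrix.mul_apply]; exact R.sum_mem fun k _ => R.mul_mem (hA i k) (hB k j)
      add_mem' := fun {A B} hA hB i j => R.add_mem (hA i j) (hB i j)
      algebraMap_mem' := fun r i j => by
        rw [Matrix.algebraMap_matrix_apply]
        split_ifs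
        · exact R.algebraMap_mem r
        · exact R.zero_mem } with hM
  have hgen : ∀ h ∈ gens, ρ h ∈ M := fun h hh i j => Algebra.subset_adjoin
    (Finset.mem_insert_of_mem (Finset.mem_union_left _ (Finset.mem_biUnion.2
      ⟨h, hh, Finset.mem_image.2 ⟨(i, j), Finset.mem_univ _, rfl⟩⟩)))
  have hSkM : ∀ a b, Sk (Matrix.single a b 1) ∈ M := fun a b i j => Algebra.subset_adjoin
    (Finset.mem_insert_of_mem (Finset.mem_union_right _ (Finset.mem_image.2
      ⟨((a, b), i, j), Finset.mem_univ _, rfl⟩)))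
  have hSkM' : ∀ z ∈ M, Sk z ∈ M := by
    intro z hz
    rw [Matrix.matrix_eq_sum_single z, map_sum]
    refine M.sum_mem fun a _ => ?_
    rw [map_sum]
    refine M.sum_mem fun b _ => ?_
    have e : Matrix.single a b (z a b) = z a b • Matrix.single a b (1 : K) := by
      rw [Matrix.smul_single, smul_eq_mul, mul_one]
    rw [e, map_smul]
    exact fun i j => R.mul_mem (hz a b) (hSkM a b i j)
  have hall : ∀ h, ρ h ∈ M := by
    have : ∀ h, ρ h ∈ M ∧ ρ h⁻¹ ∈ M := by
      intro h
      have hh : h ∈ Subgroup.closure (S : Set H) := by rw [hS]; trivial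
      induction hh using Subgroup.closure_induction with
      | mem y hy => exact ⟨hgen y (Finset.mem_union_left _ hy),
          hgen _ (Finset.mem_union_right _ (Finset.mem_image_of_mem _ hy))⟩
      | one => simp only [inv_one, map_one, M.one_mem, and_self]
      | mul a b _ _ ha hb =>
          exact ⟨by rw [map_mul]; exact M.mul_mem ha.1 hb.1,
            by rw [_root_.mul_inv_rev, map_mul]; exact M.mul_mem hb.2 ha.2⟩
      | inv a _ ha => exact ⟨ha.2, by rw [inv_inv]; exact ha.1⟩
    exact fun h => (this h).1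
  have hadM : ∀ z ∈ M, ad z ∈ M := fun z hz => by
    simp only [had, LinearMap.sub_apply, LinearMap.mulRight_apply, LinearMap.mulLeft_apply]
    exact M.sub_mem (M.mul_mem hz (hall x)) (M.mul_mem (hall x) hz)
  set ρR : H →* Matrix (Fin n) (Fin n) R :=
    { toFun := fun h => Matrix.of fun i j => ⟨ρ h i j, hall h i j⟩
      map_one' := by
        refine Matrix.ext fun i j => Subtype.ext ?_
        change ρ 1 i j = _
        rw [map_one, Matrix.one_apply, Matrix.one_apply]
        split_ifs <;> rfl
      map_mul' := fun a b => by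
        refine Matrix.ext fun i j => Subtype.ext ?_
        change ρ (a * b) i j = _
        rw [map_mul, Matrix.mul_apply, Matrix.mul_apply]
        simp }
  set ι := R.val.toRingHom.mapMatrix (m := Fin n)
  have hinj : Function.Injective ι := fun A B hAB =>
    Matrix.ext fun a b => Subtype.ext (congrFun (congrFun hAB a) b)
  have hval : ∀ h, ι (ρR h) = ρ h := fun h => rfl
  have : Algebra.FiniteType ℚ R := (Subalgebra.fg_iff_finiteType R).1 ⟨ent, rfl⟩
  obtain ⟨μ, hμ⟩ := Ideal.exists_maximal R
  let := Ideal.Quotient.field μ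
  let alg : Algebra ℚ (R ⧸ μ) := Ideal.Quotient.algebra ℚ
  have : Module.Finite ℚ (R ⧸ μ) := finite_of_finite_type_of_isJacobsonRing ℚ (R ⧸ μ)
  have : CharZero (R ⧸ μ) := algebraRat.charZero _
  set π := (Ideal.Quotient.mk μ).mapMatrix (m := Fin n)
  set ψ : H →* GL (Fin n) (R ⧸ μ) := (π.toMonoidHom.comp ρR).toHomUnits
  have hψ : ∀ h, Units.val (ψ h) = π (ρR h) := fun h => rfl
  have hu' : (Units.val (ψ (x ^ m)) - 1) ^ n = 0 := by
    rw [hψ, ← map_one π, ← map_sub, ← map_pow]
    have : (ρR (x ^ m) - 1) ^ n = 0 := hinj (by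
      rw [map_pow, map_sub, hval, map_pow, map_one, map_zero]; exact hu)
    rw [this, map_zero]
  have hne' : Units.val (ψ (x ^ m)) ≠ 1 := by
    rw [hψ, ← map_one π, Ne, ← sub_eq_zero, ← map_sub]
    intro h
    set r : R := (ρR (x ^ m) - 1) i0 j0
    have hr : (r : K) = w := by
      have e : ι (ρR (x ^ m) - 1) = ρ x ^ m - 1 := by rw [map_sub, hval, map_pow, map_one]
      exact congrFun (congrFun e i0) j0
    have h0 : r ∈ μ := Ideal.Quotient.eq_zero_iff_mem.1 (congrFun (congrFun h i0) j0)
    refine hμ.ne_top ((Ideal.eq_top_iff_one _).2 ?_)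
    have h1 : (⟨w⁻¹, Algebra.subset_adjoin (Finset.mem_insert_self _ _)⟩ : R) * r = 1 :=
      Subtype.ext (by
        change w⁻¹ * (r : K) = 1
        rw [hr, inv_mul_cancel₀ hw])
    exact h1 ▸ μ.mul_mem_left _ h0
  set ρx := ρR x
  set CR : Subring (Matrix (Fin n) (Fin n) R) := Subring.centralizer {ρx}
  have hlift : ∀ z : Matrix (Fin n) (Fin n) (R ⧸ μ), z * π ρx = π ρx * z →
      z ∈ Submodule.span (R ⧸ μ) ((CR.map π : Subring (Matrix (Fin n) (Fin n) (R ⧸ μ))) : Set _) := by
    intro z hz
    have hz0 : ∀ A : Matrix (Fin n) (Fin n) R, ι A ∈ M := fun A i j => (A i j).2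
    let back : M → Matrix (Fin n) (Fin n) R := fun A => Matrix.of fun i j => ⟨A.1 i j, A.2 i j⟩
    have hback : ∀ A : M, ι (back A) = A.1 := fun A => rfl
    let sR : Matrix (Fin n) (Fin n) R → Matrix (Fin n) (Fin n) R := fun A =>
      back ⟨Sk (ι A), hSkM' _ (hz0 A)⟩
    let adR : Matrix (Fin n) (Fin n) R → Matrix (Fin n) (Fin n) R := fun A => A * ρx - ρx * A
    have hι : ∀ A, ι (adR A) = ad (ι A) := fun A => by
      simp only [adR, map_sub, map_mul, had, LinearMap.sub_apply, LinearMap.mulRight_apply,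
        LinearMap.mulLeft_apply, ρx, hval]
    have hkey : ∀ A, adR (sR (adR A)) = adR A := fun A => hinj (by
      rw [hι]
      change ad (Sk (ι (adR A))) = _
      rw [hι, hSk])
    let zl : Matrix (Fin n) (Fin n) R :=
      Matrix.of fun i j => (Ideal.Quotient.mk_surjective (z i j)).choose
    have hzl : π zl = z := Matrix.ext fun i j => (Ideal.Quotient.mk_surjective (z i j)).choose_spec
    have hsplit : z = π (zl - sR (adR zl)) + π (sR (adR zl)) := by
      rw [map_sub, sub_add_cancel, hzl]
    have hmem : zl - sR (adR zl) ∈ CR := Subring.mem_centralizer_iff.2 fun y hy => by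
      rw [Set.mem_singleton_iff.1 hy]
      have h1 := hkey zl
      simp only [adR] at h1 ⊢
      refine sub_eq_zero.1 ?_
      have e : ∀ a b c : Matrix (Fin n) (Fin n) R,
          c * (a - b) - (a - b) * c = (b * c - c * b) - (a * c - c * a) := fun a b c => by
        noncomm_ring
      rw [e, h1, sub_self]
    rw [hsplit]
    refine Submodule.add_mem _ (Submodule.subset_span ⟨_, hmem, rfl⟩) ?_
    -- the correction term vanishes: the adjoint of z is zero
    have hmu : ∀ i j, (adR zl) i j ∈ μ := fun i j => by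
      have h1 : π (adR zl) = 0 := by
        simp only [adR, map_sub, map_mul, hzl]
        exact sub_eq_zero.2 hz
      exact Ideal.Quotient.eq_zero_iff_mem.1 (congrFun (congrFun h1 i) j)
    have hlin : sR (adR zl) = ∑ a, ∑ b, adR zl a b • back ⟨Sk (Matrix.single a b 1), hSkM a b⟩ := by
      apply hinj
      rw [hback]
      change Sk (ι (adR zl)) = _
      rw [Matrix.matrix_eq_sum_single (ι (adR zl))]
      simp only [map_sum]
      refine Finset.sum_congr rfl fun a _ => Finset.sum_congr rfl fun b _ => ?_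
      have e : Matrix.single a b (ι (adR zl) a b) =
          ι (adR zl) a b • Matrix.single a b (1 : K) := by
        rw [Matrix.smul_single, smul_eq_mul, mul_one]
      rw [e, map_smul]
      ext i j
      simp [ι, back, Matrix.smul_apply]
    have hzero : π (sR (adR zl)) = 0 := by
      rw [hlin]
      ext i j
      change Ideal.Quotient.mk μ ((∑ a, ∑ b, adR zl a b • _ : Matrix (Fin n) (Fin n) R) i j) = 0
      rw [Ideal.Quotient.eq_zero_iff_mem]
      simp only [Matrix.sum_apply, Matrix.smul_apply, smul_eq_mul]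
      exact μ.sum_mem fun a _ => μ.sum_mem fun b _ => μ.mul_mem_right _ (hmu a b)
    rw [hzero]
    exact Submodule.zero_mem _
  obtain ⟨N, hN⟩ := hsol
  have hamen : IsAmenableGroup
      (Subgroup.centralizer ({ψ x} : Set (GL (Fin n) (R ⧸ μ)))) := by
    refine isAmenableGroup_of_commGens (CR.map π) _ (fun c hc => hlift _ ?_) N fun f hf => ?_
    · have h1 := congrArg Units.val (Subgroup.mem_centralizer_singleton_iff.1 hc)
      simpa [ρx, hψ] using h1
    · have hpre : ∀ i, ∃ F : Matrix (Fin n) (Fin n) R,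
          ι F ∈ commGens {B | B * ρ x = ρ x * B} ∧ π F = f i := fun i => by
        obtain ⟨_, ⟨a, ha, rfl⟩, _, ⟨b, hb, rfl⟩, _, ⟨c, hc, rfl⟩, hfi⟩ := hf i
        have hmem : ∀ A ∈ CR, ι A ∈ {B | B * ρ x = ρ x * B} := fun A hA => by
          have h1 := congrArg ι (Subring.mem_centralizer_iff.1 hA ρx (Set.mem_singleton _))
          simp only [map_mul, ρx, hval] at h1
          exact h1.symm
        exact ⟨(a * b - b * a) * c,
          ⟨ι a, hmem a ha, ι b, hmem b hb, ι c, hmem c hc, by simp⟩, by simp [hfi]⟩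
      choose F hF hF' using hpre
      have h0 : (List.ofFn F).prod = 0 := hinj (by
        rw [map_list_prod, List.map_ofFn, map_zero]
        exact hN _ hF)
      have h1 := congrArg π h0
      rw [map_list_prod, List.map_ofFn, map_zero] at h1
      rwa [show π ∘ F = f from funext hF'] at h1
  have : Group.FG H := hfg
  refine ⟨H ⧸ ψ.ker, inferInstance, QuotientGroup.mk' ψ.ker,
    isExactGroup_of_numberField (QuotientGroup.fg ψ.ker) (QuotientGroup.kerLift ψ)
      (QuotientGroup.kerLift_injective ψ), fun hfin => ?_, ?_⟩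
  · refine not_isOfFinOrder_unipotent _ hu' hne' ?_
    have h1 := ((QuotientGroup.kerLift ψ).isOfFinOrder hfin).pow (n := m)
    rwa [QuotientGroup.mk'_apply, QuotientGroup.kerLift_mk, ← map_pow] at h1
  · let f : Subgroup.centralizer ({QuotientGroup.mk' ψ.ker x} : Set (H ⧸ ψ.ker)) →*
        Subgroup.centralizer ({ψ x} : Set (GL (Fin n) (R ⧸ μ))) :=
      ((QuotientGroup.kerLift ψ).comp (Subgroup.subtype _)).codRestrict _ fun c => by
        rw [Subgroup.mem_centralizer_singleton_iff]
        have h := congrArg (QuotientGroup.kerLift ψ)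
          (Subgroup.mem_centralizer_singleton_iff.1 c.2)
        simp only [map_mul, QuotientGroup.mk'_apply, QuotientGroup.kerLift_mk] at h
        exact h
    refine IsAmenableGroup.of_injective f (fun a b hab => ?_) hamen
    exact Subtype.ext (QuotientGroup.kerLift_injective ψ (congrArg Subtype.val hab))

/-- Vanishing at classes whose image has infinite order and solvable commutant, over any field. -/
theorem hsTrace_eq_zero_commutant {G : Type u} [Group G] {K : Type v} [Field K] {n : ℕ}
    (ρ : G →* GL (Fin n) K) (g : G) (hg : ¬ IsOfFinOrder (ρ g))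
    (hsol : HasSolvableCommutant (ρ g : Matrix (Fin n) (Fin n) K))
    {q : ℕ} {e : Fin q → Fin q → G → ℂ} (he : IsIdempotentMatrix e) :
    hsTrace e (ConjClasses.mk g) = 0 := by
  by_contra hne
  obtain ⟨m, hm, hm'⟩ := exists_unipotent_power (ρ g : Matrix (Fin n) (Fin n) K) fun a ha => by
    by_contra! hc
    exact hne (hsTrace_eq_zero_linear ρ g a ha hc he)
  obtain ⟨p, hp⟩ := CharP.exists K
  rcases CharP.char_is_prime_or_zero K p with hprime | rfl
  · have := Fact.mk hprime
    refine hg (IsOfFinOrder.of_pow (n := m) (isOfFinOrder_of_unipotent_charP p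
      (MonoidHom.id (GL (Fin n) K)) Function.injective_id (ρ g ^ m) ?_) hm.ne')
    rwa [MonoidHom.id_apply, Units.val_pow_eq_pow_val]
  have : CharZero K := CharP.charP_to_charZero K
  have hne1 : (ρ g : Matrix (Fin n) (Fin n) K) ^ m - 1 ≠ 0 := fun h0 =>
    hg (IsOfFinOrder.of_pow (n := m) ((isOfFinOrder_iff_pow_eq_one).2 ⟨1, one_pos, Units.ext (by
      rw [pow_one, Units.val_pow_eq_pow_val, Units.val_one]
      exact sub_eq_zero.1 h0)⟩) hm.ne')
  rcases Nat.eq_zero_or_pos n with rfl | hn
  · exact hne1 (Subsingleton.elim _ _)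
  have : NeZero n := ⟨hn.ne'⟩
  refine hne (hsTrace_eq_zero_of_images he _ fun H hH x hx => Or.inr ?_)
  obtain ⟨s, hs⟩ := isConj_iff.1 (ConjClasses.mk_eq_mk_iff_isConj.1 hx.symm)
  set ρ' : H →* Matrix (Fin n) (Fin n) K := ((Units.coeHom _).comp ρ).comp H.subtype
  set u := Units.val (ρ s)
  set ui := Units.val (ρ s)⁻¹
  have e1 : ρ' x = u * (ρ g : Matrix (Fin n) (Fin n) K) * ui := by
    change ((ρ (x : G)) : Matrix (Fin n) (Fin n) K) = _
    rw [← hs, map_mul, map_mul, map_inv, Units.val_mul, Units.val_mul]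
  have hx' : ρ' x ^ m - 1 = u * ((ρ g : Matrix (Fin n) (Fin n) K) ^ m - 1) * ui := by
    rw [e1, Units.conj_pow, Matrix.mul_sub, Matrix.sub_mul, Matrix.mul_one, Units.mul_inv]
  refine hasExactImage_of_commutant ((Group.fg_iff_subgroup_fg H).2 hH) ρ' x m
    (by rw [hx', Units.conj_pow, hm', Matrix.mul_zero, Matrix.zero_mul])
    (by rw [hx']; exact fun h0 =>
      hne1 ((Units.mul_right_eq_zero _).1 ((Units.mul_left_eq_zero _).1 h0))) ?_
  obtain ⟨N, hN⟩ := hsol
  refine ⟨N, fun f hf => ?_⟩
  let cj : Matrix (Fin n) (Fin n) K →* Matrix (Fin n) (Fin n) K :=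
    { toFun := fun z => ui * z * u
      map_one' := by rw [mul_one]; exact Units.inv_mul _
      map_mul' := fun a b => by
        simp only [← mul_assoc]
        rw [mul_assoc (ui * a) u ui, Units.mul_inv, mul_one] }
  have hcjB : ∀ B : Matrix (Fin n) (Fin n) K, B * ρ' x = ρ' x * B →
      cj B * (ρ g : Matrix (Fin n) (Fin n) K) = (ρ g : Matrix (Fin n) (Fin n) K) * cj B := by
    intro B hB
    have e2 : (ρ g : Matrix (Fin n) (Fin n) K) = cj (ρ' x) := by
      change _ = ui * ρ' x * u
      rw [e1]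
      simp only [← mul_assoc]
      rw [Units.inv_mul, one_mul, mul_assoc _ ui u, Units.inv_mul, mul_one]
    rw [e2, ← map_mul, ← map_mul, hB]
  have h1 : (List.ofFn fun i => cj (f i)).prod = 0 := hN _ fun i => by
    obtain ⟨a, ha, b, hb, c, hc, hfi⟩ := hf i
    refine ⟨cj a, hcjB a ha, cj b, hcjB b hb, cj c, hcjB c hc, ?_⟩
    rw [← map_mul, ← map_mul, hfi]
    change ui * ((a * b - b * a) * c) * u =
      (ui * (a * b) * u - ui * (b * a) * u) * (ui * c * u)
    rw [← sub_mul, ← mul_sub, mul_assoc (ui * (a * b - b * a)) u, ← mul_assoc u, ← mul_assoc u,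
      Units.mul_inv, one_mul]
    simp only [mul_assoc]
  rw [show (fun i => cj (f i)) = cj ∘ f from rfl, ← List.map_ofFn, ← map_list_prod] at h1
  change ui * (List.ofFn f).prod * u = 0 at h1
  exact (Units.mul_right_eq_zero _).1 ((Units.mul_left_eq_zero _).1 h1)

/-- Centralisers with commutative commutant: in particular cyclic matrices. -/
theorem hasSolvableCommutant_of_comm {K : Type v} [CommRing K] {n : ℕ}
    (A : Matrix (Fin n) (Fin n) K)
    (h : ∀ B C, B * A = A * B → C * A = A * C → B * C = C * B) : HasSolvableCommutant A :=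
  ⟨1, fun f hf => by
    obtain ⟨a, ha, b, hb, c, -, e⟩ := hf 0
    simp [e, h a b ha hb]⟩

end Vale.Agent.P184
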