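import Vale.Agent.P184.Twist

/-!
A potential on G relative to the centraliser of g gives vanishing of the coefficient at the class
of g; isometric actions on spaces with the CAT(0) quadrilateral inequality provide potentials.
-/

namespace Vale.Agent.P184

open Filter Topology
open scoped Matrix.Norms.L2Operator

universe u

/-- A real function on G that is additive for right translation by the centraliser of g, has
bounded variation under every left translation, and does not vanish at g. -/
def HasPotential (G : Type*) [Group G] (g : G) : Prop :=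
  ∃ F : G → ℝ, F g ≠ 0 ∧ (∀ h n, n * g = g * n → F (h * n) = F h + F n) ∧
    ∀ k, ∃ M, ∀ h, |F (k * h) - F h| ≤ M

theorem twist_of_potential {G : Type u} [Group G] {g : G} (hg : HasPotential G g)
    (K : Finset G) {δ : ℝ} (hδ : 0 < δ) : Nonempty (Twist G g K δ) := by
  classical
  obtain ⟨F, hF, hadd, hbd⟩ := hg
  choose M hM using hbd
  have hM0 : ∀ k, 0 ≤ M k := fun k => (abs_nonneg _).trans (hM k 1)
  set C := Subgroup.centralizer ({g} : Set G) with hC
  have hmem : ∀ n, n ∈ C ↔ n * g = g * n := fun n => by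
    rw [hC, Subgroup.mem_centralizer_singleton_iff]
  let ψ : G → G ⧸ C → ℝ := fun h x => F x.out - F (h⁻¹ * x.out)
  have hψ : ∀ h r, ψ h (QuotientGroup.mk r) = F r - F (h⁻¹ * r) := by
    intro h r
    obtain ⟨n, hn⟩ := QuotientGroup.mk_out_eq_mul C r
    have hn' := (hmem n).1 n.2
    simp only [ψ, hn, ← mul_assoc, hadd _ _ hn']
    ring
  have hψmul : ∀ h k x, ψ (h * k) x = ψ h x + ψ k (h⁻¹ • x) := by
    intro h k x
    obtain ⟨r, rfl⟩ := QuotientGroup.mk_surjective x
    rw [MulAction.Quotient.smul_mk, hψ, hψ, hψ, smul_eq_mul, mul_inv_rev, mul_assoc]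
    ring
  have hψbd : ∀ h x, |ψ h x| ≤ M h⁻¹ := by
    intro h x
    simp only [ψ]
    rw [abs_sub_comm]
    exact hM _ _
  have hF1 : F 1 = 0 := by
    have := hadd 1 1 (by simp)
    rw [mul_one] at this
    linarith
  have hχ : ψ g (QuotientGroup.mk 1) = F g := by
    have := hadd g g⁻¹ (by simp)
    rw [mul_inv_cancel, hF1] at this
    rw [hψ, mul_one, hF1]
    linarith
  set B := ∑ k ∈ K, M k⁻¹ with hB
  have hB0 : 0 ≤ B := Finset.sum_nonneg fun k _ => hM0 _
  set t := min (δ / (B + 1)) (1 / (|F g| + 1)) with ht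
  have ht0 : 0 < t := lt_min (by positivity) (by positivity)
  have htB : t * B ≤ δ := by
    calc t * B ≤ δ / (B + 1) * B := mul_le_mul_of_nonneg_right (min_le_left _ _) hB0
      _ ≤ δ := by rw [div_mul_eq_mul_div, div_le_iff₀ (by positivity)]; nlinarith
  have htF : |t * F g| < Real.pi := by
    have h1 : t * |F g| ≤ 1 / (|F g| + 1) * |F g| :=
      mul_le_mul_of_nonneg_right (min_le_right _ _) (abs_nonneg _)
    have h2 : 1 / (|F g| + 1) * |F g| ≤ 1 := by
      rw [div_mul_eq_mul_div, div_le_one (by positivity)]; linarith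
    rw [abs_mul, abs_of_pos ht0]
    have := Real.pi_gt_three
    linarith
  let U : G → G ⧸ C → Matrix Unit Unit ℂ := fun h x =>
    Complex.exp (((t * ψ h x : ℝ) : ℂ) * Complex.I) • 1
  have hnorm1 : ‖(1 : Matrix Unit Unit ℂ)‖ = 1 := norm_one
  have hψ1 : ∀ x, ψ 1 x = 0 := fun x => by simp [ψ]
  have htop : ∃ τ : TopologicalSpace (G ⧸ C), @DiscreteTopology _ τ := ⟨⊥, @DiscreteTopology.mk _ ⊥ rfl⟩
  let instT : TopologicalSpace (G ⧸ C) := htop.choose
  have instD : DiscreteTopology (G ⧸ C) := htop.choose_spec
  refine ⟨{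
    X := G ⧸ C, topX := instT, discX := instD, actX := inferInstance
    ι := Unit, fin := inferInstance, dec := inferInstance
    U := U, U' := fun _ _ => 1
    one := fun x => by simp [U, hψ1]
    one' := fun _ => rfl
    mul := fun h k x => by
      simp only [U, hψmul, smul_mul_smul_comm, mul_one, ← Complex.exp_add]
      congr 2; push_cast; ring
    mul' := fun _ _ _ => (mul_one 1).symm
    norm_le := fun h x => by
      rw [norm_smul, hnorm1, Complex.norm_exp_ofReal_mul_I, mul_one]
    norm_le' := fun _ _ => hnorm1.le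
    close := fun k hk x => by
      have h1 : U k x - 1 =
          (Complex.exp (((t * ψ k x : ℝ) : ℂ) * Complex.I) - 1) • (1 : Matrix Unit Unit ℂ) := by
        simp [U, sub_smul]
      rw [h1, norm_smul, hnorm1, mul_one, mul_comm]
      refine (Real.norm_exp_I_mul_ofReal_sub_one_le (x := t * ψ k x)).trans ?_
      rw [Real.norm_eq_abs, abs_mul, abs_of_pos ht0]
      refine le_trans ?_ htB
      exact mul_le_mul_of_nonneg_left ((hψbd k x).trans
        (Finset.single_le_sum (f := fun k => M k⁻¹) (fun k _ => hM0 _) hk)) ht0.le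
    X0 := {QuotientGroup.mk 1}
    fixed := fun x hx => by
      rw [Set.mem_singleton_iff.1 hx, MulAction.Quotient.smul_mk, smul_eq_mul, mul_one,
        QuotientGroup.eq, mul_one, inv_mem_iff, hmem]
    lam := { toFun := fun φ => φ (QuotientGroup.mk 1)
             map_add' := fun _ _ => rfl
             map_smul' := fun _ _ => rfl }
    lamC := 1, lamC_nonneg := zero_le_one
    lam_bound := fun φ => by rw [one_mul]; exact φ.norm_coe_le_norm _
    lam_one := rfl
    inv := fun c hc φ => by
      change φ (c • QuotientGroup.mk 1) = φ (QuotientGroup.mk 1)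
      congr 1
      rw [MulAction.Quotient.smul_mk, smul_eq_mul, mul_one, QuotientGroup.eq, mul_one,
        inv_mem_iff, hmem]
      exact hc
    loc := fun φ h => h _ rfl
    val := Complex.exp (((t * F g : ℝ) : ℂ) * Complex.I)
    val' := 1
    ne := ?_
    loop := fun x hx => by
      rw [Set.mem_singleton_iff.1 hx]
      simp [U, hχ, Matrix.trace_smul]
    loop' := fun x _ => by simp }⟩
  intro h
  have him := congrArg Complex.im h
  rw [Complex.exp_ofReal_mul_I_im, Complex.one_im,
    Real.sin_eq_zero_iff_of_lt_of_lt (neg_lt_of_abs_lt htF) (lt_of_abs_lt htF)] at him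
  exact hF ((mul_eq_zero.1 him).resolve_left ht0.ne')

/-- Coefficients vanish at a class with potentials inside all finitely generated subgroups. -/
theorem hsTrace_eq_zero_of_potential {G : Type u} [Group G] {q : ℕ}
    {e : Fin q → Fin q → G → ℂ} (he : IsIdempotentMatrix e) (C : ConjClasses G)
    (hC : ∀ H : Subgroup G, H.FG → ∀ x : H, ConjClasses.mk (x : G) = C → HasPotential H x) :
    hsTrace e C = 0 :=
  hsTrace_eq_zero_of_local he C fun H hH x hx K _ hδ => twist_of_potential (hC H hH x hx) K hδ

theorem HasPotential.restrict {G : Type*} [Group G] {H : Subgroup G} {x : H}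
    (h : HasPotential G (x : G)) : HasPotential H x := by
  obtain ⟨F, hF, hadd, hbd⟩ := h
  refine ⟨fun h => F h, hF, fun h n hn => ?_, fun k => ?_⟩
  · exact hadd _ _ (congrArg Subtype.val hn)
  · exact ⟨(hbd k).choose, fun h => (hbd k).choose_spec h⟩

theorem HasPotential.conj {G : Type*} [Group G] {g x : G} (h : HasPotential G g)
    (hx : IsConj g x) : HasPotential G x := by
  obtain ⟨F, hF, hadd, hbd⟩ := h
  obtain ⟨s, rfl⟩ := isConj_iff.1 hx
  have key : ∀ h n, n * (s * g * s⁻¹) = (s * g * s⁻¹) * n →
      F (h * n * s) = F (h * s) + F (s⁻¹ * n * s) := by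
    intro h n hn
    have hn' : (s⁻¹ * n * s) * g = g * (s⁻¹ * n * s) := by
      calc (s⁻¹ * n * s) * g = s⁻¹ * (n * (s * g * s⁻¹)) * s := by group
        _ = g * (s⁻¹ * n * s) := by rw [hn]; group
    rw [← hadd _ _ hn']
    congr 1; group
  refine ⟨fun h => F (h * s) - F s, ?_, fun h n hn => ?_, fun k => ?_⟩
  · have e : s * g * s⁻¹ * s = s * g := by group
    simp only [e]
    rw [hadd s g rfl]
    simpa using hF
  · have h1 := key h n hn
    have h2 := key 1 n hn
    simp only [one_mul] at h2
    linarith
  · obtain ⟨M, hM⟩ := hbd k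
    refine ⟨M, fun h => ?_⟩
    have := hM (h * s)
    simp only [mul_assoc] at this ⊢
    simpa using this

/-- A potential on the whole group suffices. -/
theorem hsTrace_eq_zero_of_global {G : Type u} [Group G] {q : ℕ}
    {e : Fin q → Fin q → G → ℂ} (he : IsIdempotentMatrix e) (g : G) (hg : HasPotential G g) :
    hsTrace e (ConjClasses.mk g) = 0 :=
  hsTrace_eq_zero_of_potential he _ fun _ _ _ hx =>
    (hg.conj (ConjClasses.mk_eq_mk_iff_isConj.1 hx.symm)).restrict

section Isometric

variable {G : Type*} [Group G] {Y : Type*} [PseudoMetricSpace Y] [MulAction G Y]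

/-- Positive drift along the orbit of g in a space with the CAT(0) quadrilateral inequality
gives a potential. -/
theorem hasPotential_of_action (hiso : ∀ (h : G) (a b : Y), dist (h • a) (h • b) = dist a b)
    (hquad : ∀ a b c d : Y, dist a c ^ 2 + dist b d ^ 2 - dist a d ^ 2 - dist b c ^ 2 ≤
      2 * dist a b * dist c d)
    (g : G) (o : Y) {l : ℝ} (hl : 0 < l) (hgrow : ∀ k : ℕ, l * k ≤ dist o (g ^ k • o)) :
    HasPotential G g := by
  set z : ℕ → Y := fun k => g ^ k • o with hz
  set D : ℕ → ℝ := fun k => dist o (z k) with hD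
  set S : Set ℕ := {k | l / 2 ≤ D (k + 1) - D k} with hS
  have hSinf : S.Infinite := by
    intro hfin
    obtain ⟨N, hN⟩ := hfin.bddAbove
    have hub : ∀ j : ℕ, D (N + 1 + j) ≤ D (N + 1) + l / 2 * j := by
      intro j
      induction j with
      | zero => simp
      | succ j ih =>
        have : N + 1 + j ∉ S := fun h => by have := hN h; omega
        simp only [hS, Set.mem_ofPred_eq, not_le] at this
        rw [← Nat.add_assoc]
        push_cast
        linarith
    obtain ⟨j, hj⟩ := exists_nat_gt (2 * D (N + 1) / l)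
    have h1 := hgrow (N + 1 + j)
    have h2 := hub j
    rw [div_lt_iff₀ hl] at hj
    simp only [hD, hz] at h2 hj
    push_cast at h1
    have h3 : 0 ≤ l * ((N : ℝ) + 1) := by positivity
    nlinarith
  have hne : (atTop ⊓ 𝓟 S).NeBot := by
    rw [← frequently_mem_iff_neBot]
    exact Nat.frequently_atTop_iff_infinite.2 hSinf
  set 𝒰 := Ultrafilter.of (atTop ⊓ 𝓟 S) with h𝒰
  have h𝒰top : (𝒰 : Filter ℕ) ≤ atTop := (Ultrafilter.of_le _).trans inf_le_left
  have h𝒰S : S ∈ (𝒰 : Filter ℕ) := (Ultrafilter.of_le _) (mem_inf_of_right (mem_principal_self _))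
  have hbd : ∀ h : G, ∀ k, dist (h⁻¹ • o) (z k) - D k ∈
      Set.Icc (-dist (h⁻¹ • o) o) (dist (h⁻¹ • o) o) := fun h k => by
    have h1 := dist_triangle (h⁻¹ • o) o (z k)
    have h2 := dist_triangle o (h⁻¹ • o) (z k)
    rw [dist_comm o (h⁻¹ • o)] at h2
    simp only [Set.mem_Icc, hD]
    constructor <;> linarith
  have hlim : ∀ h : G, ∃ L, Tendsto (fun k => dist (h⁻¹ • o) (z k) - D k) 𝒰 (𝓝 L) := fun h => by
    obtain ⟨L, -, hL⟩ := isCompact_Icc.ultrafilter_le_nhds (𝒰.map _)
      (le_principal_iff.2 (Eventually.of_forall (hbd h) : ∀ᶠ k in (𝒰 : Filter ℕ), _))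
    exact ⟨L, hL⟩
  choose F hF using hlim
  have hDtop : Tendsto D atTop atTop :=
    tendsto_atTop_mono hgrow (Tendsto.const_mul_atTop hl tendsto_natCast_atTop_atTop)
  refine ⟨F, ?_, fun h n hn => ?_, fun k => ⟨dist (k⁻¹ • o) o, fun h => ?_⟩⟩
  · have h1 : l / 2 ≤ F g := by
      refine ge_of_tendsto (hF g) ?_
      filter_upwards [h𝒰S] with k hk
      have e : dist (g⁻¹ • o) (z k) = D (k + 1) := by
        rw [← hiso g, smul_inv_smul, hD, hz]
        simp only [pow_succ', mul_smul]
      rw [e]
      exact hk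
    linarith
  · set y := h⁻¹ • o with hy
    have hcomm : ∀ k, n • z k = g ^ k • (n • o) := fun k => by
      simp only [hz, ← mul_smul]
      congr 1
      exact ((Commute.pow_right (show Commute n g from hn) k)).eq
    set w : ℕ → Y := fun k => g ^ k • (n • o) with hw
    set r := dist (n • o) o with hr
    set s := dist y o with hs
    have key : Tendsto (fun k => dist y (w k) - dist y (z k) - dist o (w k) + dist o (z k))
        atTop (𝓝 0) := by
      have hden : Tendsto (fun k => 2 * (D k - s) - r) atTop atTop :=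
        tendsto_atTop_add_const_right _ _
          (Tendsto.const_mul_atTop two_pos (tendsto_atTop_add_const_right _ _ hDtop))
      refine squeeze_zero_norm' ?_ (Tendsto.div_atTop (tendsto_const_nhds (x := 4 * s * r)) hden)
      filter_upwards [hden.eventually_gt_atTop 0] with k hk
      rw [Real.norm_eq_abs, le_div_iff₀ hk]
      have hwz : dist (w k) (z k) = r := by simp only [hw, hz, hiso, hr]
      have q1 := hquad y o (w k) (z k)
      have q2 := hquad y o (z k) (w k)
      rw [dist_comm (z k) (w k)] at q2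
      rw [hwz] at q1 q2
      have t1 := dist_triangle y (w k) (z k)
      have t2 := dist_triangle y (z k) (w k)
      have t3 := dist_triangle o (w k) (z k)
      have t4 := dist_triangle o (z k) (w k)
      rw [dist_comm (z k) (w k)] at t2 t4
      rw [hwz] at t1 t2 t3 t4
      have t5 := dist_triangle o y (w k)
      have t6 := dist_triangle y o (w k)
      have t7 := dist_triangle o y (z k)
      have t8 := dist_triangle y o (z k)
      rw [dist_comm o y] at t5 t7
      simp only [hD] at hk ⊢
      set A := dist y (w k)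
      set B := dist y (z k)
      set C := dist o (w k)
      set E := dist o (z k)
      rw [← hs] at q1 q2 t5 t6 t7 t8
      have hs0 : 0 ≤ s := dist_nonneg
      have hr0 : 0 ≤ r := dist_nonneg
      have e0 : (A - B - C + E) * (A + B) =
          (A ^ 2 + E ^ 2 - B ^ 2 - C ^ 2) - (C - E) * ((A + B) - (C + E)) := by ring
      have b1 : |A ^ 2 + E ^ 2 - B ^ 2 - C ^ 2| ≤ 2 * s * r := abs_le.2 ⟨by linarith, by linarith⟩
      have b2 : |(C - E) * ((A + B) - (C + E))| ≤ r * (2 * s) := by
        rw [abs_mul]
        exact mul_le_mul (abs_le.2 ⟨by linarith, by linarith⟩)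
          (abs_le.2 ⟨by linarith, by linarith⟩) (abs_nonneg _) hr0
      calc |A - B - C + E| * (2 * (E - s) - r) ≤ |A - B - C + E| * (A + B) :=
            mul_le_mul_of_nonneg_left (by linarith) (abs_nonneg _)
        _ = |(A - B - C + E) * (A + B)| := by
            rw [abs_mul, abs_of_nonneg (add_nonneg dist_nonneg dist_nonneg : 0 ≤ A + B)]
        _ ≤ 4 * s * r := by
            rw [e0]
            refine (abs_sub _ _).trans ?_
            linarith
    refine tendsto_nhds_unique (hF (h * n)) ?_
    have h3 := ((hF h).add (hF n)).add (key.mono_left h𝒰top)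
    rw [add_zero] at h3
    refine h3.congr fun k => ?_
    have e1 : dist ((h * n)⁻¹ • o) (z k) = dist y (w k) := by
      rw [← hiso n, mul_inv_rev, mul_smul, smul_inv_smul, hcomm]
    have e2 : dist (n⁻¹ • o) (z k) = dist o (w k) := by
      rw [← hiso n, smul_inv_smul, hcomm]
    rw [e1, e2]
    simp only [hD, hy]
    ring
  · refine le_of_tendsto' ((hF (k * h)).sub (hF h)).abs fun j => ?_
    have e : (k * h)⁻¹ • o = h⁻¹ • (k⁻¹ • o) := by rw [mul_inv_rev, mul_smul]
    rw [e, sub_sub_sub_cancel_right]
    refine (abs_dist_sub_le _ _ _).trans ?_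
    rw [hiso]

end Isometric

end Vale.Agent.P184
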