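import Vale.Agent.P184.Criterion
import Vale.Agent.P184.Amenable

/-!
An element with amenable centraliser and positive stable length for some subadditive function
(for example a word length, or the displacement of a point in an isometric action on an arbitrary
metric space) has a potential: average horofunctions along the powers of the element over an
invariant mean on the centraliser.
-/

namespace Vale.Agent.P184

open Filter Topology

universe u v

theorem HasPotential.comap {H : Type*} [Group H] {Q : Type*} [Group Q] (π : H →* Q) {x : H}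
    (h : HasPotential Q (π x)) : HasPotential H x := by
  obtain ⟨F, hF, hadd, hbd⟩ := h
  refine ⟨fun a => F (π a), hF, fun a n hn => ?_, fun k => ?_⟩
  · show F (π (a * n)) = F (π a) + F (π n)
    rw [map_mul]
    exact hadd _ _ (by rw [← map_mul, hn, map_mul])
  · obtain ⟨M, hM⟩ := hbd (π k)
    exact ⟨M, fun a => by simpa using hM (π a)⟩

/-- Averaged horofunctions give potentials. -/
theorem hasPotential_of_drift {H : Type*} [Group H] (g : H) (ell : H → ℝ)
    (hsub : ∀ a b, ell (a * b) ≤ ell a + ell b) {l : ℝ} (hl : 0 < l)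
    (hgrow : ∀ k : ℕ, l * k ≤ ell (g ^ k))
    (ham : IsAmenableGroup (Subgroup.centralizer ({g} : Set H))) : HasPotential H g := by
  classical
  set C := Subgroup.centralizer ({g} : Set H) with hC
  obtain ⟨m, hm1, hmadd, hmsmul, hmpos, hminv⟩ := ham
  set B : H → ℝ := fun h => |ell h| + |ell h⁻¹| with hB
  have hdiff : ∀ a b, |ell (a * b) - ell b| ≤ B a := by
    intro a b
    have h1 := hsub a b
    have h2 := hsub a⁻¹ (a * b)
    rw [inv_mul_cancel_left] at h2
    have := le_abs_self (ell a)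
    have := le_abs_self (ell a⁻¹)
    have := abs_nonneg (ell a)
    have := abs_nonneg (ell a⁻¹)
    simp only [hB, abs_le]
    constructor <;> linarith
  set 𝒰 : Ultrafilter ℕ := Ultrafilter.of atTop with h𝒰
  have h𝒰top : (𝒰 : Filter ℕ) ≤ atTop := Ultrafilter.of_le _
  set A : H → C → ℕ → ℝ := fun h n N =>
    (N : ℝ)⁻¹ * ∑ k ∈ Finset.range N, (ell (h * (g ^ k * n)) - ell (g ^ k * n)) with hA
  have hAbd : ∀ h n N, |A h n N| ≤ B h := by
    intro h n N
    have hB0 : 0 ≤ B h := add_nonneg (abs_nonneg _) (abs_nonneg _)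
    simp only [hA, abs_mul, abs_inv, Nat.abs_cast]
    rcases Nat.eq_zero_or_pos N with rfl | hN
    · simpa using hB0
    · have hN' : (0 : ℝ) < N := by exact_mod_cast hN
      rw [inv_mul_le_iff₀ hN']
      refine (Finset.abs_sum_le_sum_abs _ _).trans ?_
      refine (Finset.sum_le_sum fun k _ => hdiff h _).trans ?_
      simp [mul_comm]
  have hlim : ∀ h n, ∃ L ∈ Set.Icc (-B h) (B h), Tendsto (A h n) 𝒰 (𝓝 L) := fun h n =>
    isCompact_Icc.ultrafilter_le_nhds (𝒰.map (A h n))
      (le_principal_iff.2 (Eventually.of_forall fun N => abs_le.1 (hAbd h n N) :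
        ∀ᶠ N in (𝒰 : Filter ℕ), A h n N ∈ Set.Icc (-B h) (B h)))
  choose Φ hΦmem hΦ using hlim
  have hΦbd : ∀ h, ∃ M, ∀ n, |Φ h n| ≤ M := fun h => ⟨B h, fun n => abs_le.2 (hΦmem h n)⟩
  -- positivity of the mean gives monotonicity
  have hmneg : ∀ f : C → ℝ, (∃ M, ∀ x, |f x| ≤ M) → m (fun x => - f x) = - m f := by
    intro f hf
    simpa using hmsmul (-1) f hf
  have hmle : ∀ f f' : C → ℝ, (∃ M, ∀ x, |f x| ≤ M) → (∃ M, ∀ x, |f' x| ≤ M) →
      (∀ x, f x ≤ f' x) → m f ≤ m f' := by
    rintro f f' ⟨M, hM⟩ ⟨M', hM'⟩ hle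
    have h1 : ∃ M, ∀ x, |-f x| ≤ M := ⟨M, fun x => by rw [abs_neg]; exact hM x⟩
    have h2 : ∃ M, ∀ x, |f' x + -f x| ≤ M :=
      ⟨M' + M, fun x => (abs_add_le _ _).trans (by rw [abs_neg]; exact add_le_add (hM' x) (hM x))⟩
    have h := hmpos _ h2 fun x => by linarith [hle x]
    rw [hmadd _ _ ⟨M', hM'⟩ h1, hmneg _ ⟨M, hM⟩] at h
    linarith
  have hmconst : ∀ c : ℝ, m (fun _ => c) = c := by
    intro c
    simpa [hm1] using hmsmul c (fun _ => 1) ⟨1, fun _ => by simp⟩
  refine ⟨fun h => m (Φ h), ?_, fun h n hn => ?_, fun k => ⟨B k, fun h => ?_⟩⟩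
  · -- the drift along g
    have hge : ∀ n, l ≤ Φ g n := by
      intro n
      have hlow : Tendsto (fun N : ℕ => l - (|ell (n : H)| + |ell (n : H)⁻¹|) * (N : ℝ)⁻¹) 𝒰
          (𝓝 (l - (|ell (n : H)| + |ell (n : H)⁻¹|) * 0)) :=
        ((tendsto_inv_atTop_nhds_zero_nat (𝕜 := ℝ)).mono_left h𝒰top).const_mul _ |>.const_sub _
      rw [mul_zero, sub_zero] at hlow
      refine le_of_tendsto_of_tendsto hlow (hΦ g n) ?_
      filter_upwards [h𝒰top (eventually_ge_atTop 1)] with N hN
      have hN' : (0 : ℝ) < N := by exact_mod_cast hN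
      have htel : ∑ k ∈ Finset.range N, (ell (g * (g ^ k * (n : H))) - ell (g ^ k * n)) =
          ell (g ^ N * n) - ell (n : H) := by
        rw [← show ell (g ^ 0 * (n : H)) = ell (n : H) by simp,
          ← Finset.sum_range_sub (fun k => ell (g ^ k * (n : H))) N]
        exact Finset.sum_congr rfl fun k _ => by rw [pow_succ', mul_assoc]
      have h1 := hsub (g ^ N * n) (n : H)⁻¹
      rw [mul_inv_cancel_right] at h1
      have h2 := hgrow N
      have h3 := le_abs_self (ell (n : H))
      have h4 := le_abs_self (ell (n : H)⁻¹)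
      simp only [hA, htel]
      rw [le_inv_mul_iff₀ hN', mul_sub, ← mul_assoc, mul_comm (N : ℝ) (|ell _| + _), mul_assoc,
        mul_inv_cancel₀ hN'.ne', mul_one]
      linarith
    have h1 := hmle (fun _ => l) (Φ g) ⟨|l|, fun _ => le_rfl⟩ (hΦbd g) hge
    rw [hmconst] at h1
    linarith
  · -- additivity for the centraliser
    have hnC : n ∈ C := by
      rw [hC, Subgroup.mem_centralizer_singleton_iff]
      exact hn
    set c : C := ⟨n, hnC⟩ with hc
    have hkey : ∀ x : C, Φ (h * n) x = Φ h (c * x) + Φ n x := by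
      intro x
      refine tendsto_nhds_unique (hΦ (h * n) x) (((hΦ h (c * x)).add (hΦ n x)).congr fun N => ?_)
      simp only [hA]
      rw [← mul_add, ← Finset.sum_add_distrib]
      congr 1
      refine Finset.sum_congr rfl fun k _ => ?_
      have hcomm : n * g ^ k = g ^ k * n := (Commute.pow_right (show Commute n g from hn) k).eq
      have e : g ^ k * ((c * x : C) : H) = n * (g ^ k * x) := by
        rw [Subgroup.coe_mul, hc, ← mul_assoc, ← mul_assoc, hcomm]
      rw [e, ← mul_assoc h n]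
      ring
    show m (Φ (h * n)) = m (Φ h) + m (Φ n)
    rw [show Φ (h * n) = fun x => Φ h (c * x) + Φ n x from funext hkey,
      hmadd _ _ (let ⟨M, hM⟩ := hΦbd h; ⟨M, fun x => hM _⟩) (hΦbd n), hminv c _ (hΦbd h)]
  · -- bounded variation
    have hkey : ∀ x, |Φ (k * h) x - Φ h x| ≤ B k := by
      intro x
      refine le_of_tendsto' ((hΦ (k * h) x).sub (hΦ h x)).abs fun N => ?_
      simp only [hA, ← mul_sub, ← Finset.sum_sub_distrib, sub_sub_sub_cancel_right, abs_mul,
        abs_inv, Nat.abs_cast]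
      rcases Nat.eq_zero_or_pos N with rfl | hN
      · simpa using add_nonneg (abs_nonneg (ell k)) (abs_nonneg (ell k⁻¹))
      · rw [inv_mul_le_iff₀ (by exact_mod_cast hN)]
        refine (Finset.abs_sum_le_sum_abs _ _).trans ?_
        refine (Finset.sum_le_sum fun j _ => ?_).trans_eq (by simp : ∑ _j ∈ Finset.range N, B k = N * B k)
        rw [mul_assoc]
        exact hdiff k _
    obtain ⟨M, hM⟩ := hΦbd (k * h)
    obtain ⟨M', hM'⟩ := hΦbd h
    have hd : ∃ M, ∀ x, |Φ (k * h) x - Φ h x| ≤ M := ⟨B k, hkey⟩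
    have hB' : ∃ M, ∀ _x : C, |B k| ≤ M := ⟨|B k|, fun _ => le_rfl⟩
    have e : m (Φ (k * h)) = m (fun x => Φ (k * h) x - Φ h x) + m (Φ h) := by
      rw [← hmadd _ _ hd ⟨M', hM'⟩]
      simp
    show |m (Φ (k * h)) - m (Φ h)| ≤ B k
    rw [e, add_sub_cancel_right, abs_le]
    constructor
    · have := hmle (fun _ => -B k) _ ⟨|B k|, fun _ => by simp⟩ hd fun x => (abs_le.1 (hkey x)).1
      rwa [hmconst] at this
    · have := hmle _ (fun _ => B k) hd hB' fun x => (abs_le.1 (hkey x)).2
      rwa [hmconst] at this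

end Vale.Agent.P184
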