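import Vale.Agent.P184.Criterion

/-!
Eigenvalues that are not roots of unity give potentials: every linear group over a field has
vanishing coefficients at such classes.
-/

namespace Vale.Agent.P184

open Filter Topology Polynomial

universe u

/-- The determinant of a product of rectangular matrices, expanded along the rows. -/
lemma det_mul_expand {F : Type*} [Field F] {d N : ℕ} (Q : Matrix (Fin d) (Fin N) F)
    (A : Matrix (Fin N) (Fin d) F) :
    (Q * A).det = ∑ f : Fin d → Fin N, (∏ i, Q i (f i)) * (A.submatrix f id).det := by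
  have e : (Q * A) = fun i => ∑ j, Q i j • A j := by
    funext i k
    simp [Matrix.mul_apply, Finset.sum_apply]
  rw [e]
  change (Matrix.detRowAlternating (R := F) (n := Fin d)).toMultilinearMap
    (fun i => ∑ j, Q i j • A j) = _
  rw [MultilinearMap.map_sum]
  refine Finset.sum_congr rfl fun f _ => ?_
  rw [MultilinearMap.map_smul_univ, smul_eq_mul]
  rfl

/-- An eigenvalue of absolute value different from one gives a potential. -/
theorem potential_of_eigen {H : Type*} [Group H] {F : Type*} [Field F] (v : AbsoluteValue F ℝ)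
    {N : ℕ} (σ : H →* Matrix (Fin N) (Fin N) F) (x : H) (μ : F) (hμ : v μ ≠ 1) (h0 : μ ≠ 0)
    (hdet : (σ x - algebraMap F (Matrix (Fin N) (Fin N) F) μ).det = 0) :
    HasPotential H x := by
  classical
  set T := Matrix.mulVecLin (σ x - algebraMap F (Matrix (Fin N) (Fin N) F) μ) with hT
  set E := LinearMap.ker T with hE
  have hEmem : ∀ w, w ∈ E ↔ Matrix.mulVec (σ x) w = μ • w := fun w => by
    rw [hE, LinearMap.mem_ker, hT, Matrix.mulVecLin_apply, Matrix.sub_mulVec, sub_eq_zero,
      Algebra.algebraMap_eq_smul_one, Matrix.smul_mulVec, Matrix.one_mulVec]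
  have hEne : E ≠ ⊥ := by
    obtain ⟨w, hw0, hw⟩ := Matrix.exists_mulVec_eq_zero_iff.2 hdet
    exact (Submodule.ne_bot_iff _).2 ⟨w, by rw [hE, LinearMap.mem_ker, hT,
      Matrix.mulVecLin_apply, hw], hw0⟩
  set d := Module.finrank F E with hd
  have hd0 : d ≠ 0 := fun h => hEne (Submodule.finrank_eq_zero.1 h)
  set b := Module.finBasis F E with hb
  set B : Matrix (Fin N) (Fin d) F := fun i j => (b j : Fin N → F) i with hB
  have hMn : ∀ n, n * x = x * n → ∃ M : Matrix (Fin d) (Fin d) F, σ n * B = B * M := by
    intro n hn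
    have hw : ∀ j, Matrix.mulVec (σ n) (b j : Fin N → F) ∈ E := fun j => by
      rw [hEmem, Matrix.mulVec_mulVec, ← map_mul, ← hn, map_mul, ← Matrix.mulVec_mulVec,
        (hEmem _).1 (b j).2, Matrix.mulVec_smul]
    refine ⟨Matrix.of fun i j => b.repr ⟨_, hw j⟩ i, ?_⟩
    ext i j
    have := congrArg (fun w : E => (w : Fin N → F) i) (b.sum_repr ⟨_, hw j⟩)
    simp only [Submodule.coe_sum, Submodule.coe_smul, Finset.sum_apply, Pi.smul_apply,
      smul_eq_mul] at this
    rw [Matrix.mul_apply, Matrix.mul_apply]
    change Matrix.mulVec (σ n) (b j : Fin N → F) i = _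
    rw [← this]
    exact Finset.sum_congr rfl fun k _ => mul_comm _ _
  choose! Mn hMn using hMn
  obtain ⟨P, hP⟩ : ∃ P : Matrix (Fin d) (Fin N) F, P * B = 1 := by
    have hinj : LinearMap.ker (Matrix.mulVecLin B) = ⊥ := by
      refine LinearMap.ker_eq_bot'.2 fun c hc => ?_
      have : ∑ j, c j • b j = 0 := by
        apply Subtype.ext
        funext i
        have := congrFun hc i
        simp only [Matrix.mulVecLin_apply, Matrix.mulVec, dotProduct, Pi.zero_apply, hB] at this
        simp only [Submodule.coe_sum, Submodule.coe_smul, Finset.sum_apply, Pi.smul_apply,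
          smul_eq_mul, ZeroMemClass.coe_zero, Pi.zero_apply]
        rw [← this]
        exact Finset.sum_congr rfl fun k _ => mul_comm _ _
      exact funext fun j => Fintype.linearIndependent_iff.1 b.linearIndependent c this j
    obtain ⟨g, hg⟩ := (Matrix.mulVecLin B).exists_leftInverse_of_injective hinj
    refine ⟨LinearMap.toMatrix' g, ?_⟩
    have := congrArg LinearMap.toMatrix' hg
    rwa [LinearMap.toMatrix'_comp, LinearMap.toMatrix'_id, ← Matrix.toLin'_apply',
      LinearMap.toMatrix'_toLin'] at this
  set L : H → ℝ := fun h => ∑ f : Fin d → Fin N, v (((σ h * B).submatrix f id).det) with hL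
  have hLpos : ∀ h, 0 < L h := by
    intro h
    refine (Finset.sum_nonneg fun f _ => v.nonneg _).lt_of_ne fun he => ?_
    have hz : ∀ f : Fin d → Fin N, ((σ h * B).submatrix f id).det = 0 := fun f =>
      v.eq_zero.1 ((Finset.sum_eq_zero_iff_of_nonneg fun f _ => v.nonneg _).1 he.symm f
        (Finset.mem_univ _))
    have h1 : ((P * σ h⁻¹) * (σ h * B)).det = 1 := by
      rw [Matrix.mul_assoc, ← Matrix.mul_assoc (σ h⁻¹), ← map_mul, inv_mul_cancel, map_one,
        Matrix.one_mul, hP, Matrix.det_one]
    rw [det_mul_expand] at h1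
    simp [hz] at h1
  have hLmul : ∀ h n, n * x = x * n → L (h * n) = L h * v (Mn n).det := by
    intro h n hn
    simp only [hL, map_mul, Finset.sum_mul, Matrix.mul_assoc, hMn n hn]
    refine Finset.sum_congr rfl fun f _ => ?_
    rw [← Matrix.mul_assoc, ← map_mul v, ← Matrix.det_mul]
    congr 1
  have hLmul' : ∀ h, L (h * x) = L h * v μ ^ d := by
    intro h
    have hxB : σ x * B = μ • B := by
      ext i j
      exact congrFun ((hEmem _).1 (b j).2) i
    simp only [hL, map_mul, Matrix.mul_assoc, hxB, Finset.sum_mul]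
    refine Finset.sum_congr rfl fun f _ => ?_
    rw [Matrix.mul_smul, Matrix.submatrix_smul]
    simp only [Pi.smul_apply, Matrix.det_smul, Fintype.card_fin, map_mul, map_pow]
    ring
  set cst : H → ℝ := fun k => ((Fintype.card (Fin d → Fin N) : ℝ)) *
    (∑ i, ∑ j, v (σ k i j)) ^ d with hcst
  have hLk : ∀ k h, L (k * h) ≤ cst k * L h := by
    intro k h
    set C := ∑ i, ∑ j, v (σ k i j) with hC
    have hrow : ∀ f : Fin d → Fin N,
        v (((σ (k * h) * B).submatrix f id).det) ≤ C ^ d * L h := by
      intro f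
      have e : (σ (k * h) * B).submatrix f id = (σ k).submatrix f id * (σ h * B) := by
        rw [map_mul, Matrix.mul_assoc]
        rfl
      rw [e, det_mul_expand, hL, Finset.mul_sum]
      refine (v.sum_le _ _).trans (Finset.sum_le_sum fun f' _ => ?_)
      rw [map_mul]
      refine mul_le_mul_of_nonneg_right ?_ (v.nonneg _)
      rw [map_prod, ← Fin.prod_const]
      refine Finset.prod_le_prod (fun i _ => v.nonneg _) fun i _ => ?_
      refine le_trans (Finset.single_le_sum (f := fun j => v (σ k (f i) j))
        (fun j _ => v.nonneg _) (Finset.mem_univ (f' i))) ?_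
      exact Finset.single_le_sum (f := fun l => ∑ j, v (σ k l j))
        (fun l _ => Finset.sum_nonneg fun j _ => v.nonneg _) (Finset.mem_univ _)
    calc L (k * h) ≤ ∑ _f : Fin d → Fin N, C ^ d * L h := Finset.sum_le_sum fun f _ => hrow f
      _ = cst k * L h := by
          rw [Finset.sum_const, Finset.card_univ, nsmul_eq_mul, hcst]; ring
  have hcpos : ∀ k, 0 < cst k := fun k => by
    have h1 := (hLpos (k * 1)).trans_le (hLk k 1)
    exact (pos_iff_pos_of_mul_pos h1).2 (hLpos 1)
  have hdpos : ∀ n, n * x = x * n → 0 < v (Mn n).det := fun n hn => by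
    have := hLpos (1 * n)
    rw [hLmul 1 n hn] at this
    exact (pos_iff_pos_of_mul_pos this).1 (hLpos 1)
  refine ⟨fun h => Real.log (L h) - Real.log (L 1), ?_, fun h n hn => ?_, fun k => ?_⟩
  · have hμ0 : 0 < v μ := v.pos h0
    have h1 := hLmul' 1
    rw [one_mul] at h1
    simp only [h1, Real.log_mul (hLpos 1).ne' (pow_pos hμ0 d).ne', add_sub_cancel_left,
      Real.log_pow]
    exact mul_ne_zero (Nat.cast_ne_zero.2 hd0) (Real.log_ne_zero_of_pos_of_ne_one hμ0 hμ)
  · have h1 := hLmul 1 n hn
    rw [one_mul] at h1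
    dsimp only
    rw [hLmul h n hn, h1, Real.log_mul (hLpos h).ne' (hdpos n hn).ne',
      Real.log_mul (hLpos 1).ne' (hdpos n hn).ne']
    ring
  · refine ⟨|Real.log (cst k)| + |Real.log (cst k⁻¹)|, fun h => ?_⟩
    have h1 : Real.log (L (k * h)) ≤ Real.log (cst k) + Real.log (L h) := by
      rw [← Real.log_mul (hcpos k).ne' (hLpos h).ne']
      exact Real.log_le_log (hLpos _) (hLk k h)
    have h2 : Real.log (L h) ≤ Real.log (cst k⁻¹) + Real.log (L (k * h)) := by
      rw [← Real.log_mul (hcpos _).ne' (hLpos _).ne']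
      have := hLk k⁻¹ (k * h)
      rw [inv_mul_cancel_left] at this
      exact Real.log_le_log (hLpos _) this
    have := le_abs_self (Real.log (cst k))
    have := le_abs_self (Real.log (cst k⁻¹))
    have := abs_nonneg (Real.log (cst k))
    have := abs_nonneg (Real.log (cst k⁻¹))
    rw [abs_le]
    constructor <;> linarith

/-- A matrix representation over a finite extension of a valued field with an eigenvalue in
the base of absolute value different from one gives a potential, by restriction of scalars. -/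
theorem potential_of_finite_ext {H : Type*} [Group H] {F : Type*} [Field F] {L : Type*} [Field L]
    [Algebra F L] [Module.Finite F L] {n : ℕ} (σ : H →* Matrix (Fin n) (Fin n) L) (x : H)
    (v : AbsoluteValue F ℝ) (μ : F) (hμ : v μ ≠ 1) (h0 : μ ≠ 0)
    (hdet : (σ x - algebraMap F (Matrix (Fin n) (Fin n) L) μ).det = 0) :
    HasPotential H x := by
  classical
  set A := σ x - algebraMap F (Matrix (Fin n) (Fin n) L) μ with hA
  set D := Module.finrank F L
  set Φ : Matrix (Fin n) (Fin n) L →ₐ[F] Matrix (Fin (n * D)) (Fin (n * D)) F :=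
    ((Matrix.reindexAlgEquiv F F finProdFinEquiv).toAlgHom.comp
      (Matrix.compAlgEquiv (Fin n) (Fin D) F F).toAlgHom).comp
      (Algebra.leftMulMatrix (Module.finBasis F L)).mapMatrix with hΦ
  have hΦinj : Function.Injective Φ := by
    intro X Y hXY
    simp only [hΦ, AlgHom.comp_apply, AlgEquiv.toAlgHom_eq_coe, AlgHom.coe_coe] at hXY
    have h1 := (Matrix.compAlgEquiv (Fin n) (Fin D) F F).injective
      ((Matrix.reindexAlgEquiv F F finProdFinEquiv).injective hXY)
    refine Matrix.ext fun i j => Algebra.leftMulMatrix_injective (Module.finBasis F L) ?_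
    have h2 := congrFun (congrFun h1 i) j
    simpa using h2
  have hdetF : (Φ A).det = 0 := by
    by_contra hne
    obtain ⟨w, hw0, hw⟩ := Matrix.exists_mulVec_eq_zero_iff.2 hdet
    obtain ⟨i0, hi0⟩ := Function.ne_iff.1 hw0
    set Z : Matrix (Fin n) (Fin n) L := Matrix.of fun i _ => w i with hZ
    have h1 : A * Z = 0 := by
      ext i j
      exact congrFun hw i
    have h2 : Φ Z = 0 := by
      have hu : IsUnit (Φ A) := (Matrix.isUnit_iff_isUnit_det _).2 (isUnit_iff_ne_zero.2 hne)
      rw [← hu.mul_right_eq_zero, ← map_mul, h1, map_zero]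
    have h3 : Z = 0 := hΦinj (by rw [h2, map_zero])
    exact hi0 (congrFun (congrFun h3 i0) i0)
  refine potential_of_eigen v (Φ.toRingHom.toMonoidHom.comp σ) x μ hμ h0 ?_
  rw [hA, map_sub, AlgHom.commutes] at hdetF
  exact hdetF

/-- A finitely generated linear group, with eigenvalue in a valued subfield, has a potential:
specialise the matrix entries into a finite extension of the subfield. -/
theorem potential_of_subfield {H : Type*} [Group H] (hfg : Group.FG H) {K : Type*} [Field K]
    {n : ℕ} (ρ : H →* Matrix (Fin n) (Fin n) K) (x : H) {F : Type*} [Field F] [Algebra F K]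
    (v : AbsoluteValue F ℝ) (μ : F) (hμ : v μ ≠ 1) (h0 : μ ≠ 0)
    (hdet : (ρ x - algebraMap F (Matrix (Fin n) (Fin n) K) μ).det = 0) :
    HasPotential H x := by
  classical
  obtain ⟨S, hS⟩ := hfg.out
  set gens : Finset H := S ∪ S.image (·⁻¹) with hgens
  set ent : Finset K := gens.biUnion fun h =>
    (Finset.univ : Finset (Fin n × Fin n)).image fun p => ρ h p.1 p.2 with hent
  set R : Subalgebra F K := Algebra.adjoin F (ent : Set K) with hR
  set M : Subalgebra F (Matrix (Fin n) (Fin n) K) :=
    { carrier := {A | ∀ i j, A i j ∈ R}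
      mul_mem' := fun {A B} hA hB i j => by
        rw [Matrix.mul_apply]; exact R.sum_mem fun k _ => R.mul_mem (hA i k) (hB k j)
      add_mem' := fun {A B} hA hB i j => R.add_mem (hA i j) (hB i j)
      algebraMap_mem' := fun r i j => by
        rw [Matrix.algebraMap_matrix_apply]
        split_ifs
        · exact R.algebraMap_mem r
        · exact R.zero_mem } with hM
  have hgen : ∀ h ∈ gens, ρ h ∈ M := fun h hh i j => Algebra.subset_adjoin
    (Finset.mem_biUnion.2 ⟨h, hh, Finset.mem_image.2 ⟨(i, j), Finset.mem_univ _, rfl⟩⟩)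
  have hall : ∀ h, ρ h ∈ M := by
    have : ∀ h, ρ h ∈ M ∧ ρ h⁻¹ ∈ M := by
      intro h
      have hh : h ∈ Subgroup.closure (S : Set H) := by rw [hS]; trivial
      induction hh using Subgroup.closure_induction with
      | mem y hy => exact ⟨hgen y (Finset.mem_union_left _ hy),
          hgen _ (Finset.mem_union_right _ (Finset.mem_image_of_mem _ hy))⟩
      | one => simp only [inv_one, map_one, M.one_mem, and_self]
      | mul a b _ _ ha hb =>
          exact ⟨by rw [map_mul]; exact M.mul_mem ha.1 hb.1,
            by rw [mul_inv_rev, map_mul]; exact M.mul_mem hb.2 ha.2⟩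
      | inv a _ ha => exact ⟨ha.2, by rw [inv_inv]; exact ha.1⟩
    exact fun h => (this h).1
  set ρR : H →* Matrix (Fin n) (Fin n) R :=
    { toFun := fun h => Matrix.of fun i j => ⟨ρ h i j, hall h i j⟩
      map_one' := by
        refine Matrix.ext fun i j => Subtype.ext ?_
        change ρ 1 i j = _
        rw [map_one, Matrix.one_apply, Matrix.one_apply]
        split_ifs <;> rfl
      map_mul' := fun a b => by
        refine Matrix.ext fun i j => Subtype.ext ?_
        change ρ (a * b) i j = _
        rw [map_mul, Matrix.mul_apply, Matrix.mul_apply]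
        simp } with hρR
  have hdetR : (ρR x - algebraMap F (Matrix (Fin n) (Fin n) R) μ).det = 0 := by
    apply Subtype.val_injective
    change R.val ((ρR x - algebraMap F (Matrix (Fin n) (Fin n) R) μ).det) = R.val 0
    rw [AlgHom.map_det, map_zero, map_sub, AlgHom.commutes]
    exact hdet
  have : Algebra.FiniteType F R := (Subalgebra.fg_iff_finiteType R).1 ⟨ent, rfl⟩
  obtain ⟨m, hm⟩ := Ideal.exists_maximal R
  let := Ideal.Quotient.field m
  have : Module.Finite F (R ⧸ m) := finite_of_finite_type_of_isJacobsonRing F (R ⧸ m)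
  set π : Matrix (Fin n) (Fin n) R →ₐ[F] Matrix (Fin n) (Fin n) (R ⧸ m) :=
    (Ideal.Quotient.mkₐ F m).mapMatrix with hπ
  refine potential_of_finite_ext (π.toRingHom.toMonoidHom.comp ρR) x v μ hμ h0 ?_
  have h1 := congrArg (Ideal.Quotient.mkₐ F m) hdetR
  rw [AlgHom.map_det, map_zero, map_sub, AlgHom.commutes] at h1
  exact h1

/-- Degree absolute value on rational functions. -/
noncomputable def degAbv (k : Type*) [Field k] [DecidableEq (RatFunc k)] :
    AbsoluteValue (RatFunc k) ℝ where
  toFun x := if x = 0 then 0 else (2 : ℝ) ^ x.intDegree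
  map_mul' x y := by
    rcases eq_or_ne x 0 with rfl | hx
    · simp
    rcases eq_or_ne y 0 with rfl | hy
    · simp
    simp [hx, hy, RatFunc.intDegree_mul hx hy, zpow_add₀ (two_ne_zero' ℝ)]
  nonneg' x := by
    split_ifs <;> positivity
  eq_zero' x := by
    split_ifs with h
    · simpa using h
    · simp [h, zpow_ne_zero]
  add_le' x y := by
    rcases eq_or_ne y 0 with rfl | hy
    · simp
    rcases eq_or_ne x 0 with rfl | hx
    · simp
    rw [if_neg hx, if_neg hy]
    split_ifs with h
    · positivity
    · have := RatFunc.intDegree_add_le hy h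
      refine (zpow_le_zpow_right₀ one_le_two this).trans ?_
      rcases le_total x.intDegree y.intDegree with hle | hle
      · rw [max_eq_right hle]; exact le_add_of_nonneg_left (by positivity)
      · rw [max_eq_left hle]; exact le_add_of_nonneg_right (by positivity)

/-- A number in a number field that is not a root of unity has an absolute value different
from one. -/
theorem exists_abv_ne_one (F : Type*) [Field F] [NumberField F] (μ : F)
    (hμ : ∀ m : ℕ, 0 < m → μ ^ m ≠ 1) : ∃ v : AbsoluteValue F ℝ, v μ ≠ 1 := by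
  by_contra! hc
  have hint : IsIntegral ℤ μ := by
    obtain ⟨r, hr⟩ := IsDedekindDomain.HeightOneSpectrum.mem_integers_of_valuation_le_one
      (R := NumberField.RingOfIntegers F) F μ (fun w => by
        by_contra hw
        have h1 := hc (NumberField.HeightOneSpectrum.adicAbv F w)
        rw [NumberField.HeightOneSpectrum.adicAbv_def] at h1
        push Not at hw
        have h2 : (1 : NNReal) < WithZeroMulInt.toNNReal
            (NumberField.HeightOneSpectrum.absNorm_ne_zero w) (w.valuation F μ) := by
          rw [← map_one (WithZeroMulInt.toNNReal (NumberField.HeightOneSpectrum.absNorm_ne_zero w))]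
          exact WithZeroMulInt.toNNReal_strictMono
            (NumberField.HeightOneSpectrum.one_lt_absNorm_nnreal w) hw
        exact absurd h1 (ne_of_gt (by exact_mod_cast h2)))
    rw [← hr]
    exact r.2
  obtain ⟨m, hm, hm1⟩ := NumberField.Embeddings.pow_eq_one_of_norm_eq_one F ℂ hint
    (fun φ => by simpa using hc (NumberField.place φ))
  exact hμ m hm hm1

theorem potential_linear {H : Type*} [Group H] (hfg : Group.FG H) {K : Type*} [Field K]
    {n : ℕ} (ρ : H →* Matrix (Fin n) (Fin n) K) (x : H) (a : K)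
    (ha : ∀ m : ℕ, 0 < m → a ^ m ≠ 1) (ha0 : a ≠ 0)
    (hdet : (ρ x - Matrix.scalar (Fin n) a).det = 0) : HasPotential H x := by
  classical
  have hdet' : ∀ (F : Type) [Field F] [Algebra F K] (μ : F), algebraMap F K μ = a →
      (ρ x - algebraMap F (Matrix (Fin n) (Fin n) K) μ).det = 0 := by
    intro F _ _ μ hμ
    rw [IsScalarTower.algebraMap_apply F K (Matrix (Fin n) (Fin n) K), hμ]
    exact hdet
  have htr : ∀ (k : Type) [Field k] [Algebra k K], Transcendental k a → HasPotential H x := by
    intro k _ _ hT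
    set φ : RatFunc k →ₐ[k] K := RatFunc.liftAlgHom (Polynomial.aeval a)
      (nonZeroDivisors_le_comap_nonZeroDivisors_of_injective _
        (transcendental_iff_injective.1 hT))
    let := φ.toRingHom.toAlgebra
    have hX : algebraMap (RatFunc k) K RatFunc.X = a := by
      change φ RatFunc.X = a
      rw [← RatFunc.algebraMap_X, RatFunc.liftAlgHom_apply]
      simp
    refine potential_of_subfield hfg ρ x (degAbv k) RatFunc.X ?_ RatFunc.X_ne_zero
      (hdet' _ _ hX)
    change (if (RatFunc.X : RatFunc k) = 0 then (0 : ℝ) else 2 ^ RatFunc.intDegree RatFunc.X) ≠ 1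
    rw [if_neg RatFunc.X_ne_zero, RatFunc.intDegree_X]
    norm_num
  obtain ⟨p, hp⟩ := CharP.exists K
  rcases CharP.char_is_prime_or_zero K p with hprime | rfl
  · have := Fact.mk hprime
    let := ZMod.algebra K p
    refine htr (ZMod p) (fun halg => ?_)
    have hint : IsIntegral (ZMod p) a := halg.isIntegral
    have : Finite (IntermediateField.adjoin (ZMod p) {a}) := by
      have := IntermediateField.adjoin.finiteDimensional hint
      exact Module.finite_of_finite (ZMod p)
    have := Fintype.ofFinite (IntermediateField.adjoin (ZMod p) {a})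
    set a' : IntermediateField.adjoin (ZMod p) {a} :=
      ⟨a, IntermediateField.mem_adjoin_simple_self _ a⟩
    have h1 := FiniteField.pow_card_sub_one_eq_one a' (fun h => ha0 (congrArg Subtype.val h))
    refine ha (Fintype.card (IntermediateField.adjoin (ZMod p) {a}) - 1) ?_ ?_
    · have := Fintype.one_lt_card (α := IntermediateField.adjoin (ZMod p) {a})
      omega
    · exact congrArg Subtype.val h1
  · have : CharZero K := CharP.charP_to_charZero K
    by_cases halg : IsAlgebraic ℚ a
    · set F := IntermediateField.adjoin ℚ {a}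
      have : FiniteDimensional ℚ F := IntermediateField.adjoin.finiteDimensional halg.isIntegral
      have : NumberField F := NumberField.mk
      set a' : F := ⟨a, IntermediateField.mem_adjoin_simple_self _ a⟩
      obtain ⟨v, hv⟩ := exists_abv_ne_one F a' (fun m hm h => ha m hm (congrArg Subtype.val h))
      refine potential_of_subfield hfg ρ x v a' hv (fun h => ha0 (congrArg Subtype.val h)) ?_
      rw [IsScalarTower.algebraMap_apply F K (Matrix (Fin n) (Fin n) K)]
      exact hdet
    · exact htr ℚ halg

/-- Vanishing at a class with an eigenvalue in the ground field that is not a root of unity. -/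
theorem hsTrace_eq_zero_matrix {G : Type u} [Group G] {L : Type*} [Field L] {n : ℕ}
    (σ : G →* Matrix (Fin n) (Fin n) L) (g : G) (a : L) (hroot : (σ g).charpoly.eval a = 0)
    (ha : ∀ m : ℕ, 0 < m → a ^ m ≠ 1) {q : ℕ} {e : Fin q → Fin q → G → ℂ}
    (he : IsIdempotentMatrix e) : hsTrace e (ConjClasses.mk g) = 0 := by
  have hunit : ∀ h, IsUnit (σ h) := fun h => (Group.isUnit h).map σ
  have ha0 : a ≠ 0 := by
    rintro rfl
    rw [Matrix.eval_charpoly, map_zero, zero_sub, Matrix.det_neg] at hroot
    exact ((Matrix.isUnit_iff_isUnit_det _).1 (hunit g)).ne_zero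
      ((mul_eq_zero.1 hroot).resolve_left (pow_ne_zero _ (neg_ne_zero.2 one_ne_zero)))
  refine hsTrace_eq_zero_of_potential he _ fun H hH x hx => ?_
  refine potential_linear ((Group.fg_iff_subgroup_fg H).2 hH) (σ.comp H.subtype) x a ha ha0 ?_
  obtain ⟨s, hs⟩ := isConj_iff.1 (ConjClasses.mk_eq_mk_iff_isConj.1 hx.symm)
  obtain ⟨u, hu⟩ := hunit s
  have hconj : σ (x : G) =
      (u : Matrix (Fin n) (Fin n) L) * σ g * (u⁻¹ : (Matrix (Fin n) (Fin n) L)ˣ) := by
    rw [Units.eq_mul_inv_iff_mul_eq, hu, ← map_mul, ← map_mul, ← hs, inv_mul_cancel_right]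
  have h2 : (σ (x : G)).charpoly.eval a = 0 := by
    rw [hconj, Matrix.coe_units_inv, Matrix.charpoly_units_conj]; exact hroot
  rw [Matrix.eval_charpoly] at h2
  change (σ (x : G) - Matrix.scalar (Fin n) a).det = 0
  rw [← neg_sub, Matrix.det_neg, h2, mul_zero]

/-- Vanishing at every class with an eigenvalue that is not a root of unity. -/
theorem hsTrace_eq_zero_linear {G : Type u} [Group G] {K : Type*} [Field K] {n : ℕ}
    (ρ : G →* GL (Fin n) K) (g : G) (a : AlgebraicClosure K)
    (hroot : ((ρ g : Matrix (Fin n) (Fin n) K).charpoly.map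
      (algebraMap K (AlgebraicClosure K))).IsRoot a)
    (ha : ∀ m : ℕ, 0 < m → a ^ m ≠ 1) {q : ℕ} {e : Fin q → Fin q → G → ℂ}
    (he : IsIdempotentMatrix e) : hsTrace e (ConjClasses.mk g) = 0 :=
  hsTrace_eq_zero_matrix
    (((algebraMap K (AlgebraicClosure K)).mapMatrix (m := Fin n)).toMonoidHom.comp
      ((Units.coeHom _).comp ρ)) g a
    ((congrArg (Polynomial.eval a)
      (Matrix.charpoly_map (ρ g : Matrix (Fin n) (Fin n) K)
        (algebraMap K (AlgebraicClosure K)))).trans hroot) ha he

/-- If all eigenvalues of an invertible matrix are roots of unity, a power is unipotent. -/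
theorem exists_unipotent_power {K : Type*} [Field K] {n : ℕ} (A : Matrix (Fin n) (Fin n) K)
    (h : ∀ a : AlgebraicClosure K,
      (A.charpoly.map (algebraMap K (AlgebraicClosure K))).IsRoot a → ∃ m : ℕ, 0 < m ∧ a ^ m = 1) :
    ∃ m : ℕ, 0 < m ∧ (A ^ m - 1) ^ n = 0 := by
  classical
  set ι := algebraMap K (AlgebraicClosure K)
  set P := A.charpoly.map ι with hP
  have hmon : P.Monic := (Matrix.charpoly_monic A).map ι
  have hs : P = (P.roots.map fun a => X - C a).prod :=
    (IsAlgClosed.splits P).eq_prod_roots_of_monic hmon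
  have hr : ∀ a ∈ P.roots.toFinset, ∃ m : ℕ, 0 < m ∧ a ^ m = 1 := fun a ha =>
    h a ((Polynomial.mem_roots hmon.ne_zero).1 (Multiset.mem_toFinset.1 ha))
  choose! o ho using hr
  set m := ∏ a ∈ P.roots.toFinset, o a
  refine ⟨m, Finset.prod_pos fun a ha => (ho a ha).1, ?_⟩
  have hdvd : P ∣ ((X : (AlgebraicClosure K)[X]) ^ m - 1) ^ n := by
    have hcard : Multiset.card P.roots = n := by
      rw [IsAlgClosed.card_roots_eq_natDegree, hP, natDegree_map, Matrix.charpoly_natDegree_eq_dim,
        Fintype.card_fin]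
    rw [hs, ← hcard, ← Multiset.prod_replicate, ← Multiset.map_const']
    refine Multiset.prod_dvd_prod_of_dvd _ _ fun a ha => ?_
    rw [dvd_iff_isRoot]
    simp only [IsRoot, eval_sub, eval_pow, eval_X, eval_one]
    obtain ⟨k, hk⟩ := Finset.dvd_prod_of_mem o (Multiset.mem_toFinset.2 ha)
    rw [sub_eq_zero, show m = o a * k from hk, pow_mul, (ho a (Multiset.mem_toFinset.2 ha)).2,
      one_pow]
  have hd' : A.charpoly ∣ ((X : K[X]) ^ m - 1) ^ n := by
    rw [← Polynomial.map_dvd_map' ι]
    simpa [hP] using hdvd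
  obtain ⟨c, hc⟩ := hd'
  have := congrArg (Polynomial.aeval A) hc
  simpa [Matrix.aeval_self_charpoly] using this

/-- The conclusion of the conjecture from vanishing at infinite order, if there are finitely
many classes of torsion elements. -/
theorem bassConclusion_of_finite {G : Type u} [Group G] {q : ℕ} {e : Fin q → Fin q → G → ℂ}
    (hfin : {C : ConjClasses G | ∃ g, ConjClasses.mk g = C ∧ IsOfFinOrder g}.Finite)
    (h : ∀ g : G, ¬ IsOfFinOrder g → hsTrace e (ConjClasses.mk g) = 0) : BassConclusion e := by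
  refine ⟨hfin.toFinset, fun C hC g hg => ?_, fun C hC => ?_⟩
  · obtain ⟨g', hg', hfg'⟩ := hfin.mem_toFinset.1 hC
    obtain ⟨s, hs⟩ := isConj_iff.1 (ConjClasses.mk_eq_mk_iff_isConj.1 (hg'.trans hg.symm))
    rw [← hs]
    exact (MulAut.conj s).toMonoidHom.isOfFinOrder hfg'
  · obtain ⟨g, rfl⟩ := C.exists_rep
    exact h g fun hg => hC (hfin.mem_toFinset.2 ⟨g, rfl, hg⟩)

/-- Infinite order classes in faithful linear groups without unipotent obstruction. -/
theorem hsTrace_eq_zero_of_no_unipotent {G : Type u} [Group G] {K : Type*} [Field K] {n : ℕ}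
    (ρ : G →* GL (Fin n) K)
    (hρ : ∀ g : G, ((ρ g : Matrix (Fin n) (Fin n) K) - 1) ^ n = 0 → IsOfFinOrder g)
    (g : G) (hg : ¬ IsOfFinOrder g) {q : ℕ} {e : Fin q → Fin q → G → ℂ}
    (he : IsIdempotentMatrix e) : hsTrace e (ConjClasses.mk g) = 0 := by
  by_contra hne
  obtain ⟨m, hm, hm'⟩ := exists_unipotent_power (ρ g : Matrix (Fin n) (Fin n) K) fun a ha => by
    by_contra! hc
    exact hne (hsTrace_eq_zero_linear ρ g a ha hc he)
  refine hg (IsOfFinOrder.of_pow (hρ (g ^ m) ?_) hm.ne')
  rwa [map_pow, Units.val_pow_eq_pow_val]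

/-- In positive characteristic unipotent elements of a faithful linear group are torsion. -/
theorem isOfFinOrder_of_unipotent_charP {G : Type u} [Group G] {K : Type*} [Field K] {n : ℕ}
    (p : ℕ) [Fact p.Prime] [CharP K p] (ρ : G →* GL (Fin n) K) (hinj : Function.Injective ρ)
    (g : G) (hg : ((ρ g : Matrix (Fin n) (Fin n) K) - 1) ^ n = 0) : IsOfFinOrder g := by
  have hp : p.Prime := Fact.out
  refine isOfFinOrder_iff_pow_eq_one.2 ⟨p ^ n, pow_pos hp.pos n, hinj (Units.ext ?_)⟩
  rw [map_pow, map_one, Units.val_pow_eq_pow_val, Units.val_one]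
  rcases Nat.eq_zero_or_pos n with rfl | hn
  · exact Subsingleton.elim _ _
  have : Nonempty (Fin n) := ⟨⟨0, hn⟩⟩
  have h1 : ((ρ g : Matrix (Fin n) (Fin n) K) - 1) ^ (p ^ n) = 0 :=
    pow_eq_zero_of_le (Nat.lt_pow_self hp.one_lt).le hg
  rwa [sub_pow_char_pow_of_commute (p := p) (n := n) (Commute.one_right _), one_pow, sub_eq_zero] at h1

end Vale.Agent.P184
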