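import Vale.Agent.P184.ExactTwist
import Vale.Agent.P184.Criterion

/-!
Twists pull back along homomorphisms.
-/

namespace Vale.Agent.P184

open scoped Matrix.Norms.L2Operator

universe u

/-- An element is detected by an exact group with amenable centraliser. -/
def HasExactImage {G : Type u} [Group G] (g : G) : Prop :=
  ∃ (Q : Type u) (_ : Group Q) (π : G →* Q), IsExactGroup Q ∧ ¬ IsOfFinOrder (π g) ∧
    IsAmenableGroup (Subgroup.centralizer ({π g} : Set Q))

theorem Twist.pullback {H : Type u} [Group H] {Q : Type u} [Group Q] [DecidableEq Q]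
    (π : H →* Q) {x : H} {K : Finset H} {δ : ℝ} (t : Twist Q (π x) (K.image π) δ) :
    Nonempty (Twist H x K δ) := by
  let act : MulAction H t.X := MulAction.compHom t.X π
  have hs : ∀ (h : H) (y : t.X), h • y = π h • y := fun _ _ => rfl
  exact ⟨{
    X := t.X, topX := t.topX, discX := t.discX, actX := act
    ι := t.ι, fin := t.fin, dec := t.dec
    U := fun h y => t.U (π h) y, U' := fun h y => t.U' (π h) y
    one := fun y => by rw [map_one]; exact t.one y
    one' := fun y => by rw [map_one]; exact t.one' y
    mul := fun h k y => by rw [map_mul, t.mul, hs, map_inv]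
    mul' := fun h k y => by rw [map_mul, t.mul', hs, map_inv]
    norm_le := fun h y => t.norm_le _ y
    norm_le' := fun h y => t.norm_le' _ y
    close := fun k hk y => t.close _ (Finset.mem_image_of_mem π hk) y
    X0 := t.X0
    fixed := fun y hy => t.fixed y hy
    lam := t.lam, lamC := t.lamC, lamC_nonneg := t.lamC_nonneg
    lam_bound := t.lam_bound, lam_one := t.lam_one
    inv := fun c hc φ => by
      have hc' : π c * π x = π x * π c := by rw [← map_mul, ← map_mul, hc]
      exact t.inv (π c) hc' φ
    loc := t.loc
    val := t.val, val' := t.val', ne := t.ne, loop := t.loop, loop' := t.loop' }⟩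

/-- A twist exists at an element detected by an exact group with amenable centraliser. -/
theorem twist_of_exact_image {H : Type u} [Group H] {x : H} (hx : HasExactImage x)
    (K : Finset H) {δ : ℝ} (hδ : 0 < δ) : Nonempty (Twist H x K δ) := by
  classical
  obtain ⟨Q, _, π, hQ, hord, ham⟩ := hx
  obtain ⟨S, p, hp0, hsupp, hsum, hvar⟩ := hQ (K.image π) (δ ^ 2 / 8) (by positivity)
  obtain ⟨t⟩ := twist_of_exact hδ hp0 hsupp hsum hvar (π x) (fun h => absurd h hord) ham
  exact t.pullback π

/-- Vanishing at a class detected inside every finitely generated subgroup. -/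
theorem hsTrace_eq_zero_of_images {G : Type u} [Group G] {q : ℕ}
    {e : Fin q → Fin q → G → ℂ} (he : IsIdempotentMatrix e) (C : ConjClasses G)
    (hC : ∀ H : Subgroup G, H.FG → ∀ x : H, ConjClasses.mk (x : G) = C →
      HasPotential H x ∨ HasExactImage x) :
    hsTrace e C = 0 :=
  hsTrace_eq_zero_of_local he C fun H hH x hx K _ hδ =>
    (hC H hH x hx).elim (fun h => twist_of_potential h K hδ) (fun h => twist_of_exact_image h K hδ)

end Vale.Agent.P184
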