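import Vale.Agent.P184.Drift
import Vale.Agent.P184.Pullback
import Vale.Agent.P184.Linear

/-!
Vanishing of trace coefficients at classes of elements with amenable centraliser and positive
drift, and the resulting cases of the ℓ¹-Bass conjecture.
-/

namespace Vale.Agent.P184

universe u v

/-- Drift in an image with amenable centraliser, inside every finitely generated subgroup. -/
theorem hsTrace_eq_zero_of_drift {G : Type u} [Group G] (C : ConjClasses G)
    (hC : ∀ H : Subgroup G, H.FG → ∀ x : H, ConjClasses.mk (x : G) = C →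
      ∃ (Q : Type u) (_ : Group Q) (π : H →* Q) (ell : Q → ℝ) (l : ℝ),
        IsAmenableGroup (Subgroup.centralizer ({π x} : Set Q)) ∧
        (∀ a b, ell (a * b) ≤ ell a + ell b) ∧ 0 < l ∧ ∀ k : ℕ, l * k ≤ ell (π x ^ k))
    {q : ℕ} {e : Fin q → Fin q → G → ℂ} (he : IsIdempotentMatrix e) : hsTrace e C = 0 :=
  hsTrace_eq_zero_of_potential he C fun H hH x hx => by
    obtain ⟨Q, _, π, ell, l, ham, hsub, hl, hgrow⟩ := hC H hH x hx
    exact (hasPotential_of_drift (π x) ell hsub hl hgrow ham).comap π

/-- A group in which every element of infinite order has amenable centraliser and positive drift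
for a subadditive function on every finitely generated subgroup containing it satisfies the
ℓ¹-Bass conjecture, provided it has finitely many classes of torsion elements. -/
theorem satisfiesL1Bass_of_drift {G : Type u} [Group G]
    (hfin : {C : ConjClasses G | ∃ g, ConjClasses.mk g = C ∧ IsOfFinOrder g}.Finite)
    (ham : ∀ g : G, ¬ IsOfFinOrder g → IsAmenableGroup (Subgroup.centralizer ({g} : Set G)))
    (hdrift : ∀ H : Subgroup G, H.FG → ∀ x : H, ¬ IsOfFinOrder (x : G) →
      ∃ (ell : H → ℝ) (l : ℝ),
        (∀ a b, ell (a * b) ≤ ell a + ell b) ∧ 0 < l ∧ ∀ k : ℕ, l * k ≤ ell (x ^ k)) :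
    SatisfiesL1Bass G := by
  intro q e he
  refine bassConclusion_of_finite hfin fun g hg => ?_
  refine hsTrace_eq_zero_of_drift _ (fun H hH x hx => ?_) he
  have hx' : ¬ IsOfFinOrder (x : G) := fun hfo => hg <| by
    obtain ⟨s, hs⟩ := isConj_iff.1 (ConjClasses.mk_eq_mk_iff_isConj.1 hx)
    rw [← hs]
    exact (MulAut.conj s).toMonoidHom.isOfFinOrder hfo
  obtain ⟨ell, l, hsub, hl, hgrow⟩ := hdrift H hH x hx'
  refine ⟨H, inferInstance, MonoidHom.id H, ell, l, ?_, hsub, hl, hgrow⟩
  let ι : Subgroup.centralizer ({MonoidHom.id H x} : Set H) →*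
      Subgroup.centralizer ({(x : G)} : Set G) :=
    { toFun := fun n => ⟨((n : H) : G), by
        rw [Subgroup.mem_centralizer_singleton_iff]
        exact congrArg Subtype.val (Subgroup.mem_centralizer_singleton_iff.1 n.2)⟩
      map_one' := rfl
      map_mul' := fun _ _ => rfl }
  refine IsAmenableGroup.of_injective ι (fun a b h => ?_) (ham _ hx')
  exact Subtype.ext (Subtype.ext (congrArg Subtype.val h :))

/-- The same for isometric actions on arbitrary pseudometric spaces. -/
theorem hsTrace_eq_zero_of_translation {G : Type u} [Group G] {Y : Type v} [PseudoMetricSpace Y]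
    [MulAction G Y] (hiso : ∀ (h : G) (a b : Y), dist (h • a) (h • b) = dist a b) (o : Y) (g : G)
    (ham : IsAmenableGroup (Subgroup.centralizer ({g} : Set G)))
    {l : ℝ} (hl : 0 < l) (hgrow : ∀ k : ℕ, l * k ≤ dist o (g ^ k • o))
    {q : ℕ} {e : Fin q → Fin q → G → ℂ} (he : IsIdempotentMatrix e) :
    hsTrace e (ConjClasses.mk g) = 0 :=
  hsTrace_eq_zero_of_global he g <| hasPotential_of_drift g (fun h => dist o (h • o))
    (fun a b => (dist_triangle o (a • o) ((a * b) • o)).trans_eq (by rw [mul_smul, hiso]))
    hl hgrow ham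

end Vale.Agent.P184
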