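import Mathlib

/-!
Exactness (Yu's property A) and amenability of discrete groups.
-/

namespace Vale.Agent.P184

/-- Exactness of a discrete group, in the form of property A: for every finite set K and every
positive ε there are a finite set S and a family of probability functions p h on G, each supported
in S h, moving by at most ε in ℓ¹ under left translation by elements of K. -/
def IsExactGroup (G : Type*) [Group G] : Prop :=
  ∀ K : Finset G, ∀ ε : ℝ, 0 < ε →
    ∃ (S : Finset G) (p : G → G → ℝ),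
      (∀ h z, 0 ≤ p h z) ∧ (∀ h z, z * h⁻¹ ∉ S → p h z = 0) ∧ (∀ h, ∑' z, p h z = 1) ∧
        ∀ k ∈ K, ∀ h, ∑' z, |p (k * h) z - p h z| ≤ ε

/-- Amenability of a discrete group: there is an invariant mean on bounded real functions. -/
def IsAmenableGroup (G : Type*) [Group G] : Prop :=
  ∃ m : (G → ℝ) → ℝ,
    m (fun _ => 1) = 1 ∧
    (∀ f g : G → ℝ, (∃ C, ∀ x, |f x| ≤ C) → (∃ C, ∀ x, |g x| ≤ C) →
      m (fun x => f x + g x) = m f + m g) ∧
    (∀ (c : ℝ) (f : G → ℝ), (∃ C, ∀ x, |f x| ≤ C) → m (fun x => c * f x) = c * m f) ∧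
    (∀ f : G → ℝ, (∃ C, ∀ x, |f x| ≤ C) → (∀ x, 0 ≤ f x) → 0 ≤ m f) ∧
    ∀ (γ : G) (f : G → ℝ), (∃ C, ∀ x, |f x| ≤ C) → m (fun x => f (γ * x)) = m f

end Vale.Agent.P184
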