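import Vale.Agent.P184.Twist
import Vale.Agent.P184.Clifford
import Vale.Agent.P184.ExactDefs

/-!
In an exact group almost all classes with amenable centraliser, and all infinite order ones,
admit twists: this yields vanishing of the corresponding ℓ¹ trace coefficients.
-/

namespace Vale.Agent.P184

open Filter Topology
open scoped Matrix.Norms.L2Operator

universe u

/-- Weights averaged along the right translations by powers of g. -/
theorem exists_avg_weights {G : Type*} [Group G] [DecidableEq G] (g : G) {K S S' : Finset G}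
    {ε : ℝ} {p : G → G → ℝ} (hS' : ∀ s ∈ S, s ∈ S' ∧ ∀ k ∈ K, s * k ∈ S')
    (hp0 : ∀ h z, 0 ≤ p h z) (hsupp : ∀ h z, z * h⁻¹ ∉ S → p h z = 0)
    (hsum : ∀ h, ∑' z, p h z = 1)
    (hvar : ∀ k ∈ K, ∀ h, ∑' z, |p (k * h) z - p h z| ≤ ε) :
    ∃ P : G → G → ℝ, (∀ h s, 0 ≤ P h s) ∧ (∀ h s, s ∉ S → P h s = 0) ∧
      (∀ h, ∑ s ∈ S', P h s = 1) ∧ (∀ h s, P (h * g) s = P h s) ∧
      ∀ k ∈ K, ∀ h, ∑ s ∈ S', |P (k * h) (s * k⁻¹) - P h s| ≤ ε := by
  set f : G → G → ℝ := fun h s => p h (s * h) with hf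
  have hf0 : ∀ h s, 0 ≤ f h s := fun h s => hp0 _ _
  have hfS : ∀ h s, s ∉ S → f h s = 0 := fun h s hs => hsupp _ _ (by simpa using hs)
  have hfsum : ∀ h, ∑ s ∈ S', f h s = 1 := by
    intro h
    rw [← hsum h, tsum_eq_sum (s := S'.image (· * h)) (fun z hz => hsupp _ _ fun hz' => hz
      (Finset.mem_image.2 ⟨z * h⁻¹, (hS' _ hz').1, by group⟩)),
      Finset.sum_image (fun a _ b _ hab => mul_right_cancel hab)]
  have hf1 : ∀ h s, f h s ≤ 1 := by
    intro h s
    by_cases hs : s ∈ S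
    · rw [← hfsum h]
      exact Finset.single_le_sum (f := f h) (fun t _ => hf0 h t) (hS' s hs).1
    · rw [hfS h s hs]; exact zero_le_one
  have hfvar : ∀ k ∈ K, ∀ h, ∑ s ∈ S', |f (k * h) (s * k⁻¹) - f h s| ≤ ε := by
    intro k hk h
    refine le_trans ?_ (hvar k hk h)
    have hsm : Summable fun z => |p (k * h) z - p h z| :=
      summable_of_ne_finset_zero (s := S.image (· * h) ∪ S.image (· * (k * h))) fun z hz => by
        simp only [Finset.mem_union, Finset.mem_image, not_or, not_exists, not_and] at hz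
        rw [hsupp _ z fun h' => hz.2 _ h' (inv_mul_cancel_right z (k * h)),
          hsupp _ z fun h' => hz.1 _ h' (inv_mul_cancel_right z h)]
        simp
    refine le_trans (le_of_eq ?_) (hsm.sum_le_tsum (S'.image (· * h)) fun _ _ => abs_nonneg _)
    rw [Finset.sum_image (fun a _ b _ hab => mul_right_cancel hab)]
    refine Finset.sum_congr rfl fun s _ => ?_
    simp only [hf]
    rw [show s * k⁻¹ * (k * h) = s * h by group]
  set A : ℕ → G → G → ℝ :=
    fun n h s => (∑ i ∈ Finset.range (n + 1), f (h * g ^ i) s) / (n + 1) with hA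
  have hA01 : ∀ n h s, A n h s ∈ Set.Icc (0 : ℝ) 1 := by
    intro n h s
    refine ⟨div_nonneg (Finset.sum_nonneg fun i _ => hf0 _ _) (by positivity), ?_⟩
    rw [hA]; dsimp only
    rw [div_le_one (by positivity)]
    refine (Finset.sum_le_sum fun i _ => hf1 _ _).trans (le_of_eq ?_)
    simp
  set 𝒰 := Filter.hyperfilter ℕ
  have htop : (𝒰 : Filter ℕ) ≤ atTop := Nat.hyperfilter_le_atTop
  have hlim : ∀ h s, ∃ L, Tendsto (fun n => A n h s) 𝒰 (𝓝 L) := fun h s => by
    obtain ⟨L, -, hL⟩ := isCompact_Icc.ultrafilter_le_nhds (𝒰.map fun n => A n h s)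
      (le_principal_iff.2 (Eventually.of_forall (fun n => hA01 n h s) :
        ∀ᶠ n in (𝒰 : Filter ℕ), _))
    exact ⟨L, hL⟩
  choose P hP using hlim
  refine ⟨P, fun h s => ge_of_tendsto' (hP h s) fun n => (hA01 n h s).1, fun h s hs => ?_,
    fun h => ?_, fun h s => ?_, fun k hk h => ?_⟩
  · refine tendsto_nhds_unique (hP h s) (tendsto_const_nhds.congr fun n => ?_)
    simp [hA, hfS _ s hs]
  · refine tendsto_nhds_unique (tendsto_finsetSum _ fun s _ => hP h s)
      (tendsto_const_nhds.congr fun n => ?_)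
    simp only [hA, ← Finset.sum_div]
    rw [Finset.sum_comm]
    simp only [hfsum, Finset.sum_const, Finset.card_range, nsmul_eq_mul, mul_one]
    push_cast
    rw [div_self (by positivity)]
  · have h0 : Tendsto (fun n => A n (h * g) s - A n h s) 𝒰 (𝓝 0) := by
      refine Tendsto.mono_left ?_ htop
      refine squeeze_zero_norm (fun n => ?_) tendsto_one_div_add_atTop_nhds_zero_nat
      have e : A n (h * g) s - A n h s = (f (h * g ^ (n + 1)) s - f h s) / (n + 1) := by
        simp only [hA, ← sub_div]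
        congr 1
        rw [Finset.sum_congr rfl (fun i _ => by
          rw [mul_assoc, ← pow_succ'] : ∀ i ∈ Finset.range (n + 1),
            f (h * g * g ^ i) s = f (h * g ^ (i + 1)) s), ← Finset.sum_sub_distrib,
          Finset.sum_range_sub (fun i => f (h * g ^ i) s), pow_zero, mul_one]
      rw [e, Real.norm_eq_abs, abs_div, abs_of_pos (by positivity : (0 : ℝ) < n + 1)]
      refine div_le_div_of_nonneg_right ?_ (by positivity)
      rw [abs_le]
      constructor <;> linarith [hf0 (h * g ^ (n + 1)) s, hf1 (h * g ^ (n + 1)) s, hf0 h s, hf1 h s]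
    have h1 := h0.add (hP h s)
    simp only [sub_add_cancel, zero_add] at h1
    exact tendsto_nhds_unique (hP (h * g) s) h1
  · refine le_of_tendsto' (tendsto_finsetSum _ fun s _ =>
      ((hP (k * h) (s * k⁻¹)).sub (hP h s)).abs) fun n => ?_
    simp only [hA, ← sub_div, ← Finset.sum_sub_distrib, abs_div,
      abs_of_pos (by positivity : (0 : ℝ) < (n : ℝ) + 1), ← Finset.sum_div]
    rw [div_le_iff₀ (by positivity)]
    calc ∑ s ∈ S', |∑ i ∈ Finset.range (n + 1),
          (f (k * h * g ^ i) (s * k⁻¹) - f (h * g ^ i) s)|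
        ≤ ∑ s ∈ S', ∑ i ∈ Finset.range (n + 1),
          |f (k * (h * g ^ i)) (s * k⁻¹) - f (h * g ^ i) s| := by
          refine Finset.sum_le_sum fun s _ => (Finset.abs_sum_le_sum_abs _ _).trans (le_of_eq ?_)
          exact Finset.sum_congr rfl fun i _ => by rw [mul_assoc]
      _ = ∑ i ∈ Finset.range (n + 1), ∑ s ∈ S',
          |f (k * (h * g ^ i)) (s * k⁻¹) - f (h * g ^ i) s| := Finset.sum_comm
      _ ≤ ∑ _i ∈ Finset.range (n + 1), ε := Finset.sum_le_sum fun i _ => hfvar k hk _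
      _ = ε * (n + 1) := by simp [mul_comm]

/-- A colouring of a G-set in which distinct points at T-distance one get distinct colours. -/
theorem exists_colouring {G Q : Type*} [Group G] [MulAction G Q] (T : Finset G)
    (hT : ∀ s ∈ T, s⁻¹ ∈ T) :
    ∃ col : Q → Fin (T.card + 1), ∀ q, ∀ s ∈ T, s • q ≠ q → col (s • q) ≠ col q := by
  classical
  have hex : ∀ (q : Q) (IH : ∀ q', WellOrderingRel q' q → Fin (T.card + 1)),
      ∃ c, ∀ s ∈ T, ∀ h : WellOrderingRel (s • q) q, IH (s • q) h ≠ c := by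
    intro q IH
    set B := (T.filter (fun s => WellOrderingRel (s • q) q)).attach.image
      (fun s => IH (s.1 • q) ((Finset.mem_filter (s := T) (p := fun s => WellOrderingRel (s • q) q)).1 s.2).2) with hB
    have h2 : B.card ≤ T.card :=
      Finset.card_image_le.trans (by rw [Finset.card_attach]; exact Finset.card_filter_le _ _)
    obtain ⟨c, hc⟩ : ∃ c, c ∉ B := by
      by_contra! hc
      have h1 := Finset.card_le_card (fun c _ => hc c : (Finset.univ : Finset _) ⊆ B)
      rw [Finset.card_univ, Fintype.card_fin] at h1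
      omega
    exact ⟨c, fun s hs h hsc => hc (Finset.mem_image.2
      ⟨⟨s, Finset.mem_filter.2 ⟨hs, h⟩⟩, Finset.mem_attach _ _, hsc⟩)⟩
  choose F hF using hex
  have hwf : WellFounded (WellOrderingRel : Q → Q → Prop) := IsWellFounded.wf
  refine ⟨hwf.fix F, ?_⟩
  have key : ∀ q, ∀ s ∈ T, WellOrderingRel (s • q) q → hwf.fix F (s • q) ≠ hwf.fix F q := by
    intro q s hs hlt heq
    rw [WellFounded.fix_eq hwf F q] at heq
    exact hF q (fun q' _ => hwf.fix F q') s hs hlt heq
  intro q s hs hne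
  rcases @trichotomous _ (WellOrderingRel : Q → Q → Prop) _ (s • q) q with h | h | h
  · exact key q s hs h
  · exact absurd h hne
  · have h' : WellOrderingRel (s⁻¹ • s • q) (s • q) := by rwa [inv_smul_smul]
    have := key (s • q) s⁻¹ (hT s hs) h'
    rw [inv_smul_smul] at this
    exact this.symm

/-- A finite pool of phases, one of which is almost trivial on all exponents j for which the
conjugate power r g^j r⁻¹ lies in T. -/
theorem exists_phases {G : Type*} [Group G] (T : Finset G) {δ : ℝ} (hδ : 0 < δ) (g : G)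
    (hg : IsOfFinOrder g →
      ∀ r : G, r * g * r⁻¹ ∉
        Subgroup.closure ((T : Set G) ∩ (Subgroup.zpowers (r * g * r⁻¹) : Set G))) :
    ∃ Θ : Finset ℂ, ∀ r : G, ∃ ζ ∈ Θ, ζ ≠ 1 ∧ ‖ζ‖ = 1 ∧
      (∀ a b : ℤ, g ^ a = g ^ b → ζ ^ a = ζ ^ b) ∧
      ∀ j : ℤ, r * g ^ j * r⁻¹ ∈ T → ‖ζ ^ j - 1‖ ≤ δ := by
  classical
  by_cases hfin : IsOfFinOrder g
  · set m := orderOf g
    have hm : 0 < m := hfin.orderOf_pos
    refine ⟨(Polynomial.nthRootsFinset m (1 : ℂ)).erase 1, fun r => ?_⟩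
    set x := r * g * r⁻¹ with hx
    have hpow : ∀ j : ℤ, x ^ j = r * g ^ j * r⁻¹ := fun j => conj_zpow
    set W := Subgroup.closure ((T : Set G) ∩ (Subgroup.zpowers x : Set G))
    let J : AddSubgroup ℤ :=
      { carrier := {j | x ^ j ∈ W}
        add_mem' := fun {a b} ha hb => by
          simp only [Set.mem_ofPred_eq] at ha hb ⊢; rw [zpow_add]; exact W.mul_mem ha hb
        zero_mem' := by simp [W.one_mem]
        neg_mem' := fun {a} ha => by
          simp only [Set.mem_ofPred_eq] at ha ⊢; rw [zpow_neg]; exact W.inv_mem ha }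
    obtain ⟨d, hd⟩ := Int.subgroup_cyclic J
    have hdvd : ∀ j : ℤ, j ∈ J ↔ d ∣ j := fun j => by
      rw [hd, ← AddSubgroup.zmultiples_eq_closure, Int.mem_zmultiples_iff]
    have hmJ : (m : ℤ) ∈ J := by
      change x ^ (m : ℤ) ∈ W
      rw [hpow, zpow_natCast, pow_orderOf_eq_one]
      simp [W.one_mem]
    have hdm : d.natAbs ∣ m := by
      have := (hdvd _).1 hmJ
      exact Int.natAbs_dvd_natAbs.2 this |>.trans (by simp)
    have hd1 : d.natAbs ≠ 1 := fun h => hg hfin r (by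
      have h1 : (1 : ℤ) ∈ J := (hdvd 1).2 (Int.natAbs_dvd_natAbs.1 (by simp [h]))
      change x ^ (1 : ℤ) ∈ W at h1
      rwa [zpow_one] at h1)
    have hd0 : d.natAbs ≠ 0 := fun h => hm.ne' (by simpa [h] using hdm)
    have hω := Complex.isPrimitiveRoot_exp d.natAbs hd0
    set ζ := Complex.exp (2 * Real.pi * Complex.I / (d.natAbs : ℂ)) with hζ
    have hζm : ζ ^ m = 1 := (hω.pow_eq_one_iff_dvd m).2 hdm
    have hζ1 : ζ ≠ 1 := hω.ne_one (by omega)
    refine ⟨ζ, Finset.mem_erase.2 ⟨hζ1, (Polynomial.mem_nthRootsFinset hm 1).2 hζm⟩, hζ1,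
      Complex.norm_eq_one_of_pow_eq_one hζm hm.ne', fun a b hab => ?_, fun j hj => ?_⟩
    · have h1 : (m : ℤ) ∣ a - b := orderOf_dvd_iff_zpow_eq_one.2 (by rw [zpow_sub, hab, mul_inv_cancel])
      have h2 : ζ ^ (a - b) = 1 :=
        (hω.zpow_eq_one_iff_dvd _).2 ((Int.natCast_dvd_natCast.2 hdm).trans h1)
      have hz : ζ ≠ 0 := Complex.exp_ne_zero _
      rwa [zpow_sub₀ hz, div_eq_one_iff_eq (zpow_ne_zero _ hz)] at h2
    · have h1 : j ∈ J := by
        change x ^ j ∈ W
        rw [hpow]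
        exact Subgroup.subset_closure ⟨hj, hpow j ▸ ⟨j, rfl⟩⟩
      rw [(hω.zpow_eq_one_iff_dvd j).2 (Int.natAbs_dvd.2 ((hdvd j).1 h1))]
      simpa using hδ.le
  · obtain ⟨L, hL⟩ := exists_nat_gt (2 * Real.pi / δ)
    have hL0 : (0 : ℝ) < L := lt_trans (by positivity) hL
    set P := L ^ T.card + 1 with hP
    have hP0 : 0 < P := Nat.succ_pos _
    refine ⟨(Polynomial.nthRootsFinset P (1 : ℂ)).erase 1, fun r => ?_⟩
    let jb : T → ℤ := fun b =>
      if h : ∃ j : ℤ, r * g ^ j * r⁻¹ = (b : G) then h.choose else 0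
    let bin : Fin P → (T → Fin L) := fun k b =>
      ⟨⌊(L : ℝ) * Int.fract (((k : ℕ) : ℝ) * (jb b : ℝ) / P)⌋₊, by
        rw [Nat.floor_lt (mul_nonneg hL0.le (Int.fract_nonneg _))]
        exact mul_lt_of_lt_one_right hL0 (Int.fract_lt_one _)⟩
    obtain ⟨k1, k2, hne, heq⟩ := Fintype.exists_ne_map_eq_of_card_lt bin (by
      simp [hP])
    set Δ : ℤ := (k1 : ℕ) - (k2 : ℕ) with hΔ
    have hω := Complex.isPrimitiveRoot_exp P hP0.ne'
    set ω := Complex.exp (2 * Real.pi * Complex.I / (P : ℂ)) with hωdef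
    have hω0 : ω ≠ 0 := Complex.exp_ne_zero _
    have hΔ0 : ¬ (P : ℤ) ∣ Δ := fun h => hne (Fin.ext (by
      have := k1.2
      have := k2.2
      have h0 := Int.eq_zero_of_abs_lt_dvd h (by rw [abs_lt]; constructor <;> omega)
      omega))
    have hPζ : (ω ^ Δ) ^ P = 1 := by
      rw [← zpow_natCast, ← _root_.zpow_mul, mul_comm, _root_.zpow_mul, zpow_natCast,
        hω.pow_eq_one, _root_.one_zpow]
    have hζ1 : ω ^ Δ ≠ 1 := fun h => hΔ0 ((hω.zpow_eq_one_iff_dvd Δ).1 h)
    refine ⟨ω ^ Δ, Finset.mem_erase.2 ⟨hζ1, (Polynomial.mem_nthRootsFinset hP0 1).2 hPζ⟩, hζ1,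
      Complex.norm_eq_one_of_pow_eq_one hPζ hP0.ne', fun a b hab => ?_, fun j hj => ?_⟩
    · rw [injective_zpow_iff_not_isOfFinOrder.2 hfin hab]
    set b : T := ⟨_, hj⟩
    have hjb : jb b = j := by
      have h : ∃ j' : ℤ, r * g ^ j' * r⁻¹ = (b : G) := ⟨j, rfl⟩
      simp only [jb, dif_pos h]
      exact injective_zpow_iff_not_isOfFinOrder.2 hfin
        (mul_left_cancel (mul_right_cancel h.choose_spec))
    set u1 := ((k1 : ℕ) : ℝ) * (j : ℝ) / P with hu1
    set u2 := ((k2 : ℕ) : ℝ) * (j : ℝ) / P with hu2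
    set θ := Int.fract u1 - Int.fract u2 with hθ
    have hfloor : ⌊(L : ℝ) * Int.fract u1⌋ = ⌊(L : ℝ) * Int.fract u2⌋ := by
      have h := congrArg (fun v => ((v b : Fin L) : ℕ)) heq
      simp only [bin, hjb, ← hu1, ← hu2] at h
      rw [← Int.natCast_floor_eq_floor (mul_nonneg hL0.le (Int.fract_nonneg _)),
        ← Int.natCast_floor_eq_floor (mul_nonneg hL0.le (Int.fract_nonneg _)), h]
    have hθL : |θ| < 1 / L := by
      have h := Int.abs_sub_lt_one_of_floor_eq_floor hfloor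
      rw [← mul_sub, abs_mul, abs_of_pos hL0] at h
      rw [lt_div_iff₀ hL0, mul_comm]
      exact h
    have e : (ω ^ Δ) ^ j = Complex.exp (((2 * Real.pi * θ : ℝ) : ℂ) * Complex.I) := by
      have h1 : ((Δ * j : ℤ) : ℂ) * (2 * Real.pi * Complex.I / (P : ℂ)) =
          ((2 * Real.pi * θ : ℝ) : ℂ) * Complex.I +
            ((⌊u1⌋ - ⌊u2⌋ : ℤ) : ℂ) * (2 * Real.pi * Complex.I) := by
        have h2 : ((Δ * j : ℤ) : ℝ) / P = θ + ((⌊u1⌋ - ⌊u2⌋ : ℤ) : ℝ) := by
          simp only [hθ, Int.fract, hu1, hu2, hΔ]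
          push_cast
          ring
        have h3 := congrArg (fun v : ℝ => (v : ℂ)) h2
        push_cast at h3 ⊢
        linear_combination (2 * (Real.pi : ℂ) * Complex.I) * h3
      rw [← _root_.zpow_mul, hωdef, ← Complex.exp_int_mul, h1, Complex.exp_add,
        Complex.exp_int_mul_two_pi_mul_I, mul_one]
    rw [e, mul_comm]
    refine (Real.norm_exp_I_mul_ofReal_sub_one_le (x := 2 * Real.pi * θ)).trans ?_
    rw [Real.norm_eq_abs, abs_mul, abs_of_pos (by positivity : (0 : ℝ) < 2 * Real.pi)]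
    calc 2 * Real.pi * |θ| ≤ 2 * Real.pi * (1 / L) :=
          mul_le_mul_of_nonneg_left hθL.le (by positivity)
      _ ≤ δ := by
          rw [mul_one_div, div_le_iff₀ hL0]
          rw [div_lt_iff₀ hδ] at hL
          linarith

end Vale.Agent.P184
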