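import Vale.Agent.P184.Criterion

/-!
Potentials are exactly homomorphisms on the centraliser that are dominated by a subadditive
function on the group: extend by an infimal convolution.
-/

namespace Vale.Agent.P184

/-- A homomorphism on the centraliser of g, nonzero at g and dominated by a subadditive function
on the group, extends to a potential, and every potential arises so. -/
theorem hasPotential_iff_dominated {H : Type*} [Group H] (g : H) :
    HasPotential H g ↔ ∃ χ ell : H → ℝ, χ g ≠ 0 ∧
      (∀ a b, a * g = g * a → b * g = g * b → χ (a * b) = χ a + χ b) ∧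
      (∀ a b, ell (a * b) ≤ ell a + ell b) ∧ ∀ c, c * g = g * c → χ c ≤ ell c := by
  constructor
  · rintro ⟨F, hF, hadd, hbd⟩
    have hF1 : F 1 = 0 := by
      have := hadd 1 1 (by simp)
      rw [mul_one] at this
      linarith
    have hb : ∀ k, BddAbove (Set.range fun h => F (k * h) - F h) := by
      intro k
      obtain ⟨M, hM⟩ := hbd k
      exact ⟨M, by rintro _ ⟨h, rfl⟩; exact (abs_le.1 (hM h)).2⟩
    refine ⟨F, fun k => ⨆ h, (F (k * h) - F h), hF, fun a b _ hb' => hadd a b hb', fun a b => ?_,
      fun c _ => ?_⟩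
    · refine ciSup_le fun h => ?_
      have h1 := le_ciSup (hb a) (b * h)
      have h2 := le_ciSup (hb b) h
      rw [mul_assoc]
      linarith
    · have := le_ciSup (hb c) 1
      simpa [hF1] using this
  · rintro ⟨χ, ell, hχg, hadd, hsub, hle⟩
    let C : Subgroup H := Subgroup.centralizer ({g} : Set H)
    have hmem : ∀ n, n ∈ C ↔ n * g = g * n := fun n => Subgroup.mem_centralizer_singleton_iff
    have hone : χ 1 = 0 := by
      have := hadd 1 1 (by simp) (by simp)
      rw [mul_one] at this
      linarith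
    have hinv : ∀ n : C, χ (n⁻¹ : C) = - χ n := by
      intro n
      have := hadd (n⁻¹ : C) n ((hmem _).1 (n⁻¹).2) ((hmem _).1 n.2)
      rw [← Subgroup.coe_mul, inv_mul_cancel, Subgroup.coe_one, hone] at this
      linarith
    let Ψ : H → C → ℝ := fun h c => χ c + ell (h * (c⁻¹ : C))
    have hbd : ∀ h, BddBelow (Set.range (Ψ h)) := by
      intro h
      refine ⟨- ell h⁻¹, ?_⟩
      rintro _ ⟨c, rfl⟩
      have h1 := hle _ ((hmem _).1 (c⁻¹).2)
      have h2 := hsub h⁻¹ (h * (c⁻¹ : C))
      rw [inv_mul_cancel_left] at h2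
      rw [hinv] at h1
      simp only [Ψ]
      linarith
    have hFn : ∀ h n, n ∈ C → (⨅ c, Ψ (h * n) c) = (⨅ c, Ψ h c) + χ n := by
      intro h n hn
      have key : ∀ c : C, Ψ (h * n) (c * ⟨n, hn⟩) = Ψ h c + χ n := by
        intro c
        simp only [Ψ, Subgroup.coe_mul, Subgroup.coe_inv]
        rw [hadd _ _ ((hmem _).1 c.2) ((hmem _).1 hn), mul_inv_rev, mul_assoc h n,
          mul_inv_cancel_left]
        ring
      rw [ciInf_add (hbd h), ← Equiv.iInf_comp (Equiv.mulRight (⟨n, hn⟩ : C))]
      exact iInf_congr key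
    have hF0 : ∀ n, n ∈ C → (⨅ c, Ψ n c) = (⨅ c, Ψ 1 c) + χ n := fun n hn => by
      simpa using hFn 1 n hn
    refine ⟨fun h => (⨅ c, Ψ h c) - ⨅ c, Ψ 1 c, ?_, fun h n hn => ?_,
      fun k => ⟨|ell k| + |ell k⁻¹|, fun h => ?_⟩⟩
    · simpa [hF0 g ((hmem g).2 rfl)] using hχg
    · show (⨅ c, Ψ (h * n) c) - _ = _
      simp only
      rw [hFn h n ((hmem n).2 hn), hF0 n ((hmem n).2 hn)]
      ring
    · have hup : ∀ a b, (⨅ c, Ψ (a * b) c) ≤ ell a + ⨅ c, Ψ b c := by
        intro a b
        rw [add_ciInf (hbd b)]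
        refine le_ciInf fun c => (ciInf_le (hbd _) c).trans ?_
        have := hsub a (b * (c⁻¹ : C))
        simp only [Ψ, ← mul_assoc] at this ⊢
        linarith
      have h1 := hup k h
      have h2 := hup k⁻¹ (k * h)
      rw [inv_mul_cancel_left] at h2
      rw [sub_sub_sub_cancel_right, abs_le]
      have := le_abs_self (ell k)
      have := le_abs_self (ell k⁻¹)
      have := abs_nonneg (ell k)
      have := abs_nonneg (ell k⁻¹)
      constructor <;> linarith

end Vale.Agent.P184
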