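import Vale.Agent.P184.CoarseFlow

/-!
The general linear group of a proper normed field, with the left invariant pseudometric coming
from the operator norm, has bounded geometry and flows.
-/

namespace Vale.Agent.P184

open Matrix
open scoped Matrix.Norms.Operator

/-- An invertible matrix, as a point of a pseudometric space. -/
structure GLPt (N : ℕ) (F : Type) [NormedField F] where
  val : GL (Fin N) F

/-- Some element of norm above one has powers of norms approximating all norms to within ε. -/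
def HasScales (F : Type) [NormedField F] : Prop :=
  ∀ ε : ℝ, 0 < ε → ∃ c : F, 1 < ‖c‖ ∧
    ∀ a : F, a ≠ 0 → ∃ k : ℤ, |Real.log ‖a‖ - k * Real.log ‖c‖| ≤ ε

variable {N : ℕ} [NeZero N] {F : Type} [NormedField F]

lemma entry_le_norm (A : Matrix (Fin N) (Fin N) F) (i j : Fin N) : ‖A i j‖ ≤ ‖A‖ := by
  rw [← coe_nnnorm, ← coe_nnnorm, NNReal.coe_le_coe, linfty_opNNNorm_def]
  refine le_trans ?_ (Finset.le_sup (f := fun i => ∑ j, ‖A i j‖₊) (Finset.mem_univ i))
  exact Finset.single_le_sum (f := fun j => ‖A i j‖₊) (fun _ _ => zero_le) (Finset.mem_univ j)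

lemma norm_le_of_rows (A : Matrix (Fin N) (Fin N) F) {c : ℝ} (h : ∀ i, ∑ j, ‖A i j‖ ≤ c) :
    ‖A‖ ≤ c := by
  have hc : 0 ≤ c := (Finset.sum_nonneg fun _ _ => norm_nonneg _).trans (h 0)
  lift c to NNReal using hc
  rw [← coe_nnnorm, NNReal.coe_le_coe, linfty_opNNNorm_def]
  refine Finset.sup_le fun i _ => NNReal.coe_le_coe.1 ?_
  push_cast
  exact h i

/-- The logarithmic size of an invertible matrix. -/
noncomputable def glSize (g : GL (Fin N) F) : ℝ :=
  Real.log (max ‖(g : Matrix (Fin N) (Fin N) F)‖ ‖((g⁻¹ : GL (Fin N) F) : Matrix (Fin N) (Fin N) F)‖)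

lemma one_le_max_norm (g : GL (Fin N) F) :
    1 ≤ max ‖(g : Matrix (Fin N) (Fin N) F)‖
      ‖((g⁻¹ : GL (Fin N) F) : Matrix (Fin N) (Fin N) F)‖ := by
  by_contra! h
  rw [max_lt_iff] at h
  have h1 : ‖((g * g⁻¹ : GL (Fin N) F) : Matrix (Fin N) (Fin N) F)‖ < 1 := by
    rw [Units.val_mul]
    exact (norm_mul_le _ _).trans_lt (mul_lt_one_of_nonneg_of_lt_one_left (norm_nonneg _) h.1 h.2.le)
  rw [mul_inv_cancel, Units.val_one, norm_one] at h1
  exact lt_irrefl _ h1

lemma glSize_nonneg (g : GL (Fin N) F) : 0 ≤ glSize g := Real.log_nonneg (one_le_max_norm g)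

lemma glSize_one : glSize (1 : GL (Fin N) F) = 0 := by simp [glSize]

lemma glSize_inv (g : GL (Fin N) F) : glSize g⁻¹ = glSize g := by
  simp [glSize, max_comm]

lemma glSize_mul_le (g h : GL (Fin N) F) : glSize (g * h) ≤ glSize g + glSize h := by
  have h1 := one_le_max_norm g
  have h2 := one_le_max_norm h
  rw [glSize, glSize, glSize, ← Real.log_mul (by linarith) (by linarith)]
  refine Real.log_le_log (by linarith [one_le_max_norm (g * h)]) ?_
  rw [max_le_iff, _root_.mul_inv_rev, Units.val_mul, Units.val_mul]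
  constructor
  · exact (norm_mul_le _ _).trans (mul_le_mul (le_max_left _ _) (le_max_left _ _) (norm_nonneg _)
      (by linarith))
  · refine (norm_mul_le _ _).trans ?_
    rw [mul_comm]
    exact mul_le_mul (le_max_right _ _) (le_max_right _ _) (norm_nonneg _) (by linarith)

lemma norm_le_exp_glSize (g : GL (Fin N) F) :
    ‖(g : Matrix (Fin N) (Fin N) F)‖ ≤ Real.exp (glSize g) := by
  rw [glSize, Real.exp_log (by linarith [one_le_max_norm g])]
  exact le_max_left _ _

lemma glSize_le {g : GL (Fin N) F} {t : ℝ} (h1 : ‖(g : Matrix (Fin N) (Fin N) F)‖ ≤ Real.exp t)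
    (h2 : ‖((g⁻¹ : GL (Fin N) F) : Matrix (Fin N) (Fin N) F)‖ ≤ Real.exp t) : glSize g ≤ t := by
  rw [glSize, ← Real.log_exp t]
  exact Real.log_le_log (by linarith [one_le_max_norm g]) (max_le h1 h2)

noncomputable instance : PseudoMetricSpace (GLPt N F) where
  dist x y := glSize (x.val⁻¹ * y.val)
  dist_self x := by simp [glSize_one]
  dist_comm x y := by rw [← glSize_inv, _root_.mul_inv_rev, inv_inv]
  dist_triangle x y z := by
    rw [show x.val⁻¹ * z.val = (x.val⁻¹ * y.val) * (y.val⁻¹ * z.val) by group]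
    exact glSize_mul_le _ _

lemma glDist_def (x y : GLPt N F) : dist x y = glSize (x.val⁻¹ * y.val) := rfl

lemma glDist_left (g : GL (Fin N) F) (x y : GLPt N F) :
    dist (⟨g * x.val⟩ : GLPt N F) ⟨g * y.val⟩ = dist x y := by
  simp only [glDist_def, _root_.mul_inv_rev, mul_assoc, inv_mul_cancel_left]

theorem hasBddGeom_gl [ProperSpace F] : HasBddGeom (GLPt N F) := by
  classical
  intro R
  set E := Real.exp R with hE
  set δ := 1 / (8 * N * E) with hδ
  have hN : (0 : ℝ) < N := Nat.cast_pos.2 (Nat.pos_of_ne_zero (NeZero.ne N))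
  have hδ0 : 0 < δ := by positivity
  obtain ⟨T, -, hTfin, hT⟩ := finite_cover_balls_of_compact (isCompact_closedBall (0 : F) E) hδ0
  have : Fintype T := hTfin.fintype
  set Good : (Fin N × Fin N → T) → GLPt N F → Prop := fun code z =>
    dist (⟨1⟩ : GLPt N F) z ≤ R ∧
      ∀ p : Fin N × Fin N, ‖(z.val : Matrix (Fin N) (Fin N) F) p.1 p.2 - (code p : F)‖ < δ
  set net : Finset (GLPt N F) :=
    (Finset.univ.filter fun code => ∃ z, Good code z).attach.image
      fun code => (Finset.mem_filter.1 code.2).2.choose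
  refine ⟨Fintype.card (Fin N × Fin N → T), fun x => ⟨net.image fun z => ⟨x.val * z.val⟩, ?_,
    fun y hy => ?_⟩⟩
  · refine Finset.card_image_le.trans (Finset.card_image_le.trans ?_)
    rw [Finset.card_attach]
    exact (Finset.card_filter_le _ _).trans Finset.card_univ.le
  set g : GLPt N F := ⟨x.val⁻¹ * y.val⟩
  have hyg : (⟨x.val * g.val⟩ : GLPt N F) = y := by simp [g]
  have hg : dist (⟨1⟩ : GLPt N F) g ≤ R := by
    rw [← glDist_left x.val, mul_one, hyg]
    exact hy
  have hbd : ∀ z : GLPt N F, dist (⟨1⟩ : GLPt N F) z ≤ R →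
      ‖(z.val : Matrix (Fin N) (Fin N) F)‖ ≤ E ∧
      ‖((z.val⁻¹ : GL (Fin N) F) : Matrix (Fin N) (Fin N) F)‖ ≤ E := fun z hz => by
    rw [glDist_def, inv_one, one_mul] at hz
    exact ⟨(norm_le_exp_glSize _).trans (Real.exp_le_exp.2 hz),
      (norm_le_exp_glSize _).trans (Real.exp_le_exp.2 (by rwa [glSize_inv]))⟩
  have hcode : ∀ p : Fin N × Fin N, ∃ t : T,
      ‖(g.val : Matrix (Fin N) (Fin N) F) p.1 p.2 - (t : F)‖ < δ := fun p => by
    have := hT (mem_closedBall_zero_iff.2 ((entry_le_norm _ p.1 p.2).trans (hbd g hg).1))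
    simp only [Set.mem_iUnion, Metric.mem_ball, dist_eq_norm] at this
    obtain ⟨t, ht, ht'⟩ := this
    exact ⟨⟨t, ht⟩, ht'⟩
  choose code hcode using hcode
  have hmem : code ∈ Finset.univ.filter fun code => ∃ z, Good code z :=
    Finset.mem_filter.2 ⟨Finset.mem_univ _, g, hg, hcode⟩
  set z := (Finset.mem_filter.1 hmem).2.choose
  have hz : Good code z := (Finset.mem_filter.1 hmem).2.choose_spec
  refine ⟨⟨x.val * z.val⟩, Finset.mem_image.2 ⟨z, Finset.mem_image.2
    ⟨⟨code, hmem⟩, Finset.mem_attach _ _, rfl⟩, rfl⟩, ?_⟩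
  rw [← hyg, glDist_left, glDist_def]
  have hdiff : ∀ a b : GLPt N F, Good code a → Good code b →
      ‖(b.val : Matrix (Fin N) (Fin N) F) - a.val‖ ≤ N * (2 * δ) := fun a b ha hb => by
    refine norm_le_of_rows _ fun i => ?_
    refine (Finset.sum_le_sum (g := fun _ => 2 * δ) fun j _ => ?_).trans (by simp)
    have h1 := ha.2 (i, j)
    have h2 := hb.2 (i, j)
    simp only [Matrix.sub_apply]
    refine (norm_sub_le_norm_sub_add_norm_sub _ (code (i, j) : F) _).trans ?_
    rw [norm_sub_rev (code (i, j) : F)]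
    linarith
  have hone : ∀ a b : GLPt N F, Good code a → Good code b →
      ‖((a.val⁻¹ * b.val : GL (Fin N) F) : Matrix (Fin N) (Fin N) F)‖ ≤ Real.exp (1 / 4) := by
    intro a b ha hb
    have e : ((a.val⁻¹ * b.val : GL (Fin N) F) : Matrix (Fin N) (Fin N) F) =
        1 + ((a.val⁻¹ : GL (Fin N) F) : Matrix (Fin N) (Fin N) F) *
          ((b.val : Matrix (Fin N) (Fin N) F) - a.val) := by
      rw [Units.val_mul, mul_sub, Units.inv_mul, add_sub_cancel]
    rw [e]
    refine (norm_add_le _ _).trans ?_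
    rw [norm_one]
    refine le_trans (add_le_add le_rfl ((norm_mul_le _ _).trans
      (mul_le_mul (hbd a ha.1).2 (hdiff a b ha hb) (norm_nonneg _) (Real.exp_pos R).le))) ?_
    have e2 : E * ((N : ℝ) * (2 * δ)) = 1 / 4 := by
      rw [hδ]; field_simp [(Real.exp_pos R).ne', hE]; ring
    rw [e2, add_comm]
    exact Real.add_one_le_exp _
  refine glSize_le (hone z g hz ⟨hg, hcode⟩) ?_
  rw [_root_.mul_inv_rev, inv_inv]
  exact hone g z ⟨hg, hcode⟩ hz

omit [NeZero N] in
/-- Row operations by an upper triangular matrix bound the entries and normalise the determinant. -/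
theorem exists_pivot : ∀ (n : ℕ) (g : Matrix (Fin n) (Fin n) F), g.det ≠ 0 →
    ∃ b : Matrix (Fin n) (Fin n) F, b.IsUpperTriangular ∧ (∀ i j, ‖(b * g) i j‖ ≤ 1) ∧
      ‖(b * g).det‖ = 1 := by
  intro n
  induction n with
  | zero => exact fun g _ => ⟨1, blockTriangular_one, fun i => i.elim0, by simp⟩
  | succ n ih =>
    intro g hg
    obtain ⟨j0, hj0⟩ := Finite.exists_max fun j => ‖g (Fin.last n) j‖
    set r := g (Fin.last n) j0 with hr
    have hr0 : r ≠ 0 := fun h => hg (det_eq_zero_of_row_eq_zero (Fin.last n) fun j => by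
      have := hj0 j
      rw [h, norm_zero] at this
      exact norm_le_zero_iff.1 this)
    set b1 : Matrix (Fin (n + 1)) (Fin (n + 1)) F := Matrix.of fun i k =>
      if k = Fin.last n then (if i = Fin.last n then r⁻¹ else -(g i j0 / r))
      else if i = k then 1 else 0 with hb1
    have hb1t : b1.IsUpperTriangular := fun i k (hki : k < i) => by
      simp only [hb1, Matrix.of_apply, if_neg (ne_of_lt (hki.trans_le (Fin.le_last i))),
        if_neg hki.ne']
    set h := b1 * g with hh
    have hrow : ∀ (i : Fin n) j, h i.castSucc j =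
        g i.castSucc j - g i.castSucc j0 / r * g (Fin.last n) j := by
      intro i j
      simp only [hh, Matrix.mul_apply, hb1, Matrix.of_apply]
      rw [Fin.sum_univ_castSucc]
      simp only [if_neg (Fin.castSucc_lt_last _).ne, if_pos, Fin.castSucc_inj]
      simp [sub_eq_add_neg]
    have hlast : ∀ j, h (Fin.last n) j = g (Fin.last n) j / r := by
      intro j
      simp only [hh, Matrix.mul_apply, hb1, Matrix.of_apply]
      rw [Fin.sum_univ_castSucc]
      simp [(Fin.castSucc_lt_last _).ne, (Fin.castSucc_lt_last _).ne', div_eq_inv_mul]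
    have hexp : ∀ A : Matrix (Fin (n + 1)) (Fin (n + 1)) F, (∀ i : Fin n, A i.castSucc j0 = 0) →
        A (Fin.last n) j0 = 1 →
        ‖A.det‖ = ‖(A.submatrix Fin.castSucc j0.succAbove).det‖ := by
      intro A hA0 hA1
      rw [det_succ_column A j0, Fin.sum_univ_castSucc]
      simp [hA0, hA1, norm_mul, norm_pow]
    set g' := h.submatrix Fin.castSucc j0.succAbove with hg'
    have hh0 : ∀ i : Fin n, h i.castSucc j0 = 0 := fun i => by
      rw [hrow, ← hr, div_mul_cancel₀ _ hr0, sub_self]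
    have hh1 : h (Fin.last n) j0 = 1 := by rw [hlast, ← hr, div_self hr0]
    have hg'0 : g'.det ≠ 0 := by
      intro hz
      have h2 := hexp h hh0 hh1
      rw [← hg', hz, norm_zero, norm_eq_zero, hh, det_mul, det_of_isUpperTriangular hb1t,
        mul_eq_zero] at h2
      rcases h2 with h2 | h2
      · refine absurd h2 (Finset.prod_ne_zero_iff.2 fun i _ => ?_)
        simp only [hb1, Matrix.of_apply]
        split_ifs <;> simp_all
      · exact hg h2
    obtain ⟨b', hb't, hb'e, hb'd⟩ := ih g' hg'0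
    set b2 : Matrix (Fin (n + 1)) (Fin (n + 1)) F := Matrix.of fun i k =>
      Fin.lastCases (if k = Fin.last n then 1 else 0)
        (fun i' => Fin.lastCases 0 (fun k' => b' i' k') k) i with hb2
    have hb2t : b2.IsUpperTriangular := by
      intro i k (hki : k < i)
      induction i using Fin.lastCases with
      | last => simp [hb2, hki.ne]
      | cast i =>
        induction k using Fin.lastCases with
        | last => exact absurd hki (not_lt.2 (Fin.castSucc_lt_last i).le)
        | cast k =>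
          simp only [hb2, Matrix.of_apply, Fin.lastCases_castSucc]
          exact hb't (Fin.castSucc_lt_castSucc_iff.1 hki)
    refine ⟨b2 * b1, hb2t.mul hb1t, ?_⟩
    rw [Matrix.mul_assoc, ← hh]
    have hc : ∀ (i : Fin n) j, (b2 * h) i.castSucc j = ∑ k, b' i k * h k.castSucc j := by
      intro i j
      simp only [Matrix.mul_apply, hb2, Matrix.of_apply]
      rw [Fin.sum_univ_castSucc]
      simp
    have hl : ∀ j, (b2 * h) (Fin.last n) j = h (Fin.last n) j := by
      intro j
      simp only [Matrix.mul_apply, hb2, Matrix.of_apply]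
      rw [Fin.sum_univ_castSucc]
      simp [(Fin.castSucc_lt_last _).ne]
    have hsub : ∀ (i k : Fin n), (b2 * h) i.castSucc (j0.succAbove k) = (b' * g') i k := by
      intro i k
      rw [hc, Matrix.mul_apply]
      rfl
    have hz : ∀ i : Fin n, (b2 * h) i.castSucc j0 = 0 := fun i => by simp [hc, hh0]
    refine ⟨fun i j => ?_, ?_⟩
    · induction i using Fin.lastCases with
      | last =>
        rw [hl, hlast, norm_div, div_le_one (norm_pos_iff.2 hr0)]
        exact hj0 j
      | cast i =>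
        rcases eq_or_ne j j0 with rfl | hj
        · rw [hz, norm_zero]; exact zero_le_one
        · obtain ⟨k, rfl⟩ := Fin.exists_succAbove_eq hj
          rw [hsub]
          exact hb'e i k
    · rw [hexp _ hz ((hl j0).trans hh1), show (b2 * h).submatrix Fin.castSucc j0.succAbove =
        b' * g' from Matrix.ext hsub]
      exact hb'd

/-- An upper triangular matrix boundedly close to a given invertible matrix. -/
theorem exists_triangular_near :
    ∃ C : ℝ, ∀ g : GLPt N F, ∃ B : GL (Fin N) F,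
      (B : Matrix (Fin N) (Fin N) F).IsUpperTriangular ∧ dist g ⟨B⟩ ≤ C := by
  refine ⟨(N : ℝ) * Nat.factorial N, fun g => ?_⟩
  obtain ⟨b, hbt, hbe, hbd⟩ := exists_pivot N (g.val : Matrix (Fin N) (Fin N) F)
    (((isUnit_iff_isUnit_det _).1 g.val.isUnit).ne_zero)
  have hb0 : b.det ≠ 0 := fun h => by simp [det_mul, h] at hbd
  set bu : GL (Fin N) F := ((isUnit_iff_isUnit_det b).2 (isUnit_iff_ne_zero.2 hb0)).unit
  have hbu : (bu : Matrix (Fin N) (Fin N) F) = b := IsUnit.unit_spec _
  refine ⟨bu⁻¹, ?_, ?_⟩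
  · let := bu.invertible
    have := blockTriangular_inv_of_blockTriangular (M := (bu : Matrix (Fin N) (Fin N) F))
      (b := id) (hbu ▸ hbt)
    rwa [← coe_units_inv] at this
  rw [glDist_def, ← glSize_inv, _root_.mul_inv_rev, inv_inv, inv_inv]
  set k := bu * g.val
  have hkv : (k : Matrix (Fin N) (Fin N) F) = b * g.val := by rw [Units.val_mul, hbu]
  have hrows : ∀ A : Matrix (Fin N) (Fin N) F, (∀ i j, ‖A i j‖ ≤ (N.factorial : ℝ)) →
      ‖A‖ ≤ Real.exp ((N : ℝ) * N.factorial) := fun A hA => by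
    refine (norm_le_of_rows A fun i => ?_).trans
      ((le_add_of_nonneg_right zero_le_one).trans (Real.add_one_le_exp _))
    exact (Finset.sum_le_sum fun j _ => hA i j).trans (by simp)
  have h1 : (1 : ℝ) ≤ N.factorial := Nat.one_le_cast.2 N.factorial_pos
  have hdet : ∀ A : Matrix (Fin N) (Fin N) F, (∀ i j, ‖A i j‖ ≤ 1) → ‖A.det‖ ≤ N.factorial := by
    intro A hA
    rw [det_apply']
    refine (norm_sum_le_of_le _ (n := fun _ => (1 : ℝ)) fun σ _ => ?_).trans (by
      simp [Fintype.card_perm])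
    rw [norm_mul, norm_prod]
    refine mul_le_one₀ ?_ (Finset.prod_nonneg fun _ _ => norm_nonneg _)
      (Finset.prod_le_one (fun _ _ => norm_nonneg _) fun _ _ => hA _ _)
    rcases Int.units_eq_one_or (Equiv.Perm.sign σ) with h | h <;> simp [h]
  refine glSize_le (hrows _ fun i j => hkv ▸ (hbe i j).trans h1) (hrows _ fun i j => ?_)
  rw [coe_units_inv, inv_def, Ring.inverse_eq_inv', hkv, Matrix.smul_apply, smul_eq_mul, norm_mul,
    norm_inv, hbd, inv_one, one_mul, adjugate_apply]
  refine hdet _ fun a c => ?_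
  rw [updateRow_apply]
  split_ifs
  · rw [Pi.single_apply]; split_ifs <;> simp
  · exact hbe a c

theorem hasFlows_gl (hF : HasScales F) : HasFlows (GLPt N F) := by
  classical
  intro R ε hε
  obtain ⟨C, hC⟩ := exists_triangular_near (N := N) (F := F)
  choose B hBt hBd using hC
  obtain ⟨c, hc1, hc⟩ := hF (ε / 2) (by positivity)
  set η := Real.log ‖c‖
  have hη : 0 < η := Real.log_pos hc1
  have hc0 : c ≠ 0 := norm_pos_iff.1 (zero_lt_one.trans hc1)
  set R' := |R| + 2 * |C|
  set E := Real.exp R' with hE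
  obtain ⟨J, hJ⟩ := exists_nat_gt ((R' + ε / 2) / η)
  rw [div_lt_iff₀ hη] at hJ
  have hgap : 0 < Real.exp ε - Real.exp (ε / 2) := sub_pos.2 (Real.exp_lt_exp.2 (by linarith))
  obtain ⟨s, hs⟩ : ∃ s : ℕ, (N : ℝ) * E * Real.exp (-(η * s)) ≤ Real.exp ε - Real.exp (ε / 2) := by
    obtain ⟨s, hs⟩ := exists_nat_gt ((N : ℝ) * E / (Real.exp ε - Real.exp (ε / 2)) / η)
    refine ⟨s, ?_⟩
    rw [div_lt_iff₀ hη, div_lt_iff₀ hgap] at hs
    rw [Real.exp_neg, ← div_eq_mul_inv, div_le_iff₀ (Real.exp_pos _)]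
    nlinarith [Real.add_one_le_exp (η * s)]
  obtain ⟨L, hL⟩ := exists_nat_gt (2 * (N : ℝ) * J / ε)
  have hL0 : 0 < L := Nat.cast_pos.1 (lt_of_le_of_lt (by positivity : (0 : ℝ) ≤ _) hL)
  rw [div_lt_iff₀ hε] at hL
  have : NeZero L := ⟨hL0.ne'⟩
  set W : ℤ := (s : ℤ) + 2 * L + 2 * J with hW
  set v : (Fin N → Fin L) → Fin N → ℤ := fun t i => ((N : ℤ) - (i : ℕ)) * W + (t i : ℕ)
  let dg : (Fin N → ℤ) → GL (Fin N) F := fun w =>
    ⟨diagonal fun i => c ^ w i, diagonal fun i => c ^ (-(w i)),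
      by rw [diagonal_mul_diagonal, ← diagonal_one]; congr 1; ext i; simp [zpow_ne_zero _ hc0],
      by rw [diagonal_mul_diagonal, ← diagonal_one]; congr 1; ext i; simp [zpow_ne_zero _ hc0]⟩
  refine ⟨C + ∑ t, glSize (dg (v t)), Fin N → Fin L, inferInstance,
    fun t g => ⟨B g * dg (v t)⟩, inferInstance, fun g t => ?_, fun x y hxy => ?_⟩
  · refine (dist_triangle g ⟨B g⟩ _).trans (add_le_add (hBd g) ?_)
    rw [glDist_def, inv_mul_cancel_left]
    exact Finset.single_le_sum (f := fun t => glSize (dg (v t))) (fun t _ => glSize_nonneg _)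
      (Finset.mem_univ t)
  set u := (B x)⁻¹ * B y with hu
  have hut : ∀ g h, (((B g)⁻¹ * B h : GL (Fin N) F) :
      Matrix (Fin N) (Fin N) F).IsUpperTriangular := fun g h => by
    rw [Units.val_mul]
    refine BlockTriangular.mul ?_ (hBt h)
    let := (B g).invertible
    rw [coe_units_inv]
    exact blockTriangular_inv_of_blockTriangular (hBt g)
  have huE : ∀ g h, dist g h ≤ |R| →
      ‖(((B g)⁻¹ * B h : GL (Fin N) F) : Matrix (Fin N) (Fin N) F)‖ ≤ E := fun g h hgh => by
    refine (norm_le_exp_glSize _).trans (Real.exp_le_exp.2 ?_)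
    have h4 := dist_triangle4 (⟨B g⟩ : GLPt N F) g h ⟨B h⟩
    rw [dist_comm _ g] at h4
    have := hBd g
    have := hBd h
    have := le_abs_self C
    change dist (⟨B g⟩ : GLPt N F) ⟨B h⟩ ≤ _
    simp only [R']
    linarith
  set d : Fin N → F := fun i => (u : Matrix (Fin N) (Fin N) F) i i with hd
  set d' : Fin N → F := fun i => ((u⁻¹ : GL (Fin N) F) : Matrix (Fin N) (Fin N) F) i i with hd'
  have hu' : u⁻¹ = (B y)⁻¹ * B x := by rw [hu, _root_.mul_inv_rev, inv_inv]
  have hut' : ((u⁻¹ : GL (Fin N) F) : Matrix (Fin N) (Fin N) F).IsUpperTriangular :=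
    hu' ▸ hut y x
  have huE0 : ‖(u : Matrix (Fin N) (Fin N) F)‖ ≤ E := huE x y (hxy.trans (le_abs_self R))
  have huE' : ‖((u⁻¹ : GL (Fin N) F) : Matrix (Fin N) (Fin N) F)‖ ≤ E :=
    hu' ▸ huE y x (by rw [dist_comm]; exact hxy.trans (le_abs_self R))
  have hdd : ∀ i, d i * d' i = 1 := fun i => by
    have h := congrFun (congrFun (Units.mul_inv u) i) i
    rw [Matrix.mul_apply, one_apply_eq, Finset.sum_eq_single i] at h
    · exact h
    · intro j _ hji
      rcases lt_or_gt_of_ne hji with h' | h'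
      · rw [hut x y h', zero_mul]
      · rw [hut' h', mul_zero]
    · simp
  have hd0 : ∀ i, d i ≠ 0 := fun i h => by simpa [h] using hdd i
  have hd0' : ∀ i, d' i ≠ 0 := fun i h => by simpa [h] using hdd i
  choose k hk using fun i => hc (d i) (hd0 i)
  have hlog : ∀ i, Real.log ‖d' i‖ = -Real.log ‖d i‖ := fun i => by
    rw [eq_inv_of_mul_eq_one_right (hdd i), norm_inv, Real.log_inv]
  have hkJ : ∀ i, |k i| ≤ (J : ℤ) := fun i => by
    have h1 : |Real.log ‖d i‖| ≤ R' := by
      have a1 : Real.log ‖d i‖ ≤ R' := (Real.log_le_iff_le_exp (norm_pos_iff.2 (hd0 i))).2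
        ((entry_le_norm _ i i).trans huE0)
      have a2 : Real.log ‖d' i‖ ≤ R' := (Real.log_le_iff_le_exp (norm_pos_iff.2 (hd0' i))).2
        ((entry_le_norm _ i i).trans huE')
      rw [hlog] at a2
      rw [abs_le]; constructor <;> linarith
    have h2 : |(k i : ℝ)| * η ≤ R' + ε / 2 := by
      rw [show |(k i : ℝ)| * η = |(k i : ℝ) * η| by rw [abs_mul, abs_of_pos hη]]
      have := abs_sub_abs_le_abs_sub ((k i : ℝ) * η) (Real.log ‖d i‖)
      rw [abs_sub_comm] at this
      linarith [hk i]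
    have h3 : |(k i : ℝ)| ≤ (J : ℝ) := le_of_mul_le_mul_right (h2.trans hJ.le) hη
    exact_mod_cast h3
  let sh : Fin N → Fin L := fun i => ⟨((-k i) % (L : ℤ)).toNat, by
    have := Int.emod_nonneg (-k i) (Int.natCast_ne_zero.2 hL0.ne')
    have := Int.emod_lt_of_pos (-k i) (Int.natCast_pos.2 hL0)
    omega⟩
  refine ⟨Equiv.piCongrRight fun i => Equiv.addRight (sh i), ?_⟩
  set Bv : Finset (Fin L) := Finset.univ.filter fun a => (a : ℕ) < J ∨ L ≤ (a : ℕ) + J
  have hBv : Bv.card ≤ 2 * J := by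
    refine (Finset.card_le_card_of_injOn (fun a : Fin L => (a : ℕ))
      (t := Finset.range J ∪ Finset.Ico (L - J) L) (fun a ha => ?_)
      Fin.val_injective.injOn).trans ((Finset.card_union_le _ _).trans ?_)
    · simp only [Bv, Finset.coe_filter, Finset.mem_univ, true_and, Set.mem_ofPred_eq] at ha
      simp only [Finset.coe_union, Finset.coe_range, Finset.coe_Ico, Set.mem_union, Set.mem_Iio,
        Set.mem_Ico]
      omega
    · rw [Finset.card_range, Nat.card_Ico]; omega
  set Bad : Fin N → Finset (Fin N → Fin L) := fun i => Finset.univ.filter fun t => t i ∈ Bv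
  have hBad : ∀ i, (Bad i).card * L ≤ 2 * J * Fintype.card (Fin N → Fin L) := fun i => by
    set e := Equiv.funSplitAt i (Fin L)
    have : Bad i = (Bv ×ˢ (Finset.univ : Finset ({j // j ≠ i} → Fin L))).map
        e.symm.toEmbedding := by
      ext t
      simp [Bad, Finset.mem_map_equiv, e]
    rw [this, Finset.card_map, Finset.card_product, Finset.card_univ, Fintype.card_congr e,
      Fintype.card_prod, Fintype.card_fin]
    calc Bv.card * Fintype.card ({j // j ≠ i} → Fin L) * L
        ≤ 2 * J * Fintype.card ({j // j ≠ i} → Fin L) * L :=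
          Nat.mul_le_mul_right _ (Nat.mul_le_mul_right _ hBv)
      _ = _ := by ring
  have hcount : ((Finset.univ.biUnion Bad).card : ℝ) ≤ ε * Fintype.card (Fin N → Fin L) := by
    have h1 : ((Finset.univ.biUnion Bad).card : ℝ) * L ≤
        (N : ℝ) * (2 * J) * Fintype.card (Fin N → Fin L) := by
      calc ((Finset.univ.biUnion Bad).card : ℝ) * L ≤ (∑ i, ((Bad i).card : ℝ)) * L := by
            gcongr
            exact_mod_cast Finset.card_biUnion_le
        _ ≤ ∑ _i : Fin N, (2 * J : ℝ) * Fintype.card (Fin N → Fin L) := by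
            rw [Finset.sum_mul]
            exact Finset.sum_le_sum fun i _ => by exact_mod_cast hBad i
        _ = _ := by simp; ring
    refine le_of_mul_le_mul_right (h1.trans ?_) (Nat.cast_pos.2 hL0)
    rw [mul_right_comm ε]
    exact mul_le_mul_of_nonneg_right (by linarith) (Nat.cast_nonneg _)
  refine le_trans (Nat.cast_le.2 (Finset.card_le_card fun t ht => ?_)) hcount
  simp only [Finset.mem_filter, Finset.mem_univ, true_and] at ht
  by_contra hgood
  simp only [Bad, Bv, Finset.mem_biUnion, Finset.mem_filter, Finset.mem_univ, true_and,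
    not_exists, not_or, not_lt, not_le] at hgood
  refine absurd ht (not_lt.2 ?_)
  set t' := (Equiv.piCongrRight fun i => Equiv.addRight (sh i)) t
  have ht' : ∀ i, ((t' i : ℕ) : ℤ) = (t i : ℕ) - k i := by
    intro i
    have := hgood i
    have := abs_le.1 (hkJ i)
    have h1 : t' i = t i + sh i := rfl
    rw [h1, Fin.val_add]
    push_cast
    have h2 : (((sh i : Fin L) : ℕ) : ℤ) = (-k i) % (L : ℤ) :=
      Int.toNat_of_nonneg (Int.emod_nonneg _ (Int.natCast_ne_zero.2 hL0.ne'))
    rw [h2, Int.add_emod_emod, ← sub_eq_add_neg]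
    exact Int.emod_eq_of_lt (by omega) (by omega)
  have hv' : ∀ i, v t' i = v t i - k i := fun i => by simp only [v, ht']; ring
  have hpair : ∀ i j : Fin N, i < j → ∀ a b : Fin L,
      (s : ℤ) ≤ (((N : ℤ) - (i : ℕ)) * W + (a : ℕ)) - (((N : ℤ) - (j : ℕ)) * W + (b : ℕ)) := by
    intro i j hij a b
    have : ((i : ℕ) : ℤ) + 1 ≤ (j : ℕ) := by exact_mod_cast hij
    have hW0 : (0 : ℤ) ≤ W := by simp only [W]; positivity
    have := mul_le_mul_of_nonneg_right (show (1 : ℤ) ≤ (j : ℕ) - (i : ℕ) by omega) hW0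
    have := a.2
    have := b.2
    simp only [W] at *
    nlinarith
  have hnorm : ∀ (M : GL (Fin N) F) (w w' : Fin N → ℤ),
      (M : Matrix (Fin N) (Fin N) F).IsUpperTriangular → ‖(M : Matrix (Fin N) (Fin N) F)‖ ≤ E →
      (∀ i j, i < j → (s : ℤ) ≤ w i - w' j) →
      (∀ i, Real.log ‖(M : Matrix (Fin N) (Fin N) F) i i‖ + ((w' i - w i : ℤ) : ℝ) * η ≤ ε / 2) →
      (∀ i, (M : Matrix (Fin N) (Fin N) F) i i ≠ 0) →
      ‖(((dg w)⁻¹ * M * dg w' : GL (Fin N) F) : Matrix (Fin N) (Fin N) F)‖ ≤ Real.exp ε := by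
    intro M w w' hMt hME hoff hdiag hne
    refine norm_le_of_rows _ fun i => ?_
    have hent : ∀ j, (((dg w)⁻¹ * M * dg w' : GL (Fin N) F) : Matrix (Fin N) (Fin N) F) i j =
        c ^ (-(w i)) * (M : Matrix (Fin N) (Fin N) F) i j * c ^ w' j := fun j => by
      change (diagonal (fun i => c ^ (-(w i))) * (M : Matrix (Fin N) (Fin N) F) *
        diagonal (fun i => c ^ w' i)) i j = _
      rw [mul_diagonal, diagonal_mul]
    have hnc : ∀ z : ℤ, ‖c ^ z‖ = Real.exp (η * z) := fun z => by
      rw [norm_zpow, Real.exp_mul, Real.exp_log (norm_pos_iff.2 hc0), Real.rpow_intCast]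
    rw [← Finset.add_sum_erase _ _ (Finset.mem_univ i)]
    have h1 : ‖(((dg w)⁻¹ * M * dg w' : GL (Fin N) F) : Matrix (Fin N) (Fin N) F) i i‖ ≤
        Real.exp (ε / 2) := by
      rw [hent, norm_mul, norm_mul, hnc, hnc,
        ← Real.exp_log (norm_pos_iff.2 (hne i)), ← Real.exp_add, ← Real.exp_add]
      refine Real.exp_le_exp.2 (le_trans (le_of_eq ?_) (hdiag i))
      push_cast; ring
    have h2 : ∑ j ∈ Finset.univ.erase i,
        ‖(((dg w)⁻¹ * M * dg w' : GL (Fin N) F) : Matrix (Fin N) (Fin N) F) i j‖ ≤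
          (N : ℝ) * E * Real.exp (-(η * s)) := by
      refine (Finset.sum_le_sum (g := fun _ => E * Real.exp (-(η * s))) fun j hj => ?_).trans ?_
      · rcases lt_or_gt_of_ne (Finset.ne_of_mem_erase hj) with h | h
        · rw [hent, hMt h]
          simp only [mul_zero, zero_mul, norm_zero]
          positivity
        · rw [hent, mul_right_comm, norm_mul, norm_mul, hnc, hnc, ← Real.exp_add, mul_comm]
          refine mul_le_mul ((entry_le_norm _ i j).trans hME) (Real.exp_le_exp.2 ?_)
            (Real.exp_pos _).le (Real.exp_pos _).le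
          have : ((s : ℤ) : ℝ) ≤ ((w i - w' j : ℤ) : ℝ) := Int.cast_le.2 (hoff i j h)
          push_cast at this ⊢
          nlinarith
      · rw [Finset.sum_const, nsmul_eq_mul, mul_assoc]
        refine mul_le_mul_of_nonneg_right ?_ (by positivity)
        exact_mod_cast (Finset.card_le_univ _).trans (Fintype.card_fin N).le
    linarith
  rw [glDist_def]
  have e1 : (B x * dg (v t))⁻¹ * (B y * dg (v t')) = (dg (v t))⁻¹ * u * dg (v t') := by
    rw [hu]; group
  rw [e1]
  refine glSize_le (hnorm u _ _ (hut x y) huE0 (fun i j hij => hpair i j hij _ _) (fun i => ?_) hd0) ?_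
  · have := (abs_le.1 (hk i)).2
    rw [hv']; push_cast
    simp only [hd] at this
    linarith
  · rw [show ((dg (v t))⁻¹ * u * dg (v t'))⁻¹ = (dg (v t'))⁻¹ * u⁻¹ * dg (v t) by group]
    refine hnorm _ _ _ hut' huE' (fun i j hij => hpair i j hij _ _) (fun i => ?_) hd0'
    have := (abs_le.1 (hk i)).1
    have h2 := hlog i
    simp only [hd'] at h2
    rw [h2, hv']; push_cast
    simp only [hd] at this ⊢
    linarith

theorem hasScales_real : HasScales ℝ := by
  intro ε hε
  refine ⟨Real.exp ε, by rw [Real.norm_of_nonneg (Real.exp_pos _).le]; exact Real.one_lt_exp_iff.2 hε,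
    fun a _ => ⟨round (Real.log ‖a‖ / ε), ?_⟩⟩
  rw [Real.norm_of_nonneg (Real.exp_pos _).le, Real.log_exp]
  have h := abs_sub_round (Real.log ‖a‖ / ε)
  rw [show Real.log ‖a‖ - (round (Real.log ‖a‖ / ε) : ℤ) * ε =
    (Real.log ‖a‖ / ε - (round (Real.log ‖a‖ / ε) : ℤ)) * ε by field_simp, abs_mul, abs_of_pos hε]
  nlinarith

theorem hasScales_padic (p : ℕ) [Fact p.Prime] : HasScales ℚ_[p] := by
  intro ε hε
  have hp : (1 : ℝ) < p := Nat.one_lt_cast.2 (Fact.out : p.Prime).one_lt
  have hn : ‖((p : ℚ_[p]))⁻¹‖ = p := by rw [norm_inv, Padic.norm_p, inv_inv]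
  refine ⟨(p : ℚ_[p])⁻¹, by rw [hn]; exact hp, fun a ha => ⟨-a.valuation, ?_⟩⟩
  rw [hn, Padic.norm_eq_zpow_neg_valuation ha, Real.log_zpow, sub_self, abs_zero]
  exact hε.le

end Vale.Agent.P184
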