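import Mathlib

/-!
A seminormed ring with a bounded cyclic trace: two nearby almost-idempotent sequences have
asymptotically equal traces.
-/

namespace Vale.Agent.P184

open Filter Topology

/-- A submultiplicative size function on a ring and a bounded cyclic additive functional. -/
structure TracedRing (B : Type*) [Ring B] where
  N : B → ℝ
  T : B →+ ℂ
  c : ℝ
  nonneg : ∀ x, 0 ≤ N x
  zero' : N 0 = 0
  neg' : ∀ x, N (-x) = N x
  add_le : ∀ x y, N (x + y) ≤ N x + N y
  mul_le : ∀ x y, N (x * y) ≤ N x * N y
  cyc : ∀ x y, T (x * y) = T (y * x)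
  c_nonneg : 0 ≤ c
  bound : ∀ x, ‖T x‖ ≤ c * N x

namespace TracedRing

variable {B : Type*} [Ring B] (S : TracedRing B) {ι : Type*} (l : Filter ι)

lemma sub_le (x y : B) : S.N (x - y) ≤ S.N x + S.N y := by
  rw [sub_eq_add_neg]; exact (S.add_le _ _).trans (by rw [S.neg'])

lemma sum_le {κ : Type*} (s : Finset κ) (f : κ → B) : S.N (∑ i ∈ s, f i) ≤ ∑ i ∈ s, S.N (f i) := by
  classical
  induction s using Finset.induction_on with
  | empty => simp [S.zero']
  | insert a s ha ih =>
    rw [Finset.sum_insert ha, Finset.sum_insert ha]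
    exact (S.add_le _ _).trans (by linarith)

/-- Sequences tending to zero in size. -/
def Null (x : ι → B) : Prop := Tendsto (fun n => S.N (x n)) l (𝓝 0)

/-- Bounded sequences. -/
def Bdd (x : ι → B) : Prop := ∃ M, ∀ᶠ n in l, S.N (x n) ≤ M

variable {S l}

lemma null_of_le {x : ι → B} {f : ι → ℝ} (h : ∀ᶠ n in l, S.N (x n) ≤ f n)
    (hf : Tendsto f l (𝓝 0)) : S.Null l x :=
  tendsto_of_tendsto_of_tendsto_of_le_of_le' tendsto_const_nhds hf
    (Eventually.of_forall fun _ => S.nonneg _) h

lemma Null.zero : S.Null l (fun _ => (0 : B)) := by simpa [Null, S.zero'] using tendsto_const_nhds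

lemma Null.add {x y : ι → B} (hx : S.Null l x) (hy : S.Null l y) :
    S.Null l (fun n => x n + y n) :=
  null_of_le (Eventually.of_forall fun _ => S.add_le _ _) (by simpa using Tendsto.add hx hy)

lemma Null.neg {x : ι → B} (hx : S.Null l x) : S.Null l (fun n => - x n) := by
  simpa [Null, S.neg'] using hx

lemma Null.sub {x y : ι → B} (hx : S.Null l x) (hy : S.Null l y) :
    S.Null l (fun n => x n - y n) := by
  simp only [sub_eq_add_neg]; exact hx.add hy.neg

lemma Null.mul_right {x y : ι → B} (hx : S.Null l x) (hy : S.Bdd l y) :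
    S.Null l (fun n => x n * y n) := by
  obtain ⟨M, hM⟩ := hy
  refine null_of_le ?_ (by simpa using Tendsto.mul_const M hx)
  filter_upwards [hM] with n hn
  exact (S.mul_le _ _).trans (mul_le_mul_of_nonneg_left hn (S.nonneg _))

lemma Null.mul_left {x y : ι → B} (hx : S.Null l x) (hy : S.Bdd l y) :
    S.Null l (fun n => y n * x n) := by
  obtain ⟨M, hM⟩ := hy
  refine null_of_le ?_ (by simpa using Tendsto.const_mul M hx)
  filter_upwards [hM] with n hn
  exact (S.mul_le _ _).trans (mul_le_mul_of_nonneg_right hn (S.nonneg _))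

lemma Null.trace {x : ι → B} (hx : S.Null l x) : Tendsto (fun n => S.T (x n)) l (𝓝 0) :=
  squeeze_zero_norm (fun n => S.bound _) (by simpa using Tendsto.const_mul S.c hx)

lemma Bdd.add {x y : ι → B} (hx : S.Bdd l x) (hy : S.Bdd l y) :
    S.Bdd l (fun n => x n + y n) := by
  obtain ⟨M, hM⟩ := hx
  obtain ⟨M', hM'⟩ := hy
  exact ⟨M + M', by filter_upwards [hM, hM'] with n h h'; exact (S.add_le _ _).trans (by linarith)⟩

lemma Bdd.sub {x y : ι → B} (hx : S.Bdd l x) (hy : S.Bdd l y) :
    S.Bdd l (fun n => x n - y n) := by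
  obtain ⟨M, hM⟩ := hx
  obtain ⟨M', hM'⟩ := hy
  exact ⟨M + M', by filter_upwards [hM, hM'] with n h h'; exact (S.sub_le _ _).trans (by linarith)⟩

lemma Bdd.mul {x y : ι → B} (hx : S.Bdd l x) (hy : S.Bdd l y) :
    S.Bdd l (fun n => x n * y n) := by
  obtain ⟨M, hM⟩ := hx
  obtain ⟨M', hM'⟩ := hy
  refine ⟨M * M', ?_⟩
  filter_upwards [hM, hM'] with n h h'
  exact (S.mul_le _ _).trans (mul_le_mul h h' (S.nonneg _) (le_trans (S.nonneg _) h))

lemma Bdd.pow {x : ι → B} (hx : S.Bdd l x) (j : ℕ) : S.Bdd l (fun n => x n ^ j) := by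
  induction j with
  | zero => exact ⟨S.N 1, by simp⟩
  | succ j ih => simpa [pow_succ] using ih.mul hx

/-- Nearby almost idempotent sequences have asymptotically equal traces. -/
theorem trace_limit {P Q : ι → B} (hP : S.Bdd l P) (hQ : S.Bdd l Q)
    (hp : S.Null l (fun n => P n * P n - P n)) (hq : S.Null l (fun n => Q n * Q n - Q n))
    {θ : ℝ} (hθ : θ < 1) (hθ0 : 0 ≤ θ) (hD : ∀ᶠ n in l, S.N (P n - Q n) ≤ θ) :
    Tendsto (fun n => S.T (P n - Q n)) l (𝓝 0) := by
  set D : ι → B := fun n => P n - Q n with hDdef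
  set p : ι → B := fun n => P n * P n - P n with hpdef
  set q : ι → B := fun n => Q n * Q n - Q n with hqdef
  have hDb : S.Bdd l D := hP.sub hQ
  have hcP : ∀ j : ℕ, S.Null l (fun n => P n * (D n * D n) ^ j - (D n * D n) ^ j * P n) := by
    intro j
    induction j with
    | zero => simpa using (Null.zero : S.Null l _)
    | succ j ih =>
      have h1 : S.Null l (fun n => P n * (D n * D n) - (D n * D n) * P n) := by
        have : S.Null l (fun n => Q n * p n - p n * Q n + (P n * (p n + q n) - (p n + q n) * P n)) :=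
          ((hp.mul_left hQ).sub (hp.mul_right hQ)).add
            (((hp.add hq).mul_left hP).sub ((hp.add hq).mul_right hP))
        convert this using 2 with n
        simp only [hDdef, hpdef, hqdef]
        noncomm_ring
      have h2 := (ih.mul_right (hDb.mul hDb)).add (h1.mul_left ((hDb.mul hDb).pow j))
      convert h2 using 2 with n
      rw [pow_succ]
      noncomm_ring
  have hcQ : ∀ j : ℕ, S.Null l (fun n => Q n * (D n * D n) ^ j - (D n * D n) ^ j * Q n) := by
    intro j
    induction j with
    | zero => simpa using (Null.zero : S.Null l _)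
    | succ j ih =>
      have h1 : S.Null l (fun n => Q n * (D n * D n) - (D n * D n) * Q n) := by
        have : S.Null l (fun n => P n * q n - q n * P n + (Q n * (p n + q n) - (p n + q n) * Q n)) :=
          ((hq.mul_left hP).sub (hq.mul_right hP)).add
            (((hp.add hq).mul_left hQ).sub ((hp.add hq).mul_right hQ))
        convert this using 2 with n
        simp only [hDdef, hpdef, hqdef]
        noncomm_ring
      have h2 := (ih.mul_right (hDb.mul hDb)).add (h1.mul_left ((hDb.mul hDb).pow j))
      convert h2 using 2 with n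
      rw [pow_succ]
      noncomm_ring
  have hstep : ∀ j : ℕ, Tendsto
      (fun n => S.T (D n * (D n * D n) ^ j) - S.T (D n * (D n * D n) ^ (j + 1))) l (𝓝 0) := by
    intro j
    set X : ι → B := fun n => (D n * D n) ^ j with hXdef
    have hXb : S.Bdd l X := (hDb.mul hDb).pow j
    set err : ι → B := fun n => D n * (D n * D n) - (D n - P n * Q n * P n + Q n * P n * Q n)
      with herr
    have herrN : S.Null l err := by
      have : S.Null l (fun n => p n - p n * Q n - q n + q n * P n + D n * (p n + q n)) :=
        (((hp.sub (hp.mul_right hQ)).sub hq).add (hq.mul_right hP)).add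
          ((hp.add hq).mul_left hDb)
      convert this using 2 with n
      simp only [herr, hDdef, hpdef, hqdef]
      noncomm_ring
    have hA : Tendsto (fun n => S.T (P n * Q n * P n * X n) - S.T (P n * Q n * X n)) l (𝓝 0) := by
      have h := (((hcP j).mul_left (hP.mul hQ)).add ((hp.mul_right (hQ.mul hXb)))).trace
      convert h using 2 with n
      have e1 : S.T (P n * Q n * X n * P n) = S.T (P n * P n * Q n * X n) := by
        rw [S.cyc (P n * Q n * X n) (P n)]; simp only [mul_assoc]
      have e2 : P n * Q n * (P n * (D n * D n) ^ j - (D n * D n) ^ j * P n) + p n * (Q n * X n) =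
          P n * Q n * P n * X n - P n * Q n * X n * P n + (P n * P n * Q n * X n - P n * Q n * X n) := by
        simp only [hpdef, hXdef]; noncomm_ring
      rw [e2, map_add, map_sub, map_sub, e1]
      ring
    have hB : Tendsto (fun n => S.T (Q n * P n * Q n * X n) - S.T (P n * Q n * X n)) l (𝓝 0) := by
      have h := ((((hcQ j).mul_left (hQ.mul hP)).add ((hq.mul_right (hP.mul hXb)))).add
        ((hcQ j).neg.mul_left hP)).trace
      convert h using 2 with n
      have e1 : S.T (Q n * P n * X n * Q n) = S.T (Q n * Q n * P n * X n) := by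
        rw [S.cyc (Q n * P n * X n) (Q n)]; simp only [mul_assoc]
      have e3 : S.T (Q n * P n * X n) = S.T (P n * X n * Q n) := by
        rw [S.cyc (P n * X n) (Q n)]; simp only [mul_assoc]
      have e2 : Q n * P n * (Q n * (D n * D n) ^ j - (D n * D n) ^ j * Q n) + q n * (P n * X n) +
          P n * -(Q n * (D n * D n) ^ j - (D n * D n) ^ j * Q n) =
          (Q n * P n * Q n * X n - Q n * P n * X n * Q n) +
          (Q n * Q n * P n * X n - Q n * P n * X n) + (P n * X n * Q n - P n * Q n * X n) := by
        simp only [hqdef, hXdef]; noncomm_ring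
      rw [e2, map_add, map_add, map_sub, map_sub, map_sub, e1, e3]
      ring
    have h := (hA.sub hB).sub (herrN.mul_right hXb).trace
    rw [sub_zero, sub_zero] at h
    convert h using 2 with n
    have : D n * (D n * D n) ^ (j + 1) =
        D n * X n - P n * Q n * P n * X n + Q n * P n * Q n * X n + err n * X n := by
      simp only [herr, hXdef, pow_succ']; noncomm_ring
    rw [this, map_add, map_add, map_sub]
    ring
  have hall : ∀ j : ℕ, Tendsto (fun n => S.T (D n) - S.T (D n * (D n * D n) ^ j)) l (𝓝 0) := by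
    intro j
    induction j with
    | zero => simpa using tendsto_const_nhds
    | succ j ih => simpa using ih.add (hstep j)
  rw [Metric.tendsto_nhds]
  intro ε hε
  obtain ⟨j, hj⟩ : ∃ j : ℕ, S.c * θ ^ (2 * j + 1) < ε / 2 := by
    have ht : Tendsto (fun j : ℕ => S.c * θ ^ (2 * j + 1)) atTop (𝓝 (S.c * 0)) := by
      refine Tendsto.const_mul _ ((tendsto_pow_atTop_nhds_zero_of_lt_one hθ0 hθ).comp ?_)
      exact tendsto_atTop_mono (fun j => by simp only [id_eq]; omega) tendsto_id
    rw [mul_zero] at ht
    exact (ht.eventually_lt_const (half_pos hε)).exists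
  filter_upwards [(Metric.tendsto_nhds.1 (hall j)) (ε / 2) (half_pos hε), hD] with n hn hnD
  rw [dist_zero_right] at hn ⊢
  have hpow : ∀ i : ℕ, S.N (D n * (D n * D n) ^ i) ≤ θ ^ (2 * i + 1) := by
    intro i
    induction i with
    | zero => simpa using hnD
    | succ i ih =>
      rw [pow_succ, ← mul_assoc]
      refine (S.mul_le _ _).trans ?_
      have h2 : S.N (D n * D n) ≤ θ * θ :=
        (S.mul_le _ _).trans (mul_le_mul hnD hnD (S.nonneg _) hθ0)
      refine (mul_le_mul ih h2 (S.nonneg _) (by positivity)).trans (le_of_eq ?_)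
      ring
  calc ‖S.T (P n - Q n)‖ = ‖(S.T (D n) - S.T (D n * (D n * D n) ^ j)) + S.T (D n * (D n * D n) ^ j)‖ := by
        simp [hDdef]
    _ ≤ ‖S.T (D n) - S.T (D n * (D n * D n) ^ j)‖ + ‖S.T (D n * (D n * D n) ^ j)‖ := norm_add_le _ _
    _ < ε := by
        have := (S.bound (D n * (D n * D n) ^ j)).trans
          (mul_le_mul_of_nonneg_left (hpow j) S.c_nonneg)
        linarith

end TracedRing

end Vale.Agent.P184
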