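import Vale.Agent.P184.Defs
import Vale.Agent.P184.TraceLimit

/-!
The ℓ¹ size and class traces on the complex group ring, finite approximations of an idempotent
matrix over ℓ¹(G), and their transport into a finitely generated subgroup.
-/

namespace Vale.Agent.P184

open Filter Topology MonoidAlgebra

section Sums

variable {ι : Type*} {R : Type*} [AddCommMonoid R]

lemma size_sum_le (N : R → ℝ) (h0 : N 0 = 0) (ha : ∀ x y, N (x + y) ≤ N x + N y)
    (s : Finset ι) (f : ι → R) : N (∑ i ∈ s, f i) ≤ ∑ i ∈ s, N (f i) := by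
  classical
  induction s using Finset.induction_on with
  | empty => simp [h0]
  | insert a s ha' ih =>
    rw [Finset.sum_insert ha', Finset.sum_insert ha']
    exact (ha _ _).trans (by linarith)

end Sums

/-- Passing from the entries of a matrix ring to the matrix ring. -/
noncomputable def TracedRing.matrix {R : Type*} [Ring R] (S : TracedRing R) (q : ℕ) :
    TracedRing (Matrix (Fin q) (Fin q) R) where
  N A := ∑ i, ∑ j, S.N (A i j)
  T := AddMonoidHom.mk' (fun A => ∑ i, S.T (A i i)) (fun A A' => by
    simp [Matrix.add_apply, Finset.sum_add_distrib])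
  c := S.c
  nonneg A := Finset.sum_nonneg fun i _ => Finset.sum_nonneg fun j _ => S.nonneg _
  zero' := by simp [S.zero']
  neg' A := by simp [S.neg']
  add_le A A' := by
    rw [← Finset.sum_add_distrib]
    refine Finset.sum_le_sum fun i _ => ?_
    rw [← Finset.sum_add_distrib]
    exact Finset.sum_le_sum fun j _ => S.add_le _ _
  mul_le A A' := by
    calc ∑ i, ∑ k, S.N ((A * A') i k) ≤ ∑ i, ∑ k, ∑ j, S.N (A i j) * S.N (A' j k) := by
          refine Finset.sum_le_sum fun i _ => Finset.sum_le_sum fun k _ => ?_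
          rw [Matrix.mul_apply]
          exact (S.sum_le _ _).trans (Finset.sum_le_sum fun j _ => S.mul_le _ _)
      _ = ∑ i, ∑ j, S.N (A i j) * ∑ k, S.N (A' j k) := by
          refine Finset.sum_congr rfl fun i _ => ?_
          rw [Finset.sum_comm]
          exact Finset.sum_congr rfl fun j _ => (Finset.mul_sum _ _ _).symm
      _ ≤ ∑ i, ∑ j, S.N (A i j) * ∑ l, ∑ k, S.N (A' l k) := by
          refine Finset.sum_le_sum fun i _ => Finset.sum_le_sum fun j _ => ?_
          exact mul_le_mul_of_nonneg_left
            (Finset.single_le_sum (f := fun l => ∑ k, S.N (A' l k))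
              (fun l _ => Finset.sum_nonneg fun k _ => S.nonneg _) (Finset.mem_univ j))
            (S.nonneg _)
      _ = (∑ i, ∑ j, S.N (A i j)) * ∑ l, ∑ k, S.N (A' l k) := by
          simp [Finset.sum_mul]
  cyc A A' := by
    simp only [AddMonoidHom.mk'_apply, Matrix.mul_apply, map_sum]
    rw [Finset.sum_comm]
    exact Finset.sum_congr rfl fun i _ => Finset.sum_congr rfl fun j _ => S.cyc _ _
  c_nonneg := S.c_nonneg
  bound A := by
    simp only [AddMonoidHom.mk'_apply]
    refine (norm_sum_le _ _).trans ?_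
    rw [Finset.mul_sum]
    refine Finset.sum_le_sum fun i _ => (S.bound _).trans ?_
    exact mul_le_mul_of_nonneg_left
      (Finset.single_le_sum (f := fun j => S.N (A i j)) (fun j _ => S.nonneg _)
        (Finset.mem_univ i)) S.c_nonneg

@[simp] lemma TracedRing.matrix_T {R : Type*} [Ring R] (S : TracedRing R) (q : ℕ)
    (A : Matrix (Fin q) (Fin q) R) : (S.matrix q).T A = ∑ i, S.T (A i i) := rfl

variable {G : Type*} [Group G]

/-- The ℓ¹ size on the group ring. -/
noncomputable def l1Size (x : MonoidAlgebra ℂ G) : ℝ := x.coeff.sum fun _ r => ‖r‖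

lemma l1Size_eq (x : MonoidAlgebra ℂ G) {s : Finset G} (hs : x.coeff.support ⊆ s) :
    l1Size x = ∑ g ∈ s, ‖x.coeff g‖ :=
  Finsupp.sum_of_support_subset _ hs _ (by simp)

lemma l1Size_nonneg (x : MonoidAlgebra ℂ G) : 0 ≤ l1Size x :=
  Finset.sum_nonneg fun _ _ => norm_nonneg _

lemma l1Size_add_le (x y : MonoidAlgebra ℂ G) : l1Size (x + y) ≤ l1Size x + l1Size y := by
  classical
  have hs : (x + y).coeff.support ⊆ x.coeff.support ∪ y.coeff.support := by
    rw [MonoidAlgebra.coeff_add]; exact Finsupp.support_add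
  rw [l1Size_eq _ hs, l1Size_eq x Finset.subset_union_left, l1Size_eq y Finset.subset_union_right,
    ← Finset.sum_add_distrib]
  refine Finset.sum_le_sum fun g _ => ?_
  rw [MonoidAlgebra.coeff_add, Finsupp.add_apply]
  exact norm_add_le _ _

lemma l1Size_single (g : G) (r : ℂ) : l1Size (MonoidAlgebra.single g r) = ‖r‖ := by
  simp [l1Size]

lemma l1Size_mul_le (x y : MonoidAlgebra ℂ G) : l1Size (x * y) ≤ l1Size x * l1Size y := by
  rw [MonoidAlgebra.mul_def]
  refine (size_sum_le l1Size (by simp [l1Size]) l1Size_add_le _ _).trans ?_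
  rw [l1Size, Finsupp.sum, Finset.sum_mul]
  refine Finset.sum_le_sum fun a _ => ?_
  refine (size_sum_le l1Size (by simp [l1Size]) l1Size_add_le _ _).trans ?_
  rw [l1Size, Finsupp.sum, Finset.mul_sum]
  refine Finset.sum_le_sum fun b _ => ?_
  rw [l1Size_single, norm_mul]

open Classical in
/-- The trace at a conjugacy class on the group ring. -/
noncomputable def classTrace (C : ConjClasses G) : MonoidAlgebra ℂ G →+ ℂ :=
  (Finsupp.liftAddHom fun g => if ConjClasses.mk g = C then AddMonoidHom.id ℂ else 0).comp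
    (MonoidAlgebra.coeffAddEquiv (R := ℂ) (M := G)).toAddMonoidHom

open Classical in
lemma classTrace_apply (C : ConjClasses G) (x : MonoidAlgebra ℂ G) :
    classTrace C x = x.coeff.sum fun g r => if ConjClasses.mk g = C then r else 0 := by
  change x.coeff.sum (fun g => ⇑(if ConjClasses.mk g = C then AddMonoidHom.id ℂ else 0)) = _
  refine Finsupp.sum_congr fun g _ => ?_
  split_ifs <;> rfl

open Classical in
lemma classTrace_single (C : ConjClasses G) (g : G) (r : ℂ) :
    classTrace C (MonoidAlgebra.single g r) = if ConjClasses.mk g = C then r else 0 := by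
  simp [classTrace_apply]

lemma mk_mul_comm (a b : G) : ConjClasses.mk (a * b) = ConjClasses.mk (b * a) :=
  ConjClasses.mk_eq_mk_iff_isConj.2 (isConj_iff.2 ⟨a⁻¹, by group⟩)

/-- The traced ring structure of the group ring at a conjugacy class. -/
noncomputable def classRing (C : ConjClasses G) : TracedRing (MonoidAlgebra ℂ G) where
  N := l1Size
  T := classTrace C
  c := 1
  nonneg := l1Size_nonneg
  zero' := by simp [l1Size]
  neg' x := by
    simp only [l1Size, MonoidAlgebra.coeff_neg]
    rw [Finsupp.sum_neg_index (by simp)]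
    simp
  add_le := l1Size_add_le
  mul_le := l1Size_mul_le
  cyc x y := by
    classical
    induction x using MonoidAlgebra.induction_linear with
    | zero => simp
    | add f g hf hg => simp [add_mul, mul_add, hf, hg]
    | single a r =>
      induction y using MonoidAlgebra.induction_linear with
      | zero => simp
      | add f g hf hg => simp [add_mul, mul_add, hf, hg]
      | single b s =>
        rw [MonoidAlgebra.single_mul_single, MonoidAlgebra.single_mul_single, classTrace_single,
          classTrace_single, mk_mul_comm a b, mul_comm r s]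
  c_nonneg := zero_le_one
  bound x := by
    classical
    rw [classTrace_apply, one_mul, l1Size, Finsupp.sum, Finsupp.sum]
    refine (norm_sum_le _ _).trans (Finset.sum_le_sum fun g _ => ?_)
    split_ifs <;> simp

variable {q : ℕ}

/-- Matrices over the complex group ring. -/
abbrev Mat (G : Type*) (q : ℕ) := Matrix (Fin q) (Fin q) (MonoidAlgebra ℂ G)

/-- ℓ¹ size of a matrix over the group ring. -/
noncomputable def matSize (A : Mat G q) : ℝ := ∑ i, ∑ j, l1Size (A i j)

lemma matSize_eq (C : ConjClasses G) (A : Mat G q) : ((classRing C).matrix q).N A = matSize A := rfl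

lemma matRing_T (C : ConjClasses G) (A : Mat G q) :
    ((classRing C).matrix q).T A = ∑ i, classTrace C (A i i) := rfl

/-- Some class ring, used for the norm lemmas. -/
noncomputable abbrev baseRing (G : Type*) [Group G] (q : ℕ) : TracedRing (Mat G q) :=
  (classRing (ConjClasses.mk (1 : G))).matrix q

section Incl

variable {H : Subgroup G}

/-- Inclusion of matrices over the group ring of a subgroup. -/
noncomputable def inclMat (H : Subgroup G) (q : ℕ) : Mat H q →+* Mat G q :=
  (MonoidAlgebra.mapDomainRingHom ℂ H.subtype).mapMatrix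

lemma incl_coeff (x : MonoidAlgebra ℂ H) :
    (MonoidAlgebra.mapDomainRingHom ℂ H.subtype x).coeff = x.coeff.mapDomain Subtype.val := rfl

lemma l1Size_incl (x : MonoidAlgebra ℂ H) :
    l1Size (MonoidAlgebra.mapDomainRingHom ℂ H.subtype x) = l1Size x := by
  rw [l1Size, l1Size, incl_coeff, Finsupp.sum_mapDomain_index_inj Subtype.val_injective]

lemma matSize_incl (A : Mat H q) : matSize (inclMat H q A) = matSize A := by
  simp only [matSize, inclMat, RingHom.mapMatrix_apply, Matrix.map_apply, l1Size_incl]

open Classical in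
lemma classTrace_incl (C : ConjClasses G) (x : MonoidAlgebra ℂ H) :
    classTrace C (MonoidAlgebra.mapDomainRingHom ℂ H.subtype x) =
      x.coeff.sum fun h r => if ConjClasses.mk (h : G) = C then r else 0 := by
  rw [classTrace_apply, incl_coeff, Finsupp.sum_mapDomain_index_inj Subtype.val_injective]

end Incl

section Newton

variable {B : Type*} [Ring B]

/-- One Newton step for the idempotent equation. -/
def newtonStep (a : B) : B := a * a + a * a + a * a - (a * a * a + a * a * a)

/-- Newton iteration starting at an almost idempotent element. -/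
def newtonSeq (a : B) : ℕ → B
  | 0 => a
  | n + 1 => newtonStep (newtonSeq a n)

theorem newton_bounds (S : TracedRing B) {a : B} {η : ℝ} (hη : η ≤ 1)
    (h1 : S.N (a * a - a) * (4 * S.N (a * a - a) + 3 * S.N 1) ≤ 1 / 4)
    (h2 : 2 * (3 + 2 * S.N a) * S.N (a * a - a) ≤ η) :
    (∀ n, S.N (newtonSeq a n * newtonSeq a n - newtonSeq a n) ≤ S.N (a * a - a) * (1 / 4) ^ n) ∧
    (∀ n, S.N (newtonSeq a n - a) ≤ η) ∧
    (∀ m k, S.N (newtonSeq a (m + k) - newtonSeq a m) ≤ η * (1 / 4) ^ m) := by
  set d0 := S.N (a * a - a) with hd0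
  set K := 3 + 2 * S.N a with hK
  have hd0' : 0 ≤ d0 := S.nonneg _
  have hN1 : 0 ≤ S.N 1 := S.nonneg _
  have hKpos : 0 ≤ K := by have := S.nonneg a; linarith
  have key : ∀ n, S.N (newtonSeq a n * newtonSeq a n - newtonSeq a n) ≤ d0 * (1 / 4) ^ n ∧
      S.N (newtonSeq a n - a) ≤ 2 * K * d0 * (1 - (1 / 4) ^ n) ∧
      S.N (newtonSeq a (n + 1) - newtonSeq a n) ≤ K * d0 * (1 / 4) ^ n := by
    have step : ∀ n, S.N (newtonSeq a n * newtonSeq a n - newtonSeq a n) ≤ d0 * (1 / 4) ^ n →
        S.N (newtonSeq a n - a) ≤ 2 * K * d0 * (1 - (1 / 4) ^ n) →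
        S.N (newtonSeq a (n + 1) - newtonSeq a n) ≤ K * d0 * (1 / 4) ^ n := by
      intro n hd ha
      set b := newtonSeq a n with hb
      set d := b * b - b with hd'
      have hbN : S.N b ≤ S.N a + 1 := by
        have h := S.add_le a (b - a)
        rw [add_sub_cancel] at h
        have : 2 * K * d0 * (1 - (1 / 4 : ℝ) ^ n) ≤ 1 := by
          refine le_trans ?_ (h2.trans hη)
          exact mul_le_of_le_one_right (by positivity) (by
            have : (0 : ℝ) ≤ (1 / 4) ^ n := by positivity
            linarith)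
        linarith
      have e : newtonSeq a (n + 1) - b = d - (b * d + b * d) := by
        simp only [newtonSeq, ← hb, newtonStep, hd']; noncomm_ring
      rw [e]
      calc S.N (d - (b * d + b * d)) ≤ S.N d + (S.N b * S.N d + S.N b * S.N d) :=
            (S.sub_le _ _).trans (by
              have := S.add_le (b * d) (b * d)
              have := S.mul_le b d
              linarith)
        _ = (1 + 2 * S.N b) * S.N d := by ring
        _ ≤ K * (d0 * (1 / 4) ^ n) := by
            refine mul_le_mul ?_ hd (S.nonneg _) hKpos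
            linarith
        _ = _ := by ring
    intro n
    induction n with
    | zero =>
      have h0 : S.N (newtonSeq a 0 - a) ≤ 2 * K * d0 * (1 - (1 / 4 : ℝ) ^ 0) := by
        simp [newtonSeq, S.zero']
      exact ⟨by simp [newtonSeq, hd0], h0, step 0 (by simp [newtonSeq, hd0]) h0⟩
    | succ n ih =>
      obtain ⟨hd, ha, hs⟩ := ih
      have hd1 : S.N (newtonSeq a (n+1) * newtonSeq a (n+1) - newtonSeq a (n+1)) ≤
          d0 * (1 / 4) ^ (n + 1) := by
        set b := newtonSeq a n with hb
        set d := b * b - b with hd'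
        have e : newtonSeq a (n+1) * newtonSeq a (n+1) - newtonSeq a (n+1) =
            d * d * (d + d + d + d - (1 + 1 + 1)) := by
          simp only [newtonSeq, ← hb, newtonStep, hd']; noncomm_ring
        rw [e]
        have hpow : (1 / 4 : ℝ) ^ n ≤ 1 := pow_le_one₀ (by norm_num) (by norm_num)
        have hdd : S.N d ≤ d0 := hd.trans (mul_le_of_le_one_right hd0' hpow)
        have hsum : S.N (d + d + d + d - (1 + 1 + 1)) ≤ 4 * d0 + 3 * S.N 1 := by
          have := S.sub_le (d + d + d + d) (1 + 1 + 1)
          have := S.add_le (d + d + d) d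
          have := S.add_le (d + d) d
          have := S.add_le d d
          have := S.add_le ((1 : B) + 1) 1
          have := S.add_le (1 : B) 1
          linarith
        calc S.N (d * d * (d + d + d + d - (1 + 1 + 1)))
            ≤ S.N d * S.N d * S.N (d + d + d + d - (1 + 1 + 1)) :=
              (S.mul_le _ _).trans (mul_le_mul_of_nonneg_right (S.mul_le _ _) (S.nonneg _))
          _ ≤ (d0 * (1 / 4) ^ n) * d0 * (4 * d0 + 3 * S.N 1) :=
              mul_le_mul (mul_le_mul hd hdd (S.nonneg _) (by positivity)) hsum (S.nonneg _)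
                (by positivity)
          _ = (d0 * (1 / 4) ^ n) * (d0 * (4 * d0 + 3 * S.N 1)) := by ring
          _ ≤ (d0 * (1 / 4) ^ n) * (1 / 4) := mul_le_mul_of_nonneg_left h1 (by positivity)
          _ = _ := by ring
      have ha1 : S.N (newtonSeq a (n+1) - a) ≤ 2 * K * d0 * (1 - (1 / 4) ^ (n + 1)) := by
        have e : newtonSeq a (n+1) - a =
            (newtonSeq a (n+1) - newtonSeq a n) + (newtonSeq a n - a) := by abel
        rw [e]
        refine (S.add_le _ _).trans ?_
        have : 0 ≤ K * d0 * (1 / 4 : ℝ) ^ n := by positivity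
        rw [pow_succ]
        linarith
      exact ⟨hd1, ha1, step (n + 1) hd1 ha1⟩
  refine ⟨fun n => (key n).1, fun n => ((key n).2.1).trans ?_, fun m k => ?_⟩
  · refine le_trans ?_ h2
    exact mul_le_of_le_one_right (by positivity) (by
      have : (0 : ℝ) ≤ (1 / 4) ^ n := by positivity
      linarith)
  · have : ∀ k, S.N (newtonSeq a (m + k) - newtonSeq a m) ≤
        2 * K * d0 * (1 / 4) ^ m * (1 - (1 / 4) ^ k) := by
      intro k
      induction k with
      | zero => simp [S.zero']
      | succ k ih =>
        have e : newtonSeq a (m + (k + 1)) - newtonSeq a m =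
            (newtonSeq a (m + k + 1) - newtonSeq a (m + k)) +
              (newtonSeq a (m + k) - newtonSeq a m) := by rw [← Nat.add_assoc]; abel
        rw [e]
        refine (S.add_le _ _).trans ?_
        have h3 := (key (m + k)).2.2
        rw [pow_add] at h3
        rw [pow_succ]
        have : 0 ≤ K * d0 * ((1 / 4 : ℝ) ^ m * (1 / 4) ^ k) := by positivity
        nlinarith [ih, h3]
    refine (this k).trans ?_
    calc 2 * K * d0 * (1 / 4) ^ m * (1 - (1 / 4 : ℝ) ^ k)
        ≤ 2 * K * d0 * (1 / 4) ^ m := mul_le_of_le_one_right (by positivity) (by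
            have : (0 : ℝ) ≤ (1 / 4) ^ k := by positivity
            linarith)
      _ ≤ η * (1 / 4) ^ m := mul_le_mul_of_nonneg_right h2 (by positivity)

end Newton

section Truncation

variable (e : Fin q → Fin q → G → ℂ)

/-- Restriction of a matrix over ℓ¹(G) to a finite set. -/
noncomputable def trunc (S : Finset G) : Mat G q :=
  fun i j => ∑ g ∈ S, MonoidAlgebra.single g (e i j g)

open Classical in
lemma trunc_coeff (S : Finset G) (i j : Fin q) (g : G) :
    (trunc e S i j).coeff g = if g ∈ S then e i j g else 0 := by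
  simp [trunc, MonoidAlgebra.coeff_sum, Finsupp.finsetSum_apply, Finsupp.single_apply]

lemma trunc_support (S : Finset G) (i j : Fin q) : (trunc e S i j).coeff.support ⊆ S := by
  intro g hg
  by_contra h
  rw [Finsupp.mem_support_iff, trunc_coeff, if_neg h] at hg
  exact hg rfl

variable {e} (he : IsIdempotentMatrix e)

/-- The ℓ¹ mass outside a finite set. -/
noncomputable def tail (e : Fin q → Fin q → G → ℂ) (i j : Fin q) (S : Finset G) : ℝ :=
  (∑' g, ‖e i j g‖) - ∑ g ∈ S, ‖e i j g‖

include he in
lemma tail_tendsto (i j : Fin q) : Tendsto (tail e i j) atTop (𝓝 0) := by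
  have h := (he.1 i j).hasSum
  have := h.const_sub (∑' g, ‖e i j g‖)
  rw [sub_self] at this
  exact this

include he in
lemma tail_nonneg (i j : Fin q) (S : Finset G) : 0 ≤ tail e i j S :=
  sub_nonneg.2 ((he.1 i j).sum_le_tsum S fun _ _ => norm_nonneg _)

open Classical in
include he in
lemma sum_outside_le (i j : Fin q) (S s : Finset G) :
    ∑ g ∈ s, (if g ∈ S then 0 else ‖e i j g‖) ≤ tail e i j S := by
  have h1 : ∑ g ∈ s, (if g ∈ S then 0 else ‖e i j g‖) = ∑ g ∈ s \ S, ‖e i j g‖ := by
    rw [Finset.sum_ite, Finset.sum_const_zero, zero_add, Finset.sdiff_eq_filter]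
  rw [h1, tail, le_sub_iff_add_le, ← Finset.sum_union Finset.sdiff_disjoint]
  exact (he.1 i j).sum_le_tsum _ fun _ _ => norm_nonneg _

lemma sum_conv_le {u v : G → ℝ} (hu : Summable u) (hv : Summable v) (hu0 : ∀ g, 0 ≤ u g)
    (hv0 : ∀ g, 0 ≤ v g) (s : Finset G) :
    (∀ g, Summable fun h => u h * v (h⁻¹ * g)) ∧
    ∑ g ∈ s, ∑' h, u h * v (h⁻¹ * g) ≤ (∑' h, u h) * ∑' g, v g := by
  have hs : ∀ g, Summable fun h => u h * v (h⁻¹ * g) := fun g =>
    Summable.of_nonneg_of_le (fun h => mul_nonneg (hu0 h) (hv0 _))
      (fun h => mul_le_mul_of_nonneg_left (hv.le_tsum _ fun j _ => hv0 j) (hu0 h))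
      (hu.mul_right _)
  refine ⟨hs, ?_⟩
  rw [← Summable.tsum_finsetSum fun g _ => hs g, ← tsum_mul_right]
  refine Summable.tsum_le_tsum (fun h => ?_) (summable_sum fun g _ => hs g) (hu.mul_right _)
  rw [← Finset.mul_sum]
  refine mul_le_mul_of_nonneg_left ?_ (hu0 h)
  classical
  rw [← Finset.sum_image (f := v) (g := fun g => h⁻¹ * g) (fun a _ b _ hab => mul_left_cancel hab)]
  exact hv.sum_le_tsum _ fun j _ => hv0 j

open Classical in
include he in
lemma l1Size_trunc_sub (S S' : Finset G) (i j : Fin q) :
    l1Size (trunc e S i j - trunc e S' i j) ≤ tail e i j S + tail e i j S' := by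
  rw [l1Size_eq _ (Finset.Subset.refl _)]
  refine (Finset.sum_le_sum (fun g _ => ?_)).trans
    (Finset.sum_add_distrib.le.trans (add_le_add (sum_outside_le he i j S _) (sum_outside_le he i j S' _)))
  rw [MonoidAlgebra.coeff_sub, Finsupp.sub_apply, trunc_coeff, trunc_coeff]
  split_ifs <;> simp

include he in
lemma matSize_trunc_sub (S S' : Finset G) :
    matSize (trunc e S - trunc e S') ≤ ∑ i, ∑ j, (tail e i j S + tail e i j S') :=
  Finset.sum_le_sum fun i _ => Finset.sum_le_sum fun j _ => l1Size_trunc_sub he S S' i j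

include he in
lemma matSize_trunc_le (S : Finset G) : matSize (trunc e S) ≤ ∑ i, ∑ j, ∑' g, ‖e i j g‖ := by
  refine Finset.sum_le_sum fun i _ => Finset.sum_le_sum fun j _ => ?_
  rw [l1Size_eq _ (trunc_support e S i j)]
  refine (Finset.sum_le_sum fun g hg => ?_).trans ((he.1 i j).sum_le_tsum S fun _ _ => norm_nonneg _)
  classical
  rw [trunc_coeff, if_pos hg]

open Classical in
lemma coeff_mul_tsum (x y : MonoidAlgebra ℂ G) (g : G) :
    (x * y).coeff g = ∑' h, x.coeff h * y.coeff (h⁻¹ * g) := by
  rw [MonoidAlgebra.coeff_mul_apply_left, tsum_eq_sum (s := x.coeff.support) (fun h hh => by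
    rw [Finsupp.notMem_support_iff.1 hh, zero_mul])]
  rfl

open Classical in
include he in
lemma l1Size_trunc_defect (S : Finset G) (i k : Fin q) :
    l1Size ((trunc e S * trunc e S) i k - trunc e S i k) ≤
      (∑ j, (tail e i j S * (∑' g, ‖e j k g‖) + (∑' g, ‖e i j g‖) * tail e j k S)) +
        tail e i k S := by
  set z := (trunc e S * trunc e S) i k - trunc e S i k with hz
  set s := z.coeff.support with hs
  rw [l1Size_eq _ (Finset.Subset.refl _), ← hs]
  set u : Fin q → Fin q → G → ℝ := fun i j g => if g ∈ S then 0 else ‖e i j g‖ with hu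
  have hu0 : ∀ i j g, 0 ≤ u i j g := fun i j g => by simp only [hu]; split_ifs <;> simp
  have hus : ∀ i j, Summable (u i j) := fun i j =>
    Summable.of_nonneg_of_le (hu0 i j) (fun g => by simp only [hu]; split_ifs <;> simp) (he.1 i j)
  have husum : ∀ i j, ∑' g, u i j g ≤ tail e i j S := fun i j =>
    Real.tsum_le_of_sum_le (hu0 i j) fun t => sum_outside_le he i j S t
  have hc1 := fun j => sum_conv_le (hus i j) (he.1 j k) (hu0 i j) (fun g => norm_nonneg _) s
  have hc2 := fun j => sum_conv_le (he.1 i j) (hus j k) (fun g => norm_nonneg _) (hu0 j k) s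
  have hpt : ∀ g, ‖z.coeff g‖ ≤ (∑ j, ((∑' h, u i j h * ‖e j k (h⁻¹ * g)‖) +
      ∑' h, ‖e i j h‖ * u j k (h⁻¹ * g))) + u i k g := by
    intro g
    have h1 : ∀ j, Summable fun h => e i j h * e j k (h⁻¹ * g) := fun j => by
      refine Summable.of_norm ?_
      simp only [norm_mul]
      exact (sum_conv_le (he.1 i j) (he.1 j k) (fun _ => norm_nonneg _)
        (fun _ => norm_nonneg _) s).1 g
    have h2 : ∀ j, Summable fun h => (trunc e S i j).coeff h * (trunc e S j k).coeff (h⁻¹ * g) :=
      fun j => summable_of_ne_finset_zero (s := S) fun h hh => by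
        rw [trunc_coeff, if_neg hh, zero_mul]
    have hzg : z.coeff g = (∑ j, ∑' h, ((trunc e S i j).coeff h * (trunc e S j k).coeff (h⁻¹ * g) -
        e i j h * e j k (h⁻¹ * g))) + (e i k g - (trunc e S i k).coeff g) := by
      simp only [fun j => (h2 j).tsum_sub (h1 j), Finset.sum_sub_distrib, he.2 i k g]
      simp only [hz, MonoidAlgebra.coeff_sub, Finsupp.sub_apply, Matrix.mul_apply,
        MonoidAlgebra.coeff_sum, Finsupp.finsetSum_apply, coeff_mul_tsum]
      ring
    rw [hzg]
    refine (norm_add_le _ _).trans (add_le_add ((norm_sum_le _ _).trans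
      (Finset.sum_le_sum fun j _ => ?_)) ?_)
    · have hA := (hc1 j).1 g
      have hB := (hc2 j).1 g
      rw [← hA.tsum_add hB]
      refine tsum_of_norm_bounded (hA.add hB).hasSum fun h => ?_
      rw [trunc_coeff, trunc_coeff]
      simp only [hu]
      by_cases c1 : h ∈ S <;> by_cases c2 : h⁻¹ * g ∈ S <;> simp [c1, c2] <;> positivity
    · rw [trunc_coeff]
      simp only [hu]
      by_cases c1 : g ∈ S <;> simp [c1]
  refine (Finset.sum_le_sum fun g _ => hpt g).trans ?_
  rw [Finset.sum_add_distrib, Finset.sum_comm]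
  refine add_le_add (Finset.sum_le_sum fun j _ => ?_) (sum_outside_le he i k S s)
  rw [Finset.sum_add_distrib]
  exact add_le_add
    ((hc1 j).2.trans (mul_le_mul_of_nonneg_right (husum i j) (tsum_nonneg fun _ => norm_nonneg _)))
    ((hc2 j).2.trans (mul_le_mul_of_nonneg_left (husum j k) (tsum_nonneg fun _ => norm_nonneg _)))

include he in
lemma defect_tendsto :
    Tendsto (fun S => matSize (trunc e S * trunc e S - trunc e S)) atTop (𝓝 0) := by
  refine squeeze_zero (fun S => Finset.sum_nonneg fun i _ => Finset.sum_nonneg fun j _ =>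
    l1Size_nonneg _) (fun S => Finset.sum_le_sum fun i _ => Finset.sum_le_sum fun k _ =>
      l1Size_trunc_defect he S i k) ?_
  have : Tendsto (fun S => ∑ i : Fin q, ∑ k : Fin q,
      ((∑ j : Fin q, (tail e i j S * (∑' g, ‖e j k g‖) + (∑' g, ‖e i j g‖) * tail e j k S)) +
        tail e i k S)) atTop (𝓝 (∑ i : Fin q, ∑ k : Fin q,
      ((∑ j : Fin q, (0 * (∑' g, ‖e j k g‖) + (∑' g, ‖e i j g‖) * 0)) + 0))) := by
    refine tendsto_finsetSum _ fun i _ => tendsto_finsetSum _ fun k _ => Tendsto.add
      (tendsto_finsetSum _ fun j _ => ((tail_tendsto he i j).mul_const _).add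
        ((tail_tendsto he j k).const_mul _)) (tail_tendsto he i k)
  simpa using this

open Classical in
include he in
lemma trunc_trace_tendsto (C : ConjClasses G) :
    Tendsto (fun S => ((classRing C).matrix q).T (trunc e S)) atTop (𝓝 (hsTrace e C)) := by
  have hf : Summable fun g => ∑ i, e i i g :=
    summable_sum fun i _ => Summable.of_norm (he.1 i i)
  have h1 : HasSum (fun g => if ConjClasses.mk g = C then ∑ i, e i i g else 0) (hsTrace e C) := by
    have h := hasSum_subtype_iff_indicator.1 (hf.subtype C.carrier).hasSum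
    have heq : hsTrace e C =
        ∑' g : C.carrier, ((fun g => ∑ i, e i i g) ∘ Subtype.val) g := rfl
    rw [heq]
    convert h using 1
    any_goals rfl
    funext g
    rw [Set.indicator_apply]
    exact if_congr ConjClasses.mem_carrier_iff_mk_eq.symm rfl rfl
  refine h1.congr' ?_ |>.trans le_rfl
  filter_upwards with S
  rw [matRing_T]
  simp only [trunc, map_sum, classTrace_single]
  rw [Finset.sum_comm]
  refine Finset.sum_congr rfl fun i _ => ?_
  split_ifs <;> simp

end Truncation

/-- The finite approximation data of an idempotent matrix over ℓ¹(G). -/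
structure Approx {q : ℕ} (e : Fin q → Fin q → G → ℂ) (η : ℝ) where
  H : Subgroup G
  fg : H.FG
  a : ℕ → Mat H q
  K : Finset H
  supp : ∀ i j, (a 0 i j).coeff.support ⊆ K
  defect : Tendsto (fun n => matSize (a n * a n - a n)) atTop (𝓝 0)
  near : ∀ n, matSize (a n - a 0) ≤ η
  cauchy : ∀ ε > 0, ∃ m, ∀ n ≥ m, matSize (a n - a m) ≤ ε
  conv : ∀ C : ConjClasses G,
    Tendsto (fun n => ((classRing C).matrix q).T (inclMat H q (a n))) atTop (𝓝 (hsTrace e C))

theorem exists_approx {e : Fin q → Fin q → G → ℂ} (he : IsIdempotentMatrix e) {η : ℝ}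
    (hη : 0 < η) (hη' : η ≤ 1 / 8) : Nonempty (Approx e η) := by
  classical
  set S := baseRing G q
  set M := ∑ i, ∑ j, ∑' g, ‖e i j g‖ with hM
  have hM0 : 0 ≤ M := Finset.sum_nonneg fun i _ => Finset.sum_nonneg fun j _ =>
    tsum_nonneg fun _ => norm_nonneg _
  have ev1 : ∀ᶠ T in atTop, (∑ i, ∑ j, tail e i j T) ≤ 1 / 8 := by
    have : Tendsto (fun T => ∑ i : Fin q, ∑ j : Fin q, tail e i j T) atTop
        (𝓝 (∑ i : Fin q, ∑ j : Fin q, (0 : ℝ))) :=
      tendsto_finsetSum _ fun i _ => tendsto_finsetSum _ fun j _ => tail_tendsto he i j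
    simp only [Finset.sum_const_zero] at this
    exact this.eventually_le_const (by norm_num)
  have ev2 : ∀ᶠ T in atTop, matSize (trunc e T * trunc e T - trunc e T) *
      (4 * matSize (trunc e T * trunc e T - trunc e T) + 3 * S.N 1) ≤ 1 / 4 := by
    have := (defect_tendsto he).mul (((defect_tendsto he).const_mul 4).add_const (3 * S.N 1))
    rw [zero_mul] at this
    exact this.eventually_le_const (by norm_num)
  have ev3 : ∀ᶠ T in atTop,
      2 * (3 + 2 * M) * matSize (trunc e T * trunc e T - trunc e T) ≤ η := by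
    have := (defect_tendsto he).const_mul (2 * (3 + 2 * M))
    rw [mul_zero] at this
    exact this.eventually_le_const hη
  obtain ⟨S0, hS1, hS2, hS3⟩ := (ev1.and (ev2.and ev3)).exists
  set H : Subgroup G := Subgroup.closure (S0 : Set G) with hH
  have hfg : H.FG := ⟨S0, rfl⟩
  have hmem : ∀ g ∈ S0, g ∈ H := fun g hg => Subgroup.subset_closure hg
  let a0 : Mat H q := fun i j =>
    ∑ g ∈ S0.attach, MonoidAlgebra.single (⟨g.1, hmem g.1 g.2⟩ : H) (e i j g.1)
  have ha0 : inclMat H q a0 = trunc e S0 := by
    refine Matrix.ext fun i j => ?_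
    change MonoidAlgebra.mapDomainRingHom ℂ H.subtype (a0 i j) = trunc e S0 i j
    simp only [a0, map_sum, trunc,
      MonoidAlgebra.mapDomainRingHom_apply, MonoidAlgebra.mapDomain_single, Subgroup.coe_subtype]
    exact Finset.sum_attach S0 (fun g => MonoidAlgebra.single g (e i j g))
  set SH := baseRing H q
  have hsz : ∀ A : Mat H q, SH.N A = matSize A := fun A => rfl
  have hd : SH.N (a0 * a0 - a0) = matSize (trunc e S0 * trunc e S0 - trunc e S0) := by
    rw [hsz, ← matSize_incl, map_sub, map_mul, ha0]
  have ha0N : SH.N a0 ≤ M := by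
    rw [hsz, ← matSize_incl, ha0]; exact matSize_trunc_le he S0
  have hone : SH.N 1 = S.N 1 := by
    rw [hsz, ← matSize_incl, map_one]; rfl
  have hnb := newton_bounds SH (a := a0) (η := η) (by linarith) (by rw [hd, hone]; exact hS2)
    (by
      refine le_trans (mul_le_mul_of_nonneg_right ?_ (SH.nonneg _)) (by rw [hd]; exact hS3)
      linarith)
  obtain ⟨hdef, hnear, hcau⟩ := hnb
  have hdef0 : Tendsto (fun n => matSize (newtonSeq a0 n * newtonSeq a0 n - newtonSeq a0 n))
      atTop (𝓝 0) := by
    refine squeeze_zero (fun n => SH.nonneg _) hdef ?_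
    simpa using (tendsto_pow_atTop_nhds_zero_of_lt_one (by norm_num : (0 : ℝ) ≤ 1 / 4)
      (by norm_num)).const_mul (SH.N (a0 * a0 - a0))
  refine ⟨{
    H := H, fg := hfg, a := newtonSeq a0,
    K := (Finset.univ : Finset (Fin q × Fin q)).biUnion fun p => (a0 p.1 p.2).coeff.support
    supp := fun i j h hh => Finset.mem_biUnion.2 ⟨(i, j), Finset.mem_univ _, hh⟩
    defect := hdef0, near := hnear, cauchy := ?_, conv := ?_ }⟩
  · intro ε hε
    obtain ⟨m, hm⟩ : ∃ m : ℕ, η * (1 / 4 : ℝ) ^ m ≤ ε := by
      have := (tendsto_pow_atTop_nhds_zero_of_lt_one (by norm_num : (0 : ℝ) ≤ 1 / 4)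
        (by norm_num)).const_mul η
      rw [mul_zero] at this
      exact (this.eventually_le_const hε).exists
    refine ⟨m, fun n hn => ?_⟩
    obtain ⟨k, rfl⟩ := Nat.exists_eq_add_of_le hn
    exact (hcau m k).trans hm
  · intro C
    set R := (classRing C).matrix q
    have hsR : ∀ A : Mat G q, R.N A = matSize A := fun A => rfl
    set l := (atTop : Filter ℕ) ×ˢ (atTop : Filter (Finset G))
    set P : ℕ × Finset G → Mat G q := fun x => inclMat H q (newtonSeq a0 x.1) with hP
    set Q : ℕ × Finset G → Mat G q := fun x => trunc e x.2 with hQ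
    have hPb : R.Bdd l P := by
      refine ⟨M + η, Eventually.of_forall fun x => ?_⟩
      rw [hsR, hP, matSize_incl, ← hsz]
      have := SH.add_le a0 (newtonSeq a0 x.1 - a0)
      rw [add_sub_cancel] at this
      have := hnear x.1
      linarith
    have hQb : R.Bdd l Q := ⟨M, Eventually.of_forall fun x => matSize_trunc_le he x.2⟩
    have hp : R.Null l (fun x => P x * P x - P x) := by
      have := hdef0.comp (tendsto_fst (f := atTop) (g := (atTop : Filter (Finset G))))
      refine Tendsto.congr (fun x => ?_) this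
      simp only [hsR, hP, ← map_mul, ← map_sub, matSize_incl, Function.comp_apply]
    have hq : R.Null l (fun x => Q x * Q x - Q x) :=
      (defect_tendsto he).comp (tendsto_snd (f := (atTop : Filter ℕ)))
    have hD : ∀ᶠ x in l, R.N (P x - Q x) ≤ 1 / 2 := by
      filter_upwards [(tendsto_snd (f := (atTop : Filter ℕ)) (g := atTop)).eventually ev1]
        with x hx
      have e1 : P x - Q x = inclMat H q (newtonSeq a0 x.1 - a0) + (trunc e S0 - trunc e x.2) := by
        simp only [hP, hQ, map_sub, ha0]; abel
      rw [e1]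
      refine (R.add_le _ _).trans ?_
      rw [hsR, hsR, matSize_incl]
      have h2 := matSize_trunc_sub he S0 x.2
      simp only [Finset.sum_add_distrib] at h2
      have := hnear x.1
      rw [hsz] at this
      linarith
    have hlim := TracedRing.trace_limit hPb hQb hp hq (by norm_num : (1 / 2 : ℝ) < 1) (by norm_num) hD
    have h2 := hlim.add ((trunc_trace_tendsto he C).comp (tendsto_snd (f := (atTop : Filter ℕ))))
    rw [zero_add] at h2
    have h3 : Tendsto ((fun n => R.T (inclMat H q (newtonSeq a0 n))) ∘ Prod.fst) l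
        (𝓝 (hsTrace e C)) := by
      refine Tendsto.congr (fun x => ?_) h2
      simp [hP, hQ, map_sub, R]
    have hne : (atTop : Filter (Finset G)).NeBot := inferInstance
    rw [← tendsto_map'_iff] at h3
    rwa [map_fst_prod] at h3

end Vale.Agent.P184
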