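import Vale.Agent.P184.Criterion
import Vale.Agent.P184.Linear

/-!
The ℓ¹-Bass conjecture for groups acting properly and coboundedly by isometries on complete spaces
with the midpoint (CN) inequality, that is on complete CAT(0) spaces.
-/

namespace Vale.Agent.P184

open Filter Topology

universe u v

section Isometric

variable {G : Type*} [Group G] {Y : Type*} [PseudoMetricSpace Y] [MulAction G Y]

/-- Positive drift along the orbit of g in a space with a quadrilateral inequality with
some constant gives a potential. -/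
theorem hasPotential_of_action_const {κ : ℝ} (_hκ : 0 ≤ κ) (hiso : ∀ (h : G) (a b : Y), dist (h • a) (h • b) = dist a b)
    (hquad : ∀ a b c d : Y, dist a c ^ 2 + dist b d ^ 2 - dist a d ^ 2 - dist b c ^ 2 ≤
      κ * dist a b * dist c d)
    (g : G) (o : Y) {l : ℝ} (hl : 0 < l) (hgrow : ∀ k : ℕ, l * k ≤ dist o (g ^ k • o)) :
    HasPotential G g := by
  set z : ℕ → Y := fun k => g ^ k • o with hz
  set D : ℕ → ℝ := fun k => dist o (z k) with hD
  set S : Set ℕ := {k | l / 2 ≤ D (k + 1) - D k} with hS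
  have hSinf : S.Infinite := by
    intro hfin
    obtain ⟨N, hN⟩ := hfin.bddAbove
    have hub : ∀ j : ℕ, D (N + 1 + j) ≤ D (N + 1) + l / 2 * j := by
      intro j
      induction j with
      | zero => simp
      | succ j ih =>
        have : N + 1 + j ∉ S := fun h => by have := hN h; omega
        simp only [hS, Set.mem_ofPred_eq, not_le] at this
        rw [← Nat.add_assoc]
        push_cast
        linarith
    obtain ⟨j, hj⟩ := exists_nat_gt (2 * D (N + 1) / l)
    have h1 := hgrow (N + 1 + j)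
    have h2 := hub j
    rw [div_lt_iff₀ hl] at hj
    simp only [hD, hz] at h2 hj
    push_cast at h1
    have h3 : 0 ≤ l * ((N : ℝ) + 1) := by positivity
    nlinarith
  have hne : (atTop ⊓ 𝓟 S).NeBot := by
    rw [← frequently_mem_iff_neBot]
    exact Nat.frequently_atTop_iff_infinite.2 hSinf
  set 𝒰 := Ultrafilter.of (atTop ⊓ 𝓟 S) with h𝒰
  have h𝒰top : (𝒰 : Filter ℕ) ≤ atTop := (Ultrafilter.of_le _).trans inf_le_left
  have h𝒰S : S ∈ (𝒰 : Filter ℕ) := (Ultrafilter.of_le _) (mem_inf_of_right (mem_principal_self _))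
  have hbd : ∀ h : G, ∀ k, dist (h⁻¹ • o) (z k) - D k ∈
      Set.Icc (-dist (h⁻¹ • o) o) (dist (h⁻¹ • o) o) := fun h k => by
    have h1 := dist_triangle (h⁻¹ • o) o (z k)
    have h2 := dist_triangle o (h⁻¹ • o) (z k)
    rw [dist_comm o (h⁻¹ • o)] at h2
    simp only [Set.mem_Icc, hD]
    constructor <;> linarith
  have hlim : ∀ h : G, ∃ L, Tendsto (fun k => dist (h⁻¹ • o) (z k) - D k) 𝒰 (𝓝 L) := fun h => by
    obtain ⟨L, -, hL⟩ := isCompact_Icc.ultrafilter_le_nhds (𝒰.map _)
      (le_principal_iff.2 (Eventually.of_forall (hbd h) : ∀ᶠ k in (𝒰 : Filter ℕ), _))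
    exact ⟨L, hL⟩
  choose F hF using hlim
  have hDtop : Tendsto D atTop atTop :=
    tendsto_atTop_mono hgrow (Tendsto.const_mul_atTop hl tendsto_natCast_atTop_atTop)
  refine ⟨F, ?_, fun h n hn => ?_, fun k => ⟨dist (k⁻¹ • o) o, fun h => ?_⟩⟩
  · have h1 : l / 2 ≤ F g := by
      refine ge_of_tendsto (hF g) ?_
      filter_upwards [h𝒰S] with k hk
      have e : dist (g⁻¹ • o) (z k) = D (k + 1) := by
        rw [← hiso g, smul_inv_smul, hD, hz]
        simp only [pow_succ', mul_smul]
      rw [e]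
      exact hk
    linarith
  · set y := h⁻¹ • o with hy
    have hcomm : ∀ k, n • z k = g ^ k • (n • o) := fun k => by
      simp only [hz, ← mul_smul]
      congr 1
      exact ((Commute.pow_right (show Commute n g from hn) k)).eq
    set w : ℕ → Y := fun k => g ^ k • (n • o) with hw
    set r := dist (n • o) o with hr
    set s := dist y o with hs
    have key : Tendsto (fun k => dist y (w k) - dist y (z k) - dist o (w k) + dist o (z k))
        atTop (𝓝 0) := by
      have hden : Tendsto (fun k => 2 * (D k - s) - r) atTop atTop :=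
        tendsto_atTop_add_const_right _ _
          (Tendsto.const_mul_atTop two_pos (tendsto_atTop_add_const_right _ _ hDtop))
      refine squeeze_zero_norm' ?_ (Tendsto.div_atTop (tendsto_const_nhds (x := (κ + 2) * s * r)) hden)
      filter_upwards [hden.eventually_gt_atTop 0] with k hk
      rw [Real.norm_eq_abs, le_div_iff₀ hk]
      have hwz : dist (w k) (z k) = r := by simp only [hw, hz, hiso, hr]
      have q1 := hquad y o (w k) (z k)
      have q2 := hquad y o (z k) (w k)
      rw [dist_comm (z k) (w k)] at q2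
      rw [hwz] at q1 q2
      have t1 := dist_triangle y (w k) (z k)
      have t2 := dist_triangle y (z k) (w k)
      have t3 := dist_triangle o (w k) (z k)
      have t4 := dist_triangle o (z k) (w k)
      rw [dist_comm (z k) (w k)] at t2 t4
      rw [hwz] at t1 t2 t3 t4
      have t5 := dist_triangle o y (w k)
      have t6 := dist_triangle y o (w k)
      have t7 := dist_triangle o y (z k)
      have t8 := dist_triangle y o (z k)
      rw [dist_comm o y] at t5 t7
      simp only [hD] at hk ⊢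
      set A := dist y (w k)
      set B := dist y (z k)
      set C := dist o (w k)
      set E := dist o (z k)
      rw [← hs] at q1 q2 t5 t6 t7 t8
      have hs0 : 0 ≤ s := dist_nonneg
      have hr0 : 0 ≤ r := dist_nonneg
      have e0 : (A - B - C + E) * (A + B) =
          (A ^ 2 + E ^ 2 - B ^ 2 - C ^ 2) - (C - E) * ((A + B) - (C + E)) := by ring
      have b1 : |A ^ 2 + E ^ 2 - B ^ 2 - C ^ 2| ≤ κ * s * r := abs_le.2 ⟨by linarith, by linarith⟩
      have b2 : |(C - E) * ((A + B) - (C + E))| ≤ r * (2 * s) := by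
        rw [abs_mul]
        exact mul_le_mul (abs_le.2 ⟨by linarith, by linarith⟩)
          (abs_le.2 ⟨by linarith, by linarith⟩) (abs_nonneg _) hr0
      calc |A - B - C + E| * (2 * (E - s) - r) ≤ |A - B - C + E| * (A + B) :=
            mul_le_mul_of_nonneg_left (by linarith) (abs_nonneg _)
        _ = |(A - B - C + E) * (A + B)| := by
            rw [abs_mul, abs_of_nonneg (add_nonneg dist_nonneg dist_nonneg : 0 ≤ A + B)]
        _ ≤ (κ + 2) * s * r := by
            rw [e0]
            refine (abs_sub _ _).trans ?_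
            linarith
    refine tendsto_nhds_unique (hF (h * n)) ?_
    have h3 := ((hF h).add (hF n)).add (key.mono_left h𝒰top)
    rw [add_zero] at h3
    refine h3.congr fun k => ?_
    have e1 : dist ((h * n)⁻¹ • o) (z k) = dist y (w k) := by
      rw [← hiso n, mul_inv_rev, mul_smul, smul_inv_smul, hcomm]
    have e2 : dist (n⁻¹ • o) (z k) = dist o (w k) := by
      rw [← hiso n, smul_inv_smul, hcomm]
    rw [e1, e2]
    simp only [hD, hy]
    ring
  · refine le_of_tendsto' ((hF (k * h)).sub (hF h)).abs fun j => ?_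
    have e : (k * h)⁻¹ • o = h⁻¹ • (k⁻¹ • o) := by rw [mul_inv_rev, mul_smul]
    rw [e, sub_sub_sub_cancel_right]
    refine (abs_dist_sub_le _ _ _).trans ?_
    rw [hiso]

end Isometric

section Hadamard

variable {Y : Type v} [MetricSpace Y]

/-- The defect of the quadrilateral a, b, c, d. -/
def quadDefect (a b c d : Y) : ℝ := dist a c ^ 2 + dist b d ^ 2 - dist a d ^ 2 - dist b c ^ 2

variable (hmid : ∀ a b : Y, ∃ m, ∀ z,
  dist z m ^ 2 ≤ (dist z a ^ 2 + dist z b ^ 2) / 2 - dist a b ^ 2 / 4)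

include hmid

lemma quadDefect_le_sq (a b c d : Y) : quadDefect a b c d ≤ dist a b ^ 2 + dist c d ^ 2 := by
  obtain ⟨m, hm⟩ := hmid a c
  have h1 := hm b
  have h2 := hm d
  have h3 := dist_triangle b m d
  have h4 : dist b d ^ 2 ≤ 2 * dist b m ^ 2 + 2 * dist d m ^ 2 := by
    rw [dist_comm m d] at h3
    nlinarith [dist_nonneg (x := b) (y := d), sq_nonneg (dist b m - dist d m)]
  simp only [quadDefect]
  rw [dist_comm b a, dist_comm d a, dist_comm d c] at *
  nlinarith

lemma quadDefect_subdivide (k : ℕ) : ∀ a b c d : Y,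
    quadDefect a b c d ≤ 2 ^ k * dist a b ^ 2 + dist c d ^ 2 / 2 ^ k := by
  induction k with
  | zero => intro a b c d; simpa using quadDefect_le_sq hmid a b c d
  | succ k ih =>
    intro a b c d
    obtain ⟨m, hm⟩ := hmid c d
    have hc := hm c
    have hd := hm d
    simp only [dist_self, dist_comm d c] at hc hd
    have h1 := ih a b c m
    have h2 := ih a b m d
    have e : quadDefect a b c d = quadDefect a b c m + quadDefect a b m d := by
      simp only [quadDefect]; ring
    have h3 : dist c m ^ 2 / 2 ^ k + dist m d ^ 2 / 2 ^ k ≤ dist c d ^ 2 / 2 ^ (k + 1) := by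
      rw [← add_div, show (2 : ℝ) ^ (k + 1) = 2 * 2 ^ k by ring, ← div_div _ (2 : ℝ)]
      gcongr
      rw [dist_comm m d]
      linarith
    have e2 : (2 : ℝ) ^ (k + 1) * dist a b ^ 2 = 2 * (2 ^ k * dist a b ^ 2) := by ring
    rw [e, e2]
    linarith

lemma quadDefect_le (a b c d : Y) : quadDefect a b c d ≤ 5 * dist a b * dist c d := by
  wlog h : dist a b ≤ dist c d generalizing a b c d
  · have := this c d a b (le_of_not_ge h)
    have e : quadDefect c d a b = quadDefect a b c d := by
      simp only [quadDefect, dist_comm c a, dist_comm d b, dist_comm c b, dist_comm d a]; ring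
    rw [e] at this
    linarith
  rcases (dist_nonneg (x := a) (y := b)).eq_or_lt with h0 | h0
  · have : a = b := dist_eq_zero.1 h0.symm
    subst this
    simp [quadDefect]
  obtain ⟨k, hk, hk'⟩ := exists_nat_pow_near (x := dist c d / dist a b)
    ((one_le_div h0).2 h) one_lt_two
  rw [le_div_iff₀ h0] at hk
  rw [div_lt_iff₀ h0, pow_succ] at hk'
  refine (quadDefect_subdivide hmid k a b c d).trans ?_
  have hp : (0 : ℝ) < 2 ^ k := by positivity
  have : dist c d ^ 2 / 2 ^ k ≤ 2 * dist a b * dist c d := by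
    rw [div_le_iff₀ hp]
    nlinarith
  nlinarith

omit hmid in
/-- The sum of squared distances to a finite family of points. -/
noncomputable def variance {N : ℕ} (p : Fin N → Y) (z : Y) : ℝ := ∑ i, dist z (p i) ^ 2

lemma variance_mid {N : ℕ} (p : Fin N → Y) (z w : Y) :
    ∃ m, variance p m ≤ (variance p z + variance p w) / 2 - N * (dist z w ^ 2 / 4) := by
  obtain ⟨m, hm⟩ := hmid z w
  refine ⟨m, (Finset.sum_le_sum (g := fun i =>
    (dist (p i) z ^ 2 + dist (p i) w ^ 2) / 2 - dist z w ^ 2 / 4) fun i _ => ?_).trans_eq ?_⟩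
  · exact (by rw [dist_comm m (p i)]; exact hm (p i) :
      dist m (p i) ^ 2 ≤ (dist (p i) z ^ 2 + dist (p i) w ^ 2) / 2 - dist z w ^ 2 / 4)
  · simp only [Finset.sum_sub_distrib, ← Finset.sum_div, Finset.sum_add_distrib, variance,
      dist_comm (p _)]
    simp [mul_div_assoc]

lemma exists_centre [CompleteSpace Y] [Nonempty Y] {N : ℕ} (hN : 0 < N) (p : Fin N → Y) :
    ∃ b, ∀ z, variance p b + N * (dist z b ^ 2 / 2) ≤ variance p z := by
  have hb : BddBelow (Set.range (variance p)) :=
    ⟨0, by rintro _ ⟨z, rfl⟩; exact Finset.sum_nonneg fun i _ => sq_nonneg _⟩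
  set I := ⨅ z, variance p z with hI
  have hlow : ∀ z, I ≤ variance p z := ciInf_le hb
  have hseq : ∀ n : ℕ, ∃ z, variance p z < I + 1 / (n + 1) := fun n =>
    exists_lt_of_ciInf_lt (lt_add_of_pos_right _ (by positivity))
  choose z hz using hseq
  have hN' : (0 : ℝ) < N := by exact_mod_cast hN
  have hclose : ∀ n m : ℕ, n ≤ m → dist (z n) (z m) ^ 2 ≤ 4 * (1 / ((n : ℝ) + 1)) / N := by
    intro n m hnm
    obtain ⟨w, hw⟩ := variance_mid hmid p (z n) (z m)
    have h1 := hlow w
    have h2 := hz n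
    have h3 := hz m
    have h4 : 1 / ((m : ℝ) + 1) ≤ 1 / ((n : ℝ) + 1) := by gcongr
    rw [le_div_iff₀ hN']
    linarith
  have hcauchy : CauchySeq z := by
    refine Metric.cauchySeq_iff'.2 fun ε hε => ?_
    obtain ⟨n, hn⟩ := exists_nat_one_div_lt (show 0 < ε ^ 2 * N / 4 by positivity)
    refine ⟨n, fun m hm => ?_⟩
    have := hclose n m hm
    rw [dist_comm, ← pow_lt_pow_iff_left₀ dist_nonneg hε.le two_ne_zero]
    refine this.trans_lt ?_
    rw [div_lt_iff₀ hN']
    linarith
  obtain ⟨b, hb'⟩ := cauchySeq_tendsto_of_complete hcauchy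
  have hbI : variance p b ≤ I := by
    have hc : Continuous (variance p) := by unfold variance; fun_prop
    refine le_of_tendsto_of_tendsto ((hc.tendsto b).comp hb') ?_
      (Eventually.of_forall fun n => (hz n).le)
    simpa using tendsto_one_div_add_atTop_nhds_zero_nat.const_add I
  refine ⟨b, fun w => ?_⟩
  obtain ⟨m, hm⟩ := variance_mid hmid p w b
  have := hlow m
  linarith

variable [CompleteSpace Y] {G : Type u} [Group G] [MulAction G Y]
  (hiso : ∀ (h : G) (a b : Y), dist (h • a) (h • b) = dist a b)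

include hiso

/-- A point moved little, built from an orbit segment. -/
lemma exists_short_move (g : G) (o : Y) {N : ℕ} (hN : 2 ≤ N) :
    ∃ y : Y, (dist y (g • y) * N) ^ 2 ≤ 8 * dist o (g ^ N • o) ^ 2 := by
  have : Nonempty Y := ⟨o⟩
  obtain ⟨b, hb⟩ := exists_centre hmid (by omega) fun i : Fin N => g ^ (i : ℕ) • o
  obtain ⟨k, hk, hk'⟩ := exists_nat_pow_near (x := (N : ℝ) / 2)
    (by rw [one_le_div (by norm_num)]; exact_mod_cast hN) one_lt_two
  refine ⟨b, ?_⟩
  set d := dist b (g • b) with hd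
  have h1 := hb (g • b)
  have h2 := hb (g⁻¹ • b)
  have e1 : dist (g • b) b = d := dist_comm _ _
  have e2 : dist (g⁻¹ • b) b = d := by rw [← hiso g, smul_inv_smul]
  rw [e1] at h1
  rw [e2] at h2
  simp only [variance] at h1 h2
  set u : ℕ → ℝ := fun i => dist b (g ^ i • o) ^ 2 - dist (g • b) (g ^ i • o) ^ 2 with hu
  have hs : ∀ i : ℕ, dist (g⁻¹ • b) (g ^ i • o) = dist b (g ^ (i + 1) • o) := fun i => by
    rw [← hiso g, smul_inv_smul, smul_smul, ← pow_succ']
  have hs' : ∀ i : ℕ, dist b (g ^ i • o) = dist (g • b) (g ^ (i + 1) • o) := fun i => by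
    rw [← hiso g, smul_smul, ← pow_succ']
  simp only [hs] at h2
  have h3 : ∑ i : Fin N, dist b (g ^ (i : ℕ) • o) ^ 2 =
      ∑ i : Fin N, dist (g • b) (g ^ ((i : ℕ) + 1) • o) ^ 2 :=
    Finset.sum_congr rfl fun i _ => by rw [hs']
  have key : (N : ℝ) * d ^ 2 ≤ u N - u 0 := by
    have h4 : ∑ i : Fin N, (u ((i : ℕ) + 1) - u i) = u N - u 0 := by
      rw [Fin.sum_univ_eq_sum_range (fun i => u (i + 1) - u i), Finset.sum_range_sub]
    rw [← h4]
    simp only [hu, Finset.sum_sub_distrib]
    linarith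
  have h5 : u N - u 0 = quadDefect b (g • b) (g ^ N • o) o := by
    simp only [hu, quadDefect, pow_zero, one_smul]
    ring
  rw [h5] at key
  have h6 := key.trans (quadDefect_subdivide hmid k b (g • b) (g ^ N • o) o)
  rw [← hd, dist_comm (g ^ N • o) o] at h6
  rw [pow_succ] at hk'
  have hp : (0 : ℝ) < 2 ^ k := by positivity
  have h7 : ((N : ℝ) - 2 ^ k) * 2 ^ k * d ^ 2 ≤ dist o (g ^ N • o) ^ 2 := by
    have := mul_le_mul_of_nonneg_left h6 hp.le
    rw [mul_add, mul_div_cancel₀ _ hp.ne'] at this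
    linarith
  have h8 : (N : ℝ) ^ 2 ≤ 8 * (((N : ℝ) - 2 ^ k) * 2 ^ k) := by nlinarith
  calc (d * N) ^ 2 = d ^ 2 * (N : ℝ) ^ 2 := by ring
    _ ≤ d ^ 2 * (8 * (((N : ℝ) - 2 ^ k) * 2 ^ k)) := mul_le_mul_of_nonneg_left h8 (sq_nonneg _)
    _ ≤ _ := by linarith

/-- A periodic isometry fixes a point. -/
lemma exists_fixed (g : G) (o : Y) (hg : IsOfFinOrder g) : ∃ y : Y, g • y = y := by
  obtain ⟨n, hn, hgn⟩ := hg.exists_pow_eq_one
  obtain ⟨y, hy⟩ := exists_short_move hmid hiso g o (N := 2 * n) (by omega)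
  refine ⟨y, ?_⟩
  rw [pow_mul', hgn, one_pow, one_smul, dist_self] at hy
  have h0 : dist y (g • y) * (2 * n : ℕ) = 0 := by
    have := sq_nonneg (dist y (g • y) * (2 * n : ℕ))
    exact pow_eq_zero_iff (two_ne_zero) |>.1 (by linarith)
  rcases mul_eq_zero.1 h0 with h | h
  · exact (dist_eq_zero.1 h).symm
  · exact absurd (Nat.cast_eq_zero.1 h) (by omega)

omit hmid [CompleteSpace Y] in
lemma orbit_le (g : G) (z : Y) : ∀ n : ℕ, dist z (g ^ n • z) ≤ n * dist z (g • z) := by
  intro n
  induction n with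
  | zero => simp
  | succ n ih =>
    refine (dist_triangle z (g ^ n • z) (g ^ (n + 1) • z)).trans ?_
    rw [pow_succ, mul_smul, hiso]
    push_cast
    linarith

/-- The ℓ¹-Bass conjecture holds for groups acting properly and coboundedly on complete CAT(0)
spaces. -/
theorem satisfiesL1Bass_of_hadamard (o : Y) (hproper : ∀ R : ℝ, {g : G | dist o (g • o) ≤ R}.Finite)
    (hcobdd : ∃ D : ℝ, ∀ y, ∃ g : G, dist y (g • o) ≤ D) : SatisfiesL1Bass G := by
  classical
  obtain ⟨D, hD⟩ := hcobdd
  have hmove : ∀ (g : G) (y : Y), ∃ h : G, dist o ((h⁻¹ * g * h) • o) ≤ 2 * D + dist y (g • y) ∧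
      dist o (h⁻¹ • y) ≤ D := by
    intro g y
    obtain ⟨h, hh⟩ := hD y
    refine ⟨h, ?_, by rwa [← hiso h, smul_inv_smul, dist_comm]⟩
    rw [← hiso h, mul_assoc, mul_smul, smul_inv_smul, mul_smul]
    have := dist_triangle4 (h • o) y (g • y) (g • (h • o))
    rw [hiso, dist_comm (h • o) y] at this
    linarith
  intro q e he
  refine bassConclusion_of_finite ?_ fun g hg => ?_
  · refine ((hproper (2 * D)).image ConjClasses.mk).subset ?_
    rintro C ⟨g, rfl, hg⟩
    obtain ⟨y, hy⟩ := exists_fixed hmid hiso g o hg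
    obtain ⟨h, hh, -⟩ := hmove g y
    rw [hy, dist_self, add_zero] at hh
    exact ⟨h⁻¹ * g * h, hh, ConjClasses.mk_eq_mk_iff_isConj.2 <|
      isConj_iff.2 ⟨h, by group⟩⟩
  -- positive minimal displacement
  have hpos : ∃ δ : ℝ, 0 < δ ∧ ∀ y : Y, δ ≤ dist y (g • y) := by
    by_contra hno
    simp only [not_exists, not_and, not_forall, not_le] at hno
    choose y hy using fun n : ℕ => hno (1 / ((n : ℝ) + 1)) (by positivity)
    choose h hh hh' using fun n => hmove g (y n)
    have hfin : {k : G | dist o (k • o) ≤ 2 * D + 1}.Finite := hproper _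
    have hmem : ∀ n, (h n)⁻¹ * g * h n ∈ {k : G | dist o (k • o) ≤ 2 * D + 1} := fun n =>
      (hh n).trans <| by
        have : 1 / ((n : ℝ) + 1) ≤ 1 := by
          rw [div_le_one (by positivity)]; linarith [Nat.cast_nonneg (α := ℝ) n]
        linarith [hy n]
    have := hfin.to_subtype
    obtain ⟨⟨k, hk⟩, hinf⟩ := Finite.exists_infinite_fiber
      fun n => (⟨_, hmem n⟩ : {k : G | dist o (k • o) ≤ 2 * D + 1})
    rw [Set.infinite_coe_iff] at hinf
    have hbdd : ∀ N : ℕ, dist o (k ^ N • o) ≤ 2 * D := by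
      intro N
      refine le_of_forall_pos_le_add fun ε hε => ?_
      obtain ⟨n₀, hn₀⟩ := exists_nat_one_div_lt (div_pos hε (Nat.cast_add_one_pos (α := ℝ) N))
      obtain ⟨n, hn, hnn⟩ := hinf.exists_gt n₀
      have hkn : (h n)⁻¹ * g * h n = k := congrArg Subtype.val hn
      have hsm : dist ((h n)⁻¹ • y n) (k • ((h n)⁻¹ • y n)) < ε / ((N : ℝ) + 1) := by
        rw [← hkn, mul_smul, mul_smul, smul_inv_smul, hiso]
        refine (hy n).trans (lt_of_le_of_lt ?_ hn₀)
        gcongr
      have h1 := orbit_le hiso k ((h n)⁻¹ • y n) N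
      have h2 := dist_triangle4 o ((h n)⁻¹ • y n) (k ^ N • ((h n)⁻¹ • y n)) (k ^ N • o)
      rw [hiso, dist_comm ((h n)⁻¹ • y n) o] at h2
      have h3 : (N : ℝ) * dist ((h n)⁻¹ • y n) (k • ((h n)⁻¹ • y n)) ≤ ε := by
        rw [lt_div_iff₀ (Nat.cast_add_one_pos (α := ℝ) N)] at hsm
        nlinarith [dist_nonneg (x := (h n)⁻¹ • y n) (y := k • ((h n)⁻¹ • y n))]
      linarith [hh' n]
    refine hg ?_
    have hkfin : IsOfFinOrder k := by
      refine finite_powers.1 ?_
      exact (hproper (2 * D)).subset (by rintro _ ⟨N, rfl⟩; exact hbdd N)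
    obtain ⟨n, hn⟩ := hinf.nonempty
    have hkn : (h n)⁻¹ * g * h n = k := congrArg Subtype.val hn
    have hfo := (MulAut.conj (h n)).toMonoidHom.isOfFinOrder hkfin
    rw [← hkn] at hfo
    convert hfo using 1
    simp only [MulEquiv.coe_toMonoidHom, MulAut.conj_apply]
    group
  obtain ⟨δ, hδ, hδy⟩ := hpos
  have hgrow : ∀ N : ℕ, δ / 3 * N ≤ dist o (g ^ N • o) := by
    intro N
    match N with
    | 0 => simp
    | 1 => simp only [Nat.cast_one, mul_one, pow_one]; linarith [hδy o]
    | N + 2 =>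
      obtain ⟨y, hy⟩ := exists_short_move hmid hiso g o (N := N + 2) (by omega)
      have h1 := mul_le_mul_of_nonneg_right (hδy y) (Nat.cast_nonneg (α := ℝ) (N + 2))
      have h2 : (δ * (N + 2 : ℕ)) ^ 2 ≤ (3 * dist o (g ^ (N + 2) • o)) ^ 2 := by
        have := pow_le_pow_left₀ (mul_nonneg hδ.le (Nat.cast_nonneg _)) h1 2
        nlinarith
      have h3 := (abs_le_of_sq_le_sq' h2 (by positivity)).2
      linarith
  refine hsTrace_eq_zero_of_global he g (hasPotential_of_action_const (κ := 5) (by norm_num)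
    hiso (fun a b c d => ?_) g o (div_pos hδ three_pos) hgrow)
  exact quadDefect_le hmid a b c d

end Hadamard

end Vale.Agent.P184
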