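import Vale.Agent.P184.GroupAlgebra

/-!
The ℓ¹-Bass conjecture passes to groups all of whose finite partial multiplication tables lift
to groups satisfying it.
-/

namespace Vale.Agent.P184

open Filter Topology MonoidAlgebra

universe u

/-- Every finite partial multiplication table of G lifts, compatibly with a homomorphism onto G,
to a group with the property P. -/
def IsLimitOf (P : ∀ (G' : Type u) [Group G'], Prop) (G : Type u) [Group G] : Prop :=
  ∀ S : Finset G, ∃ (G' : Type u) (_ : Group G'), P G' ∧ ∃ (π : G' →* G) (σ : G → G'),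
    (∀ x ∈ S, π (σ x) = x) ∧ ∀ x ∈ S, ∀ y ∈ S, x * y ∈ S → σ x * σ y = σ (x * y)

section

variable {G G' : Type u} [Group G] [Group G'] {q : ℕ}

lemma l1Size_mapDomain_le (σ : G → G') (x : MonoidAlgebra ℂ G) :
    l1Size (MonoidAlgebra.mapDomain σ x) ≤ l1Size x := by
  classical
  have e : MonoidAlgebra.mapDomain σ x =
      ∑ g ∈ x.coeff.support, MonoidAlgebra.single (σ g) (x.coeff g) := by
    conv_lhs => rw [← MonoidAlgebra.sum_coeff_single x, MonoidAlgebra.mapDomain_sum]
    simp [Finsupp.sum]
  rw [e]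
  refine (size_sum_le l1Size (by simp [l1Size]) l1Size_add_le _ _).trans (le_of_eq ?_)
  simp only [l1Size_single]
  rfl

lemma mapDomain_finsetSum {ι : Type*} (σ : G → G') (s : Finset ι) (f : ι → MonoidAlgebra ℂ G) :
    MonoidAlgebra.mapDomain σ (∑ i ∈ s, f i) = ∑ i ∈ s, MonoidAlgebra.mapDomain σ (f i) := by
  classical
  induction s using Finset.induction_on with
  | empty => simp
  | insert a s ha ih => rw [Finset.sum_insert ha, Finset.sum_insert ha, mapDomain_add, ih]

/-- The image of a matrix over the group ring under a map of the groups. -/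
noncomputable def mapMat (σ : G → G') (A : Mat G q) : Mat G' q :=
  A.map (MonoidAlgebra.mapDomain σ)

lemma matSize_mapMat_le (σ : G → G') (A : Mat G q) : matSize (mapMat σ A) ≤ matSize A :=
  Finset.sum_le_sum fun i _ => Finset.sum_le_sum fun j _ => l1Size_mapDomain_le σ (A i j)

lemma norm_coeff_le (x : MonoidAlgebra ℂ G) (g : G) : ‖x.coeff g‖ ≤ l1Size x := by
  classical
  rw [l1Size_eq x (s := insert g x.coeff.support) (Finset.subset_insert _ _)]
  exact Finset.single_le_sum (f := fun g => ‖x.coeff g‖) (fun _ _ => norm_nonneg _)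
    (Finset.mem_insert_self _ _)

lemma l1Size_le_matSize (A : Mat G q) (i j : Fin q) : l1Size (A i j) ≤ matSize A :=
  (Finset.single_le_sum (f := fun j => l1Size (A i j)) (fun j _ => l1Size_nonneg _)
      (Finset.mem_univ j)).trans
    (Finset.single_le_sum (f := fun i => ∑ j, l1Size (A i j))
      (fun i _ => Finset.sum_nonneg fun j _ => l1Size_nonneg _) (Finset.mem_univ i))

/-- A Cauchy almost idempotent sequence in the group ring converges to an idempotent over ℓ¹. -/
theorem exists_limit (a : ℕ → Mat G q)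
    (hdef : Tendsto (fun n => matSize (a n * a n - a n)) atTop (𝓝 0))
    (hcau : ∀ ε > 0, ∃ m, ∀ n ≥ m, matSize (a n - a m) ≤ ε) :
    ∃ e : Fin q → Fin q → G → ℂ, IsIdempotentMatrix e ∧
      ∀ C, Tendsto (fun n => ((classRing C).matrix q).T (a n)) atTop (𝓝 (hsTrace e C)) := by
  classical
  have hN : ∀ A B : Mat G q, matSize (A - B) ≤ matSize A + matSize B := (baseRing G q).sub_le
  have hNa : ∀ A B : Mat G q, matSize (A + B) ≤ matSize A + matSize B := (baseRing G q).add_le
  have hc : ∀ i j g, ∃ z, Tendsto (fun n => (a n i j).coeff g) atTop (𝓝 z) := fun i j g => by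
    refine cauchySeq_tendsto_of_complete (Metric.cauchySeq_iff'.2 fun ε hε => ?_)
    obtain ⟨m, hm⟩ := hcau (ε / 2) (by positivity)
    refine ⟨m, fun n hn => ?_⟩
    rw [dist_eq_norm, ← Finsupp.sub_apply, ← MonoidAlgebra.coeff_sub]
    refine lt_of_le_of_lt ((norm_coeff_le _ _).trans ?_) (half_lt_self hε)
    exact (l1Size_le_matSize (a n - a m) i j).trans (hm n hn)
  choose e he using hc
  obtain ⟨m₀, hm₀⟩ := hcau 1 one_pos
  have hpair : ∀ ε > 0, ∃ m, ∀ n ≥ m, ∀ n' ≥ m, matSize (a n' - a n) ≤ ε := fun ε hε => by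
    obtain ⟨m, hm⟩ := hcau (ε / 2) (by positivity)
    refine ⟨m, fun n hn n' hn' => ?_⟩
    have h := hN (a n' - a m) (a n - a m)
    rw [sub_sub_sub_cancel_right] at h
    linarith [hm n hn, hm n' hn']
  have hdist : ∀ ε > 0, ∃ m, ∀ n ≥ m, ∀ i j, ∀ s : Finset G,
      ∑ g ∈ s, ‖e i j g - (a n i j).coeff g‖ ≤ ε := fun ε hε => by
    obtain ⟨m, hm⟩ := hpair ε hε
    refine ⟨m, fun n hn i j s => ?_⟩
    refine le_of_tendsto (tendsto_finsetSum s fun g _ => ((he i j g).sub_const _).norm) ?_
    filter_upwards [eventually_ge_atTop m] with n' hn'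
    refine le_trans ?_ ((l1Size_le_matSize (a n' - a n) i j).trans (hm n hn n' hn'))
    rw [l1Size_eq ((a n' - a n) i j) (s := s ∪ ((a n' - a n) i j).coeff.support)
      Finset.subset_union_right]
    refine le_trans (le_of_eq ?_) (Finset.sum_le_sum_of_subset_of_nonneg Finset.subset_union_left
      fun _ _ _ => norm_nonneg _)
    exact Finset.sum_congr rfl fun g _ => by
      rw [Matrix.sub_apply, MonoidAlgebra.coeff_sub, Finsupp.sub_apply]
  have hsum : ∀ i j, Summable fun g => ‖e i j g‖ := fun i j => by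
    obtain ⟨m, hm⟩ := hdist 1 one_pos
    refine summable_of_sum_le (c := 1 + matSize (a m)) (fun g => norm_nonneg _) fun s => ?_
    calc ∑ g ∈ s, ‖e i j g‖ ≤ ∑ g ∈ s, (‖e i j g - (a m i j).coeff g‖ + ‖(a m i j).coeff g‖) :=
          Finset.sum_le_sum fun g _ => norm_le_norm_sub_add _ _
      _ ≤ 1 + matSize (a m) := by
          rw [Finset.sum_add_distrib]
          refine add_le_add (hm m le_rfl i j s) (le_trans ?_ (l1Size_le_matSize (a m) i j))
          rw [l1Size_eq (a m i j) (s := s ∪ (a m i j).coeff.support) Finset.subset_union_right]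
          exact Finset.sum_le_sum_of_subset_of_nonneg Finset.subset_union_left
            fun _ _ _ => norm_nonneg _
  have hf : ∀ n i j, Summable fun g => ‖(a n i j).coeff g‖ := fun n i j =>
    summable_of_ne_finset_zero (s := (a n i j).coeff.support) fun g hg => by
      rw [Finsupp.notMem_support_iff.1 hg, norm_zero]
  have hd : ∀ n i j, Summable fun g => ‖e i j g - (a n i j).coeff g‖ := fun n i j =>
    Summable.of_nonneg_of_le (fun g => norm_nonneg _) (fun g => norm_sub_le _ _)
      ((hsum i j).add (hf n i j))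
  have hd0 : ∀ i j, Tendsto (fun n => ∑' g, ‖e i j g - (a n i j).coeff g‖) atTop (𝓝 0) := by
    intro i j
    rw [Metric.tendsto_atTop]
    intro ε hε
    obtain ⟨m, hm⟩ := hdist (ε / 2) (by positivity)
    refine ⟨m, fun n hn => ?_⟩
    rw [dist_zero_right, Real.norm_eq_abs, abs_of_nonneg (tsum_nonneg fun g => norm_nonneg _)]
    exact lt_of_le_of_lt (Real.tsum_le_of_sum_le (fun g => norm_nonneg _) (hm n hn i j))
      (half_lt_self hε)
  refine ⟨e, ⟨hsum, fun i k g => ?_⟩, fun C => ?_⟩
  · have hconv : ∀ j, Tendsto (fun n => ∑' h, (a n i j).coeff h * (a n j k).coeff (h⁻¹ * g))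
        atTop (𝓝 (∑' h, e i j h * e j k (h⁻¹ * g))) := by
      intro j
      rw [tendsto_iff_norm_sub_tendsto_zero]
      have hbd : ∀ᶠ n in atTop, matSize (a n) ≤ matSize (a m₀) + 1 := by
        filter_upwards [eventually_ge_atTop m₀] with n hn
        have h := hNa (a n - a m₀) (a m₀)
        rw [sub_add_cancel] at h
        linarith [hm₀ n hn]
      set L := ∑' h, ‖e j k h‖
      set M := matSize (a m₀) + 1
      have hlim : Tendsto (fun n => (∑' h, ‖e i j h - (a n i j).coeff h‖) * L +
          M * ∑' h, ‖e j k h - (a n j k).coeff h‖) atTop (𝓝 0) := by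
        simpa using ((hd0 i j).mul_const L).add ((hd0 j k).const_mul M)
      refine squeeze_zero' (Eventually.of_forall fun n => norm_nonneg _) ?_ hlim
      filter_upwards [hbd] with n hn
      have h1 := sum_conv_le (hd n i j) (hsum j k) (fun _ => norm_nonneg _)
        (fun _ => norm_nonneg _) {g}
      have h2 := sum_conv_le (hf n i j) (hd n j k) (fun _ => norm_nonneg _)
        (fun _ => norm_nonneg _) {g}
      have hA : Summable fun h => (a n i j).coeff h * (a n j k).coeff (h⁻¹ * g) :=
        summable_of_ne_finset_zero (s := (a n i j).coeff.support) fun h hh => by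
          rw [Finsupp.notMem_support_iff.1 hh, zero_mul]
      have hE : Summable fun h => e i j h * e j k (h⁻¹ * g) := by
        refine Summable.of_norm ?_
        simp only [norm_mul]
        exact (sum_conv_le (hsum i j) (hsum j k) (fun _ => norm_nonneg _)
          (fun _ => norm_nonneg _) {g}).1 g
      rw [← hA.tsum_sub hE]
      refine le_trans (tsum_of_norm_bounded ((h1.1 g).add (h2.1 g)).hasSum fun h => ?_) ?_
      · have e1 : (a n i j).coeff h * (a n j k).coeff (h⁻¹ * g) - e i j h * e j k (h⁻¹ * g) =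
            -((e i j h - (a n i j).coeff h) * e j k (h⁻¹ * g) +
              (a n i j).coeff h * (e j k (h⁻¹ * g) - (a n j k).coeff (h⁻¹ * g))) := by ring
        rw [e1, norm_neg]
        exact (norm_add_le _ _).trans (by rw [norm_mul, norm_mul])
      · rw [(h1.1 g).tsum_add (h2.1 g)]
        have b1 := h1.2
        have b2 := h2.2
        rw [Finset.sum_singleton] at b1 b2
        refine add_le_add b1 (b2.trans (mul_le_mul_of_nonneg_right ?_
          (tsum_nonneg fun _ => norm_nonneg _)))
        refine le_trans ?_ hn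
        refine le_trans ?_ (l1Size_le_matSize (a n) i j)
        rw [tsum_eq_sum (s := (a n i j).coeff.support) fun h hh => by
          rw [Finsupp.notMem_support_iff.1 hh, norm_zero], ← l1Size_eq _ (Finset.Subset.refl _)]
    refine tendsto_nhds_unique (tendsto_finsetSum _ fun j _ => hconv j) ?_
    have h0 : Tendsto (fun n => ((a n * a n - a n) i k).coeff g) atTop (𝓝 0) :=
      squeeze_zero_norm (fun n => (norm_coeff_le _ _).trans (l1Size_le_matSize _ i k)) hdef
    have h1 := h0.add (he i k g)
    rw [zero_add] at h1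
    refine h1.congr fun n => ?_
    simp only [Matrix.sub_apply, MonoidAlgebra.coeff_sub, Finsupp.sub_apply, sub_add_cancel,
      Matrix.mul_apply, MonoidAlgebra.coeff_sum, Finsupp.finsetSum_apply, coeff_mul_tsum]
  · rw [tendsto_iff_norm_sub_tendsto_zero]
    refine squeeze_zero (fun n => norm_nonneg _) (fun n => ?_)
      (g := fun n => ∑ i, ∑' g, ‖e i i g - (a n i i).coeff g‖)
      (by simpa using tendsto_finsetSum _ (fun i (_ : i ∈ Finset.univ) => hd0 i i))
    have hsw : ∀ i ∈ (Finset.univ : Finset (Fin q)), Summable fun g : C.carrier => e i i g :=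
      fun i _ => (Summable.of_norm (hsum i i)).subtype C.carrier
    rw [matRing_T, hsTrace, Summable.tsum_finsetSum hsw, ← Finset.sum_sub_distrib]
    refine (norm_sum_le _ _).trans (Finset.sum_le_sum fun i _ => ?_)
    have e1 : classTrace C (a n i i) = ∑' g : C.carrier, (a n i i).coeff g := by
      rw [classTrace_apply, tsum_subtype C.carrier (fun g => (a n i i).coeff g),
        tsum_eq_sum (f := C.carrier.indicator fun g => (a n i i).coeff g)
          (s := (a n i i).coeff.support) fun g hg => by
            rw [Set.indicator_apply, Finsupp.notMem_support_iff.1 hg, ite_self]]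
      refine Finset.sum_congr rfl fun g _ => ?_
      rw [Set.indicator_apply]
      exact if_congr ConjClasses.mem_carrier_iff_mk_eq.symm rfl rfl
    have hs : Summable fun g : C.carrier => (a n i i).coeff g :=
      (Summable.of_norm (hf n i i)).subtype C.carrier
    have hs' : Summable fun g : C.carrier => ‖(a n i i).coeff g - e i i g‖ := by
      have h := (hd n i i).subtype C.carrier
      exact h.congr fun g => norm_sub_rev _ _
    rw [e1, ← hs.tsum_sub (hsw i (Finset.mem_univ i))]
    refine (norm_tsum_le_tsum_norm hs').trans ?_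
    refine le_trans (le_of_eq (tsum_congr fun g : C.carrier => norm_sub_rev _ _)) ?_
    exact Summable.tsum_subtype_le (fun g => ‖e i i g - (a n i i).coeff g‖) C.carrier
      (fun g => norm_nonneg _) (hd n i i)

/-- Pushing the trace forward along a homomorphism. -/
theorem tendsto_push {e : Fin q → Fin q → G' → ℂ} {a : ℕ → Mat G' q} (π : G' →* G)
    (hconv : ∀ C, Tendsto (fun n => ((classRing C).matrix q).T (a n)) atTop (𝓝 (hsTrace e C)))
    (hcau : ∀ ε > 0, ∃ m, ∀ n ≥ m, matSize (a n - a m) ≤ ε)
    (C : ConjClasses G) (h0 : ∀ g', ConjClasses.mk (π g') = C → hsTrace e (ConjClasses.mk g') = 0) :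
    Tendsto (fun n => ((classRing C).matrix q).T (mapMat π (a n))) atTop (𝓝 0) := by
  classical
  rw [Metric.tendsto_nhds]
  intro ε hε
  obtain ⟨m, hm⟩ := hcau (ε / 3) (by positivity)
  set Y : Finset (ConjClasses G') :=
    (((Finset.univ : Finset (Fin q × Fin q)).biUnion
      fun p => (a m p.1 p.2).coeff.support).image ConjClasses.mk).filter
        (fun Z => ∃ g', ConjClasses.mk g' = Z ∧ ConjClasses.mk (π g') = C) with hY
  have hY0 : Tendsto (fun n => ∑ Z ∈ Y, ((classRing Z).matrix q).T (a n)) atTop (𝓝 0) := by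
    have h := tendsto_finsetSum Y fun Z (_ : Z ∈ Y) => hconv Z
    have hz : ∑ Z ∈ Y, hsTrace e Z = 0 := Finset.sum_eq_zero fun Z hZ => by
      obtain ⟨g', rfl, hg'⟩ := (Finset.mem_filter.1 hZ).2
      exact h0 g' hg'
    rwa [hz] at h
  filter_upwards [(Metric.tendsto_nhds.1 hY0) (ε / 3) (by positivity), eventually_ge_atTop m]
    with n hn hnm
  rw [dist_zero_right] at hn ⊢
  have hdiff : ‖((classRing C).matrix q).T (mapMat π (a n)) -
      ∑ Z ∈ Y, ((classRing Z).matrix q).T (a n)‖ ≤ ε / 3 := by
    simp only [matRing_T]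
    rw [Finset.sum_comm (s := Y), ← Finset.sum_sub_distrib]
    refine (norm_sum_le _ _).trans (le_trans ?_ (hm n hnm))
    refine Finset.sum_le_sum fun i _ => le_trans ?_
      (Finset.single_le_sum (f := fun j => l1Size ((a n - a m) i j))
        (fun j _ => l1Size_nonneg _) (Finset.mem_univ i))
    set x := a n i i
    set y := a m i i
    set w : G' → ℂ := fun g =>
      if ConjClasses.mk (π g) = C ∧ ConjClasses.mk g ∉ Y then x.coeff g else 0 with hw
    have hwn : ∀ g, ‖w g‖ ≤ ‖(x - y).coeff g‖ := by
      intro g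
      simp only [hw]
      split_ifs with hg
      · have : y.coeff g = 0 := Finsupp.notMem_support_iff.1 fun h' => hg.2
          (Finset.mem_filter.2 ⟨Finset.mem_image.2
            ⟨g, Finset.mem_biUnion.2 ⟨(i, i), Finset.mem_univ _, h'⟩, rfl⟩, g, rfl, hg.1⟩)
        simp [MonoidAlgebra.coeff_sub, this]
      · simp
    have hiff : ∀ g ∈ x.coeff.support, (if ConjClasses.mk (π g) = C then x.coeff g else 0) =
        (∑ Z ∈ Y, if ConjClasses.mk g = Z then x.coeff g else 0) + w g := by
      intro g _
      rw [Finset.sum_ite_eq]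
      simp only [hw]
      by_cases h1 : ConjClasses.mk (π g) = C <;> by_cases h2 : ConjClasses.mk g ∈ Y
      · simp [h1, h2]
      · simp [h1, h2]
      · obtain ⟨g', hg', hC'⟩ := (Finset.mem_filter.1 h2).2
        exact absurd ((ConjClasses.mk_eq_mk_iff_isConj.2
          (π.map_isConj (ConjClasses.mk_eq_mk_iff_isConj.1 hg'))).symm.trans hC') h1
      · simp [h1, h2]
    have e1 : classTrace C (mapMat π (a n) i i) =
        (∑ Z ∈ Y, classTrace Z x) + ∑ g ∈ x.coeff.support, w g := by
      have e2 : classTrace C (mapMat π (a n) i i) =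
          x.coeff.sum fun g r => if ConjClasses.mk (π g) = C then r else 0 := by
        rw [classTrace_apply]
        exact Finsupp.sum_mapDomain_index (fun _ => by simp) (fun g r s => by split_ifs <;> simp)
      simp only [e2, classTrace_apply, Finsupp.sum]
      rw [Finset.sum_congr rfl hiff, Finset.sum_add_distrib, Finset.sum_comm]
    rw [e1, add_sub_cancel_left]
    refine (norm_sum_le _ _).trans ((Finset.sum_le_sum fun g _ => hwn g).trans ?_)
    rw [Matrix.sub_apply, l1Size_eq (x - y) (s := x.coeff.support ∪ (x - y).coeff.support)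
      Finset.subset_union_right]
    exact Finset.sum_le_sum_of_subset_of_nonneg Finset.subset_union_left
      fun _ _ _ => norm_nonneg _
  calc ‖((classRing C).matrix q).T (mapMat π (a n))‖
      ≤ ‖((classRing C).matrix q).T (mapMat π (a n)) -
          ∑ Z ∈ Y, ((classRing Z).matrix q).T (a n)‖ +
        ‖∑ Z ∈ Y, ((classRing Z).matrix q).T (a n)‖ := norm_le_norm_sub_add _ _
    _ < ε := by linarith

end

/-- The ℓ¹-Bass conjecture passes to limits. -/
theorem satisfiesL1Bass_of_limit {G : Type u} [Group G]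
    (hG : IsLimitOf (fun G' _ => SatisfiesL1Bass G') G) : SatisfiesL1Bass G := by
  classical
  intro q e he
  set B := baseRing G q
  set M := ∑ i, ∑ j, ∑' g, ‖e i j g‖ with hM
  have ev1 : ∀ᶠ T in atTop, (∑ i, ∑ j, tail e i j T) ≤ 1 / 8 := by
    have : Tendsto (fun T => ∑ i : Fin q, ∑ j : Fin q, tail e i j T) atTop
        (𝓝 (∑ i : Fin q, ∑ j : Fin q, (0 : ℝ))) :=
      tendsto_finsetSum _ fun i _ => tendsto_finsetSum _ fun j _ => tail_tendsto he i j
    simp only [Finset.sum_const_zero] at this
    exact this.eventually_le_const (by norm_num)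
  have ev2 : ∀ᶠ T in atTop, matSize (trunc e T * trunc e T - trunc e T) *
      (4 * matSize (trunc e T * trunc e T - trunc e T) + 3 * B.N 1) ≤ 1 / 4 := by
    have := (defect_tendsto he).mul (((defect_tendsto he).const_mul 4).add_const (3 * B.N 1))
    rw [zero_mul] at this
    exact this.eventually_le_const (by norm_num)
  have ev3 : ∀ᶠ T in atTop,
      2 * (3 + 2 * M) * matSize (trunc e T * trunc e T - trunc e T) ≤ 1 / 8 := by
    have := (defect_tendsto he).const_mul (2 * (3 + 2 * M))
    rw [mul_zero] at this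
    exact this.eventually_le_const (by norm_num)
  obtain ⟨S0, hS1, hS2, hS3⟩ := (ev1.and (ev2.and ev3)).exists
  obtain ⟨G', _, hP, π, σ, hπσ, hσmul⟩ := hG (S0 ∪ Finset.image₂ (fun x y => x * y) S0 S0)
  set a0 := trunc e S0 with ha0
  set b0 := mapMat σ a0 with hb0
  have hbij : ∀ i j, b0 i j = ∑ g ∈ S0, MonoidAlgebra.single (σ g) (e i j g) := fun i j => by
    change MonoidAlgebra.mapDomain σ (a0 i j) = _
    simp [ha0, trunc, mapDomain_finsetSum]
  have hsq : b0 * b0 - b0 = mapMat σ (a0 * a0 - a0) := by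
    refine Matrix.ext fun i k => ?_
    change (b0 * b0) i k - b0 i k = MonoidAlgebra.mapDomain σ ((a0 * a0) i k - a0 i k)
    have e1 : MonoidAlgebra.mapDomain σ ((a0 * a0) i k) = (b0 * b0) i k := by
      simp only [Matrix.mul_apply, mapDomain_finsetSum, hbij, Finset.sum_mul, Finset.mul_sum,
        ha0, trunc, MonoidAlgebra.single_mul_single, mapDomain_single]
      refine Finset.sum_congr rfl fun j _ => Finset.sum_congr rfl fun x hx =>
        Finset.sum_congr rfl fun y hy => ?_
      first
        | rw [hσmul x (Finset.mem_union_left _ hx) y (Finset.mem_union_left _ hy)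
            (Finset.mem_union_right _ (Finset.mem_image₂_of_mem hx hy))]
        | rw [hσmul y (Finset.mem_union_left _ hy) x (Finset.mem_union_left _ hx)
            (Finset.mem_union_right _ (Finset.mem_image₂_of_mem hy hx))]
    have e2 : MonoidAlgebra.mapDomain σ ((a0 * a0) i k - a0 i k) +
        MonoidAlgebra.mapDomain σ (a0 i k) = MonoidAlgebra.mapDomain σ ((a0 * a0) i k) := by
      rw [← mapDomain_add, sub_add_cancel]
    rw [← e1, ← e2]
    exact add_sub_cancel_right _ _
  set B' := baseRing G' q
  have hd : B'.N (b0 * b0 - b0) ≤ matSize (a0 * a0 - a0) := by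
    rw [hsq]; exact matSize_mapMat_le _ _
  have hb0N : B'.N b0 ≤ M := (matSize_mapMat_le σ a0).trans (matSize_trunc_le he S0)
  have hone : B'.N 1 = B.N 1 := by
    change (∑ i, ∑ j, l1Size ((1 : Mat G' q) i j)) = ∑ i, ∑ j, l1Size ((1 : Mat G q) i j)
    refine Finset.sum_congr rfl fun i _ => Finset.sum_congr rfl fun j _ => ?_
    rw [Matrix.one_apply, Matrix.one_apply]
    split_ifs
    · rw [MonoidAlgebra.one_def, MonoidAlgebra.one_def, l1Size_single, l1Size_single]
    · simp [l1Size]
  have hd0 : 0 ≤ B'.N (b0 * b0 - b0) := B'.nonneg _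
  have hN1 : 0 ≤ B.N 1 := B.nonneg _
  obtain ⟨hdef, hnear, hcau⟩ := newton_bounds B' (a := b0) (η := 1 / 8) (by norm_num)
    (by
      rw [hone]
      exact le_trans (mul_le_mul hd (by linarith) (by linarith) (hd0.trans hd)) hS2)
    (by
      refine le_trans (mul_le_mul ?_ hd hd0 ?_) hS3
      · linarith
      · have := B'.nonneg b0
        linarith)
  have hdef0 : Tendsto (fun n => matSize (newtonSeq b0 n * newtonSeq b0 n - newtonSeq b0 n))
      atTop (𝓝 0) := by
    refine squeeze_zero (fun n => B'.nonneg _) hdef ?_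
    simpa using (tendsto_pow_atTop_nhds_zero_of_lt_one (by norm_num : (0 : ℝ) ≤ 1 / 4)
      (by norm_num)).const_mul (B'.N (b0 * b0 - b0))
  have hcau' : ∀ ε > 0, ∃ m, ∀ n ≥ m, matSize (newtonSeq b0 n - newtonSeq b0 m) ≤ ε := by
    intro ε hε
    obtain ⟨m, hm⟩ : ∃ m : ℕ, (1 / 8 : ℝ) * (1 / 4) ^ m ≤ ε := by
      have := (tendsto_pow_atTop_nhds_zero_of_lt_one (by norm_num : (0 : ℝ) ≤ 1 / 4)
        (by norm_num)).const_mul (1 / 8 : ℝ)
      rw [mul_zero] at this
      exact (this.eventually_le_const hε).exists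
    refine ⟨m, fun n hn => ?_⟩
    obtain ⟨k, rfl⟩ := Nat.exists_eq_add_of_le hn
    exact (hcau m k).trans hm
  obtain ⟨e', he', hconv'⟩ := exists_limit _ hdef0 hcau'
  obtain ⟨F, hF, hF0⟩ := hP q e' he'
  let push : ConjClasses G' → ConjClasses G := ConjClasses.map π
  refine ⟨F.image push, fun C hC g hg => ?_, fun C hC => ?_⟩
  · obtain ⟨Z, hZ, rfl⟩ := Finset.mem_image.1 hC
    obtain ⟨x, rfl⟩ := Z.exists_rep
    have hx : IsOfFinOrder (π x) := π.isOfFinOrder (hF _ hZ x rfl)
    have hg' : ConjClasses.mk g = ConjClasses.mk (π x) := hg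
    obtain ⟨s, hs⟩ := isConj_iff.1 (ConjClasses.mk_eq_mk_iff_isConj.1 hg'.symm)
    rw [← hs]
    exact (MulAut.conj s).toMonoidHom.isOfFinOrder hx
  have hzero := tendsto_push π hconv' hcau' C fun g' hg' =>
    hF0 _ fun hmem => hC (Finset.mem_image.2 ⟨_, hmem, hg'⟩)
  set R := (classRing C).matrix q
  set πM : Mat G' q →+* Mat G q := (MonoidAlgebra.mapDomainRingHom ℂ π).mapMatrix with hπM
  have hπeq : ∀ A, mapMat π A = πM A := fun A => rfl
  have hπ0 : mapMat π b0 = a0 := by
    refine Matrix.ext fun i j => ?_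
    change MonoidAlgebra.mapDomain π (b0 i j) = a0 i j
    rw [hbij, mapDomain_finsetSum]
    simp only [mapDomain_single, ha0, trunc]
    exact Finset.sum_congr rfl fun g hg => by rw [hπσ g (Finset.mem_union_left _ hg)]
  set l := (atTop : Filter ℕ) ×ˢ (atTop : Filter (Finset G))
  set P : ℕ × Finset G → Mat G q := fun x => mapMat π (newtonSeq b0 x.1) with hPdef
  set Q : ℕ × Finset G → Mat G q := fun x => trunc e x.2 with hQdef
  have hPb : R.Bdd l P := by
    refine ⟨M + 1 / 8, Eventually.of_forall fun x => ?_⟩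
    refine (matSize_mapMat_le _ _).trans ?_
    have h := B'.add_le b0 (newtonSeq b0 x.1 - b0)
    rw [add_sub_cancel] at h
    have := hnear x.1
    change B'.N (newtonSeq b0 x.1) ≤ _
    linarith
  have hQb : R.Bdd l Q := ⟨M, Eventually.of_forall fun x => matSize_trunc_le he x.2⟩
  have hp : R.Null l (fun x => P x * P x - P x) := by
    refine TracedRing.null_of_le (Eventually.of_forall fun x => ?_)
      (hdef0.comp (tendsto_fst (f := atTop) (g := (atTop : Filter (Finset G)))))
    simp only [hPdef, hπeq, ← map_mul, ← map_sub]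
    exact matSize_mapMat_le π _
  have hq : R.Null l (fun x => Q x * Q x - Q x) :=
    (defect_tendsto he).comp (tendsto_snd (f := (atTop : Filter ℕ)))
  have hD : ∀ᶠ x in l, R.N (P x - Q x) ≤ 1 / 2 := by
    filter_upwards [(tendsto_snd (f := (atTop : Filter ℕ)) (g := atTop)).eventually ev1] with x hx
    have e1 : P x - Q x = mapMat π (newtonSeq b0 x.1 - b0) + (trunc e S0 - trunc e x.2) := by
      simp only [hPdef, hQdef, hπeq, map_sub]
      rw [← hπeq b0, hπ0]
      simp only [ha0]
      abel
    rw [e1]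
    refine (R.add_le _ _).trans ?_
    change matSize _ + matSize _ ≤ _
    have h1 := (matSize_mapMat_le π (newtonSeq b0 x.1 - b0)).trans (hnear x.1)
    have h2 := matSize_trunc_sub he S0 x.2
    simp only [Finset.sum_add_distrib] at h2
    linarith
  have hlim := TracedRing.trace_limit hPb hQb hp hq (by norm_num : (1 / 2 : ℝ) < 1) (by norm_num) hD
  have h2 := hlim.add ((trunc_trace_tendsto he C).comp (tendsto_snd (f := (atTop : Filter ℕ))))
  rw [zero_add] at h2
  have h3 : Tendsto ((fun n => R.T (mapMat π (newtonSeq b0 n))) ∘ Prod.fst) l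
      (𝓝 (hsTrace e C)) := by
    refine Tendsto.congr (fun x => ?_) h2
    simp [hPdef, hQdef, map_sub, R]
  rw [← tendsto_map'_iff, map_fst_prod] at h3
  exact tendsto_nhds_unique h3 hzero

end Vale.Agent.P184
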