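import Vale.Agent.P184.Specialise

/-!
Amenable centralisers of unipotent matrices in small degree, and vanishing at all infinite order
classes of linear groups of degree at most three.
-/

namespace Vale.Agent.P184

open Matrix

universe u v

/-- Upper triangular invertible matrices. -/
def triGroup (n : ℕ) (L : Type v) [Field L] : Subgroup (GL (Fin n) L) where
  carrier := {Y | (Y : Matrix (Fin n) (Fin n) L).IsUpperTriangular}
  one_mem' := by
    simp only [Set.mem_ofPred_eq, Units.val_one]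
    exact blockTriangular_one
  mul_mem' := fun {a b} ha hb => by
    simp only [Set.mem_ofPred_eq, Units.val_mul] at ha hb ⊢
    exact ha.mul hb
  inv_mem' := fun {a} ha => by
    simp only [Set.mem_ofPred_eq] at ha ⊢
    let := a.invertible
    rw [coe_units_inv]
    exact blockTriangular_inv_of_blockTriangular ha

lemma triGroup_mem_apply {n : ℕ} {L : Type v} [Field L] (Y : triGroup n L) {i j : Fin n}
    (h : j < i) : ((Y : GL (Fin n) L) : Matrix (Fin n) (Fin n) L) i j = 0 := Y.2 h

/-- The triangular group of degree three is amenable, being solvable. -/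
theorem isAmenableGroup_tri (L : Type v) [Field L] : IsAmenableGroup (triGroup 3 L) := by
  set M : triGroup 3 L → Matrix (Fin 3) (Fin 3) L := fun Y => ((Y : GL (Fin 3) L) : _)
  have h10 : ∀ Y, M Y 1 0 = 0 := fun Y => triGroup_mem_apply Y (by decide)
  have h20 : ∀ Y, M Y 2 0 = 0 := fun Y => triGroup_mem_apply Y (by decide)
  have h21 : ∀ Y, M Y 2 1 = 0 := fun Y => triGroup_mem_apply Y (by decide)
  have hmul : ∀ Y Z i j, M (Y * Z) i j = ∑ k, M Y i k * M Z k j := fun Y Z i j => by
    simp only [M, Subgroup.coe_mul, Units.val_mul, Matrix.mul_apply]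
  let dd : triGroup 3 L →* (Fin 3 → L) :=
    { toFun := fun Y i => M Y i i
      map_one' := funext fun i => by simp [M]
      map_mul' := fun Y Z => funext fun i => by
        rw [hmul, Fin.sum_univ_three, Pi.mul_apply]
        fin_cases i <;> simp [h10, h20, h21] }
  refine isAmenableGroup_of_ker dd.toHomUnits ?_ (isAmenableGroup_of_comm_hom _
    dd.toHomUnits.range.subtype_injective)
  have hd : ∀ (Y : dd.toHomUnits.ker) i, M Y i i = 1 := fun Y i => by
    have h := congrArg Units.val Y.2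
    exact congrFun h i
  let sup : dd.toHomUnits.ker →* Multiplicative (L × L) :=
    { toFun := fun Y => Multiplicative.ofAdd (M Y 0 1, M Y 1 2)
      map_one' := by simp [M]
      map_mul' := fun Y Z => by
        rw [← ofAdd_add]
        simp only [Subgroup.coe_mul, hmul, Fin.sum_univ_three, hd, h10, h20, h21,
          Prod.mk_add_mk, mul_zero, zero_mul, one_mul, mul_one, add_zero, zero_add]
        rw [add_comm (M Z 0 1), add_comm (M Z 1 2)] }
  refine isAmenableGroup_of_ker sup ?_ (isAmenableGroup_of_comm_hom _ sup.range.subtype_injective)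
  refine isAmenableGroup_of_comm fun Y Z => Subtype.ext (Subtype.ext (Subtype.ext (Units.ext ?_)))
  have h01 : ∀ W : sup.ker, M W 0 1 = 0 ∧ M W 1 2 = 0 := fun W => by
    have h := congrArg Multiplicative.toAdd W.2
    exact ⟨congrArg Prod.fst h, congrArg Prod.snd h⟩
  ext i j
  change M ((Y : dd.toHomUnits.ker) * (Z : dd.toHomUnits.ker) : dd.toHomUnits.ker) i j =
    M ((Z : dd.toHomUnits.ker) * (Y : dd.toHomUnits.ker) : dd.toHomUnits.ker) i j
  simp only [Subgroup.coe_mul, hmul, Fin.sum_univ_three]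
  fin_cases i <;> fin_cases j <;>
    simp [hd, h10, h20, h21, (h01 Y).1, (h01 Y).2, (h01 Z).1, (h01 Z).2, add_comm]

/-- A subgroup conjugate into an amenable one is amenable. -/
theorem isAmenableGroup_of_conj {G : Type v} [Group G] (S T : Subgroup G) (P : G)
    (h : ∀ Y ∈ S, P⁻¹ * Y * P ∈ T) (hT : IsAmenableGroup T) : IsAmenableGroup S := by
  let f : S →* T := ((MulAut.conj P⁻¹).toMonoidHom.comp S.subtype).codRestrict T fun Y => by
    have := h Y Y.2
    simpa [MulAut.conj_apply] using this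
  refine IsAmenableGroup.of_injective f (fun a b hab => Subtype.ext ?_) hT
  exact (MulAut.conj P⁻¹).injective (congrArg Subtype.val hab)

/-- The centraliser of a regular unipotent matrix is commutative. -/
theorem isAmenableGroup_regular {L : Type v} [Field L] {n : ℕ} (hn : 1 ≤ n) (A : GL (Fin n) L)
    (h : ((A : Matrix (Fin n) (Fin n) L) - 1) ^ n = 0)
    (hne : ((A : Matrix (Fin n) (Fin n) L) - 1) ^ (n - 1) ≠ 0) :
    IsAmenableGroup (Subgroup.centralizer ({A} : Set (GL (Fin n) L))) := by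
  classical
  set N := (A : Matrix (Fin n) (Fin n) L) - 1
  obtain ⟨v, hv⟩ : ∃ v, (N ^ (n - 1)) *ᵥ v ≠ 0 := by
    by_contra! hc
    exact hne (Matrix.ext fun i j => by
      have := congrFun (hc (Pi.single j 1)) i
      simpa using this)
  set B : Matrix (Fin n) (Fin n) L := Matrix.of fun k i => ((N ^ (i : ℕ)) *ᵥ v) k with hB
  have hcol : ∀ i, B *ᵥ Pi.single i 1 = (N ^ (i : ℕ)) *ᵥ v := fun i => by
    funext k; simp [hB]
  have hBc : ∀ c : Fin n → L, B *ᵥ c = ∑ i, c i • ((N ^ (i : ℕ)) *ᵥ v) := fun c => by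
    funext k
    simp [hB, Matrix.mulVec, dotProduct, Finset.sum_apply, mul_comm]
  have hBu : IsUnit B := by
    rw [← Matrix.mulVec_injective_iff_isUnit]
    intro a b hab
    by_contra hne'
    set c := a - b
    have hc0 : ∑ i, c i • ((N ^ (i : ℕ)) *ᵥ v) = 0 := by
      rw [← hBc, Matrix.mulVec_sub, sub_eq_zero]
      exact hab
    have hex : ∃ i, c i ≠ 0 := by
      by_contra! hc
      exact hne' (sub_eq_zero.1 (funext hc))
    set S := Finset.univ.filter fun i => c i ≠ 0
    have hS : S.Nonempty := hex.elim fun i hi => ⟨i, Finset.mem_filter.2 ⟨Finset.mem_univ _, hi⟩⟩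
    set i0 := S.min' hS
    have hi0 : c i0 ≠ 0 := (Finset.mem_filter.1 (S.min'_mem hS)).2
    have h1 := congrArg (fun w => (N ^ (n - 1 - (i0 : ℕ))) *ᵥ w) hc0
    simp only [Matrix.mulVec_sum, Matrix.mulVec_smul, Matrix.mulVec_mulVec, ← pow_add,
      Matrix.mulVec_zero] at h1
    rw [Finset.sum_eq_single i0] at h1
    · rw [show n - 1 - (i0 : ℕ) + i0 = n - 1 by omega] at h1
      exact hv ((smul_eq_zero.1 h1).resolve_left hi0)
    · intro i _ hi
      by_cases hci : c i = 0
      · rw [hci, zero_smul]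
      · have hle : (i0 : ℕ) ≤ i := S.min'_le i (Finset.mem_filter.2 ⟨Finset.mem_univ _, hci⟩)
        have hne2 : (i0 : ℕ) ≠ i := fun he => hi (Fin.ext he.symm)
        rw [pow_eq_zero_of_le (by omega) h, Matrix.zero_mulVec, smul_zero]
    · simp
  refine isAmenableGroup_of_comm fun Y Z => Subtype.ext (Units.ext ?_)
  have hpoly : ∀ W : Subgroup.centralizer ({A} : Set (GL (Fin n) L)), ∃ c : Fin n → L,
      ((W : GL (Fin n) L) : Matrix (Fin n) (Fin n) L) = ∑ i, c i • N ^ (i : ℕ) := by
    intro W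
    set Wm := ((W : GL (Fin n) L) : Matrix (Fin n) (Fin n) L)
    have hcom : Commute Wm N := by
      have h1 := congrArg Units.val (Subgroup.mem_centralizer_singleton_iff.1 W.2)
      simp only [Units.val_mul] at h1
      exact Commute.sub_right h1 (Commute.one_right _)
    obtain ⟨c, hc⟩ := Matrix.mulVec_surjective_iff_isUnit.2 hBu (Wm *ᵥ v)
    refine ⟨c, hBu.mul_right_cancel ?_⟩
    set P := ∑ i, c i • N ^ (i : ℕ)
    have hP : P *ᵥ v = Wm *ᵥ v := by
      rw [← hc, hBc, Matrix.sum_mulVec]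
      simp [Matrix.smul_mulVec]
    have hPN : Commute P N := Commute.sum_left _ _ _ fun i _ =>
      ((Commute.refl N).pow_left _).smul_left _
    refine Matrix.ext_of_mulVec_single fun i => ?_
    rw [← Matrix.mulVec_mulVec, ← Matrix.mulVec_mulVec, hcol, Matrix.mulVec_mulVec,
      Matrix.mulVec_mulVec, (hcom.pow_right _).eq, (hPN.pow_right _).eq,
      ← Matrix.mulVec_mulVec, ← Matrix.mulVec_mulVec, hP]
  obtain ⟨c, hc⟩ := hpoly Y
  obtain ⟨c', hc'⟩ := hpoly Z
  simp only [Subgroup.coe_mul, Units.val_mul, hc, hc']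
  exact (Commute.sum_left _ _ _ fun i _ => Commute.sum_right _ _ _ fun j _ =>
    (((Commute.refl N).pow_pow _ _).smul_left _).smul_right _).eq

/-- Centralisers of nontrivial unipotent matrices of degree three are amenable. -/
theorem isAmenableGroup_three {L : Type v} [Field L] (A : GL (Fin 3) L)
    (h : ((A : Matrix (Fin 3) (Fin 3) L) - 1) ^ 3 = 0)
    (hne : ((A : Matrix (Fin 3) (Fin 3) L) - 1) ^ 1 ≠ 0) :
    IsAmenableGroup (Subgroup.centralizer ({A} : Set (GL (Fin 3) L))) := by
  classical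
  by_cases h2 : ((A : Matrix (Fin 3) (Fin 3) L) - 1) ^ 2 = 0
  swap
  · exact isAmenableGroup_regular (by norm_num) A h h2
  rw [pow_one] at hne
  set N := (A : Matrix (Fin 3) (Fin 3) L) - 1
  obtain ⟨w, hw⟩ : ∃ w, N *ᵥ w ≠ 0 := by
    by_contra! hc
    exact hne (Matrix.ext fun i j => by simpa using congrFun (hc (Pi.single j 1)) i)
  set u := N *ᵥ w
  have hNu : N *ᵥ u = 0 := by
    rw [Matrix.mulVec_mulVec, ← sq, h2, Matrix.zero_mulVec]
  set Ker := LinearMap.ker (Matrix.mulVecLin N)
  obtain ⟨e, he, heu⟩ : ∃ e ∈ Ker, e ∉ Submodule.span L {u} := by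
    by_contra! hc
    have h1 : Module.finrank L Ker ≤ 1 :=
      (Submodule.finrank_mono hc).trans_eq (finrank_span_singleton hw)
    have hrange : LinearMap.range (Matrix.mulVecLin N) ≤ Ker := by
      rintro _ ⟨z, rfl⟩
      simp [Ker, Matrix.mulVec_mulVec, ← sq, h2]
    have h4 := LinearMap.finrank_range_add_finrank_ker (Matrix.mulVecLin N)
    have h5 := Submodule.finrank_mono hrange
    rw [Module.finrank_fin_fun] at h4
    change _ + Module.finrank L Ker = 3 at h4
    omega
  have hNe : N *ᵥ e = 0 := by simpa [Ker] using he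
  set col : Fin 3 → Fin 3 → L := ![u, e, w]
  set B : Matrix (Fin 3) (Fin 3) L := Matrix.of fun k i => col i k
  have hBc : ∀ c : Fin 3 → L, B *ᵥ c = c 0 • u + c 1 • e + c 2 • w := fun c => by
    funext k
    simp [B, col, Matrix.mulVec, dotProduct, Fin.sum_univ_three, mul_comm]
  have hBu : IsUnit B := by
    rw [← Matrix.mulVec_injective_iff_isUnit]
    intro a b hab
    set c := a - b
    have hc : c 0 • u + c 1 • e + c 2 • w = 0 := by
      rw [← hBc, Matrix.mulVec_sub, sub_eq_zero]; exact hab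
    have h3 := congrArg (fun z => N *ᵥ z) hc
    simp only [Matrix.mulVec_add, Matrix.mulVec_smul, hNu, hNe, smul_zero, zero_add,
      Matrix.mulVec_zero] at h3
    have hc2 : c 2 = 0 := (smul_eq_zero.1 h3).resolve_right hw
    rw [hc2, zero_smul, add_zero] at hc
    have hc1 : c 1 = 0 := by
      by_contra hne1
      refine heu (Submodule.mem_span_singleton.2 ⟨-(c 0) / c 1, ?_⟩)
      rw [div_eq_inv_mul, mul_smul, neg_smul, neg_eq_of_add_eq_zero_right hc,
        inv_smul_smul₀ hne1]
    rw [hc1, zero_smul, add_zero] at hc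
    have hc0 : c 0 = 0 := (smul_eq_zero.1 hc).resolve_right hw
    funext i
    refine sub_eq_zero.1 ?_
    change c i = 0
    fin_cases i <;> assumption
  set P : GL (Fin 3) L := hBu.unit
  set J : Matrix (Fin 3) (Fin 3) L := Matrix.of fun i j => if i = 0 ∧ j = 2 then 1 else 0
  have hNP : N * B = B * J := by
    ext k i
    fin_cases i
    · have := congrFun hNu k
      simpa [B, col, J, Matrix.mul_apply, Matrix.mulVec, dotProduct, Fin.sum_univ_three] using this
    · have := congrFun hNe k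
      simpa [B, col, J, Matrix.mul_apply, Matrix.mulVec, dotProduct, Fin.sum_univ_three] using this
    · simp [B, col, J, u, Matrix.mul_apply, Matrix.mulVec, dotProduct, Fin.sum_univ_three]
  refine isAmenableGroup_of_conj _ (triGroup 3 L) P (fun Y hY => ?_) (isAmenableGroup_tri L)
  set Z : Matrix (Fin 3) (Fin 3) L := Units.val (P⁻¹ * Y * P) with hZ
  have hYN : Commute (Y : Matrix (Fin 3) (Fin 3) L) N := by
    have h1 := congrArg Units.val (Subgroup.mem_centralizer_singleton_iff.1 hY)
    simp only [Units.val_mul] at h1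
    exact Commute.sub_right h1 (Commute.one_right _)
  have hZJ : Z * J = J * Z := by
    set Bi := ((P⁻¹ : GL (Fin 3) L) : Matrix (Fin 3) (Fin 3) L)
    have e1 : Z = Bi * (Y : Matrix (Fin 3) (Fin 3) L) * B := by
      simp [Z, Bi, P, IsUnit.unit_spec]
    have e2 : Bi * B = 1 := IsUnit.val_inv_mul hBu
    have e3 : J * Bi = Bi * N := by
      have e4 : B * Bi = 1 := IsUnit.mul_val_inv hBu
      calc J * Bi = Bi * B * J * Bi := by rw [e2, Matrix.one_mul]
        _ = Bi * (N * B) * Bi := by rw [hNP, Matrix.mul_assoc Bi B J]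
        _ = Bi * N := by rw [Matrix.mul_assoc, Matrix.mul_assoc N, e4, Matrix.mul_one]
    calc Z * J = Bi * (Y : Matrix (Fin 3) (Fin 3) L) * (B * J) := by rw [e1, Matrix.mul_assoc]
      _ = Bi * ((Y : Matrix (Fin 3) (Fin 3) L) * N) * B := by
          rw [← hNP]; simp only [Matrix.mul_assoc]
      _ = Bi * N * ((Y : Matrix (Fin 3) (Fin 3) L) * B) := by
          rw [hYN.eq]; simp only [Matrix.mul_assoc]
      _ = J * Z := by rw [← e3, e1]; simp only [Matrix.mul_assoc]
  change Z.IsUpperTriangular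
  intro i j (hij : j < i)
  have a1 := congrFun (congrFun hZJ 1) 2
  have a2 := congrFun (congrFun hZJ 2) 2
  have a3 := congrFun (congrFun hZJ 0) 1
  simp [J, Matrix.mul_apply, Fin.sum_univ_three] at a1 a2 a3
  fin_cases i <;> fin_cases j <;> simp_all

/-- Vanishing at elements with a regular unipotent power, in any degree. -/
theorem hsTrace_eq_zero_regular {G : Type u} [Group G] {K : Type v} [Field K] [CharZero K]
    {n : ℕ} (hn : 2 ≤ n) (ρ : G →* GL (Fin n) K) (g : G) (m : ℕ)
    (h : ((ρ g : Matrix (Fin n) (Fin n) K) ^ m - 1) ^ n = 0)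
    (hne : ((ρ g : Matrix (Fin n) (Fin n) K) ^ m - 1) ^ (n - 1) ≠ 0)
    {q : ℕ} {e : Fin q → Fin q → G → ℂ} (he : IsIdempotentMatrix e) :
    hsTrace e (ConjClasses.mk g) = 0 := by
  have : NeZero n := ⟨by omega⟩
  refine hsTrace_eq_zero_of_images he _ fun H hH x hx => Or.inr ?_
  obtain ⟨s, hs⟩ := isConj_iff.1 (ConjClasses.mk_eq_mk_iff_isConj.1 hx.symm)
  set ρ' : H →* Matrix (Fin n) (Fin n) K := ((Units.coeHom _).comp ρ).comp H.subtype
  have hx' : ∀ j, (ρ' x ^ m - 1) ^ j = (ρ s : Matrix (Fin n) (Fin n) K) *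
      ((ρ g : Matrix (Fin n) (Fin n) K) ^ m - 1) ^ j *
        (((ρ s)⁻¹ : GL (Fin n) K) : Matrix (Fin n) (Fin n) K) := by
    intro j
    have e1 : ρ' x = (ρ s : Matrix (Fin n) (Fin n) K) * (ρ g : Matrix (Fin n) (Fin n) K) *
        (((ρ s)⁻¹ : GL (Fin n) K) : Matrix (Fin n) (Fin n) K) := by
      change ((ρ (x : G)) : Matrix (Fin n) (Fin n) K) = _
      rw [← hs, map_mul, map_mul, map_inv, Units.val_mul, Units.val_mul]
    rw [e1, Units.conj_pow, ← Units.conj_pow (ρ s) (((ρ g : Matrix (Fin n) (Fin n) K) ^ m - 1)) j]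
    congr 1
    rw [Matrix.mul_sub, Matrix.sub_mul, Matrix.mul_one, Units.mul_inv]
  refine hasExactImage_of_unipotent ((Group.fg_iff_subgroup_fg H).2 hH) ρ' x m (n - 1) (by omega)
    (by rw [hx', h, Matrix.mul_zero, Matrix.zero_mul]) ?_
    (fun L _ _ A hA hA' => isAmenableGroup_regular (by omega) A hA hA')
  rw [hx']
  intro h0
  exact hne ((Units.mul_right_eq_zero _).1 ((Units.mul_left_eq_zero _).1 h0))

/-- Faithful linear groups of degree at most three: vanishing at all infinite order classes. -/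
theorem hsTrace_eq_zero_degree_three {G : Type u} [Group G] {K : Type v} [Field K] {n : ℕ}
    (hn : n ≤ 3) (ρ : G →* GL (Fin n) K) (hρ : Function.Injective ρ) (g : G)
    (hg : ¬ IsOfFinOrder g) {q : ℕ} {e : Fin q → Fin q → G → ℂ} (he : IsIdempotentMatrix e) :
    hsTrace e (ConjClasses.mk g) = 0 := by
  obtain ⟨p, hp⟩ := CharP.exists K
  rcases CharP.char_is_prime_or_zero K p with hprime | rfl
  · have := Fact.mk hprime
    exact hsTrace_eq_zero_of_no_unipotent ρ
      (fun g' hg' => isOfFinOrder_of_unipotent_charP p ρ hρ g' hg') g hg he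
  have : CharZero K := CharP.charP_to_charZero K
  by_contra hne
  obtain ⟨m, hm, hm'⟩ := exists_unipotent_power (ρ g : Matrix (Fin n) (Fin n) K) fun a ha => by
    by_contra! hc
    exact hne (hsTrace_eq_zero_linear ρ g a ha hc he)
  have hne1 : (ρ g : Matrix (Fin n) (Fin n) K) ^ m - 1 ≠ 0 := fun h0 =>
    hg (IsOfFinOrder.of_pow (n := m) ((isOfFinOrder_iff_pow_eq_one).2 ⟨1, one_pos, hρ (Units.ext (by
      rw [pow_one, map_pow, map_one, Units.val_pow_eq_pow_val, Units.val_one]
      exact sub_eq_zero.1 h0))⟩) hm.ne')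
  obtain rfl | rfl | rfl | rfl : n = 0 ∨ n = 1 ∨ n = 2 ∨ n = 3 := by omega
  · exact hne1 (Subsingleton.elim _ _)
  · exact hne1 (by simpa using hm')
  · exact hne (hsTrace_eq_zero_regular le_rfl ρ g m hm' (by simpa using hne1) he)
  refine hne (hsTrace_eq_zero_of_images he _ fun H hH x hx => Or.inr ?_)
  set ρ' : H →* Matrix (Fin 3) (Fin 3) K := ((Units.coeHom _).comp ρ).comp H.subtype
  obtain ⟨s, hs⟩ := isConj_iff.1 (ConjClasses.mk_eq_mk_iff_isConj.1 hx.symm)
  have hx' : ρ' x ^ m - 1 = (ρ s : Matrix (Fin 3) (Fin 3) K) *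
      ((ρ g : Matrix (Fin 3) (Fin 3) K) ^ m - 1) *
        (((ρ s)⁻¹ : GL (Fin 3) K) : Matrix (Fin 3) (Fin 3) K) := by
    have e1 : ρ' x = (ρ s : Matrix (Fin 3) (Fin 3) K) * (ρ g : Matrix (Fin 3) (Fin 3) K) *
        (((ρ s)⁻¹ : GL (Fin 3) K) : Matrix (Fin 3) (Fin 3) K) := by
      change ((ρ (x : G)) : Matrix (Fin 3) (Fin 3) K) = _
      rw [← hs, map_mul, map_mul, map_inv, Units.val_mul, Units.val_mul]
    rw [e1, Units.conj_pow, Matrix.mul_sub, Matrix.sub_mul, Matrix.mul_one, Units.mul_inv]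
  refine hasExactImage_of_unipotent ((Group.fg_iff_subgroup_fg H).2 hH) ρ' x m 1 le_rfl
    (by rw [hx', Units.conj_pow, hm', Matrix.mul_zero, Matrix.zero_mul]) ?_
    (fun L _ _ A hA hA' => isAmenableGroup_three A hA hA')
  rw [pow_one, hx']
  intro h0
  exact hne1 ((Units.mul_right_eq_zero _).1 ((Units.mul_left_eq_zero _).1 h0))

end Vale.Agent.P184
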