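import Vale.Agent.P184.GLSpace
import Vale.Agent.P184.Linear
import Vale.Agent.P184.Pullback
import Vale.Agent.P184.Amenable

/-!
S-arithmetic linear groups are exact; finitely generated linear groups in characteristic zero map
onto such groups keeping a chosen unipotent nontrivial.
-/

namespace Vale.Agent.P184

open scoped Matrix.Norms.Operator

universe u v

/-- All prime divisors of the denominator lie in P. -/
def DenIn (P : Finset ℕ) (a : ℚ) : Prop := ∀ p : ℕ, p.Prime → p ∣ a.den → p ∈ P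

lemma finite_denIn_bounded (P : Finset ℕ) (E : ℝ) :
    {a : ℚ | DenIn P a ∧ ‖(a : ℝ)‖ ≤ E ∧
      ∀ p ∈ P, ∀ hp : p.Prime, ‖(@Rat.cast (@Padic p ⟨hp⟩) _ a)‖ ≤ E}.Finite := by
  classical
  obtain ⟨K, hK⟩ := exists_nat_ge E
  set D : ℕ := (∏ p ∈ P.filter Nat.Prime, p) ^ K
  have hD : 0 < D := pow_pos (Finset.prod_pos fun p hp => (Finset.mem_filter.1 hp).2.pos) K
  refine ((Finset.Icc (-((K * D : ℕ) : ℤ)) ((K * D : ℕ) : ℤ)).finite_toSet.image
    fun z : ℤ => (z : ℚ) / D).subset ?_
  rintro a ⟨ha, hreal, hpadic⟩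
  have hden : a.den ∣ D := by
    rw [Nat.dvd_iff_prime_pow_dvd_dvd]
    intro p k hp hdvd
    rcases Nat.eq_zero_or_pos k with rfl | hk
    · simp
    have hpd : p ∣ a.den := (dvd_pow_self p hk.ne').trans hdvd
    have hpP := ha p hp hpd
    have := Fact.mk hp
    have hnum : ‖((a.num : ℤ) : ℚ_[p])‖ = 1 := by
      refine le_antisymm (Padic.norm_int_le_one _) (not_lt.1 fun h => ?_)
      rw [Padic.norm_intCast_lt_one_iff, Int.natCast_dvd] at h
      exact hp.not_dvd_one (a.reduced ▸ Nat.dvd_gcd h hpd)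
    have hdp : ‖((a.den : ℕ) : ℚ_[p])‖ ≤ (p : ℝ) ^ (-(k : ℤ)) := by
      have := (Padic.norm_int_le_pow_iff_dvd (a.den : ℤ) k).2 (by exact_mod_cast hdvd)
      simpa using this
    have h := hpadic p hpP hp
    rw [Rat.cast_def, norm_div, hnum] at h
    have hne : 0 < ‖((a.den : ℕ) : ℚ_[p])‖ := norm_pos_iff.2 (Nat.cast_ne_zero.2 a.den_nz)
    have hpk : (p : ℝ) ^ k ≤ E := by
      refine le_trans ?_ h
      rw [le_div_iff₀ hne]
      refine le_trans (mul_le_mul_of_nonneg_left hdp (by positivity)) ?_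
      rw [zpow_neg, zpow_natCast, mul_inv_cancel₀ (pow_ne_zero _ (Nat.cast_ne_zero.2 hp.ne_zero))]
    have hkK : k ≤ K := by
      have : p ^ k ≤ K := by exact_mod_cast hpk.trans hK
      exact ((Nat.lt_pow_self hp.one_lt).le).trans this
    calc p ^ k ∣ p ^ K := pow_dvd_pow p hkK
      _ ∣ D := pow_dvd_pow_of_dvd (Finset.dvd_prod_of_mem _ (Finset.mem_filter.2 ⟨hpP, hp⟩)) K
  obtain ⟨c, hc⟩ := hden
  have hd0 : (a.den : ℚ) ≠ 0 := Nat.cast_ne_zero.2 a.den_nz
  have heq : ((a.num * c : ℤ) : ℚ) / D = a := by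
    have hc0 : (c : ℚ) ≠ 0 := Nat.cast_ne_zero.2 fun h => hD.ne' (by rw [hc, h, mul_zero])
    conv_rhs => rw [← Rat.num_div_den a]
    rw [hc]; push_cast
    field_simp
  refine ⟨a.num * c, ?_, heq⟩
  have h1 : |((a.num * c : ℤ) : ℝ)| ≤ ((K * D : ℕ) : ℝ) := by
    have h2 : ((a.num * c : ℤ) : ℝ) = (a : ℝ) * D := by
      have h3 := congrArg (fun q : ℚ => (q : ℝ)) heq
      push_cast at h3 ⊢
      rw [← h3, div_mul_cancel₀ _ (Nat.cast_ne_zero.2 hD.ne')]
    rw [h2, abs_mul, Nat.abs_cast]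
    push_cast
    refine mul_le_mul_of_nonneg_right ?_ (Nat.cast_nonneg _)
    rw [← Real.norm_eq_abs]
    exact hreal.trans hK
  rw [Finset.coe_Icc, Set.mem_Icc, ← abs_le]
  exact_mod_cast h1

lemma pi_dist_congr {ι : Type*} [Fintype ι] {X : ι → Type*} [∀ i, PseudoMetricSpace (X i)]
    {a b c d : ∀ i, X i} (h : ∀ i, dist (a i) (b i) = dist (c i) (d i)) : dist a b = dist c d :=
  le_antisymm ((dist_pi_le_iff dist_nonneg).2 fun i => (h i).le.trans (dist_le_pi_dist c d i))
    ((dist_pi_le_iff dist_nonneg).2 fun i => (h i).ge.trans (dist_le_pi_dist a b i))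

/-- A group of invertible rational matrices with denominators supported on a finite set of
primes is exact. -/
theorem isExactGroup_of_rat {H : Type u} [Group H] {N : ℕ} [NeZero N] (ψ : H →* GL (Fin N) ℚ)
    (hψ : Function.Injective ψ) (P : Finset ℕ)
    (hP : ∀ h i j, DenIn P ((ψ h : Matrix (Fin N) (Fin N) ℚ) i j)) : IsExactGroup H := by
  classical
  let ι := {p : ℕ // p ∈ P ∧ p.Prime}
  have : Fintype ι := Fintype.subtype (P.filter Nat.Prime) fun p => Finset.mem_filter
  have : ∀ a : ι, Fact (a.1.Prime) := fun a => ⟨a.2.2⟩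
  let fR : H →* GL (Fin N) ℝ :=
    (Units.map (Rat.castHom ℝ).mapMatrix.toMonoidHom).comp ψ
  let fP : ∀ a : ι, H →* GL (Fin N) ℚ_[a.1] := fun a =>
    (Units.map (Rat.castHom ℚ_[a.1]).mapMatrix.toMonoidHom).comp ψ
  refine isExactGroup_of_flows (X := GLPt N ℝ × ∀ a : ι, GLPt N ℚ_[a.1])
    (fun h => (⟨fR h⟩, fun a => ⟨fP a h⟩)) (fun a b c => ?_) (fun R => ?_)
    (hasBddGeom_prod hasBddGeom_gl (hasBddGeom_pi fun a => hasBddGeom_gl))
    (hasFlows_prod (hasFlows_gl hasScales_real)
      (hasFlows_pi fun a => hasFlows_gl (hasScales_padic a.1)))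
  · rw [Prod.dist_eq, Prod.dist_eq]
    refine congrArg₂ max ?_ (pi_dist_congr fun x => ?_)
    · simp only [map_mul]
      exact glDist_left (fR c) _ _
    · simp only [map_mul]
      exact glDist_left (fP x c) _ _
  set E := Real.exp R
  have hfin := finite_denIn_bounded P E
  refine Set.Finite.of_finite_image ((Set.Finite.pi' fun _ : Fin N => Set.Finite.pi' fun _ : Fin N =>
    hfin).subset ?_) (f := fun h i j => (ψ h : Matrix (Fin N) (Fin N) ℚ) i j) ?_
  · rintro _ ⟨h, hh, rfl⟩ i j
    simp only [Set.mem_ofPred_eq, Prod.dist_eq, max_le_iff] at hh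
    refine ⟨hP h i j, ?_, fun p hp hpp => ?_⟩
    · have h1 := hh.1
      rw [glDist_def, map_one, inv_one, one_mul] at h1
      exact ((entry_le_norm _ i j).trans (norm_le_exp_glSize (fR h))).trans (Real.exp_le_exp.2 h1)
    · have h1 := (dist_le_pi_dist _ _ (⟨p, hp, hpp⟩ : ι)).trans hh.2
      rw [glDist_def, map_one, inv_one, one_mul] at h1
      exact ((entry_le_norm _ i j).trans (norm_le_exp_glSize (fP ⟨p, hp, hpp⟩ h))).trans
        (Real.exp_le_exp.2 h1)
  · intro a _ b _ hab
    exact hψ (Units.ext (Matrix.ext fun i j => congrFun (congrFun hab i) j))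

/-- Finitely generated groups of rational matrices have bounded denominators. -/
theorem exists_denIn {H : Type u} [Group H] (hfg : Group.FG H) {N : ℕ} (ψ : H →* GL (Fin N) ℚ) :
    ∃ P : Finset ℕ, ∀ h i j, DenIn P ((ψ h : Matrix (Fin N) (Fin N) ℚ) i j) := by
  classical
  obtain ⟨S, hS⟩ := hfg.out
  set gens := S ∪ S.image (·⁻¹)
  set P := gens.biUnion fun h => (Finset.univ : Finset (Fin N × Fin N)).biUnion fun p =>
    ((ψ h : Matrix (Fin N) (Fin N) ℚ) p.1 p.2).den.primeFactors
  have hadd : ∀ a b, DenIn P a → DenIn P b → DenIn P (a + b) := fun a b ha hb p hp hd =>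
    ((hp.dvd_mul).1 (hd.trans (Rat.add_den_dvd a b))).elim (ha p hp) (hb p hp)
  have hmul : ∀ a b, DenIn P a → DenIn P b → DenIn P (a * b) := fun a b ha hb p hp hd =>
    ((hp.dvd_mul).1 (hd.trans (Rat.mul_den_dvd a b))).elim (ha p hp) (hb p hp)
  have hint : ∀ z : ℤ, DenIn P (z : ℚ) := fun z p hp hd => by
    rw [Rat.den_intCast] at hd
    exact absurd hd hp.not_dvd_one
  have hgen : ∀ h ∈ gens, ∀ i j, DenIn P ((ψ h : Matrix (Fin N) (Fin N) ℚ) i j) :=
    fun h hh i j p hp hd => Finset.mem_biUnion.2 ⟨h, hh, Finset.mem_biUnion.2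
      ⟨(i, j), Finset.mem_univ _, Nat.mem_primeFactors.2 ⟨hp, hd, Rat.den_nz _⟩⟩⟩
  refine ⟨P, fun h => ?_⟩
  have hh : h ∈ Subgroup.closure (S : Set H) := by rw [hS]; trivial
  suffices (∀ i j, DenIn P ((ψ h : Matrix (Fin N) (Fin N) ℚ) i j)) ∧
      ∀ i j, DenIn P ((ψ h⁻¹ : Matrix (Fin N) (Fin N) ℚ) i j) from this.1
  induction hh using Subgroup.closure_induction with
  | mem y hy => exact ⟨hgen y (Finset.mem_union_left _ hy),
      hgen _ (Finset.mem_union_right _ (Finset.mem_image_of_mem _ hy))⟩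
  | one =>
    simp only [inv_one, map_one, Units.val_one, and_self]
    intro i j
    rw [Matrix.one_apply]
    split_ifs
    · exact_mod_cast hint 1
    · exact_mod_cast hint 0
  | mul a b _ _ ha hb =>
    constructor <;> intro i j
    · rw [map_mul, Units.val_mul, Matrix.mul_apply]
      exact Finset.sum_induction _ _ hadd (by exact_mod_cast hint 0)
        fun k _ => hmul _ _ (ha.1 i k) (hb.1 k j)
    · rw [mul_inv_rev, map_mul, Units.val_mul, Matrix.mul_apply]
      exact Finset.sum_induction _ _ hadd (by exact_mod_cast hint 0)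
        fun k _ => hmul _ _ (hb.2 i k) (ha.2 k j)
  | inv a _ ha => exact ⟨ha.2, by rw [inv_inv]; exact ha.1⟩

/-- A finitely generated group of matrices over a number field is exact. -/
theorem isExactGroup_of_numberField {Q : Type u} [Group Q] (hfg : Group.FG Q) {L : Type v}
    [Field L] [Algebra ℚ L] [Module.Finite ℚ L] {n : ℕ} [NeZero n] (σ : Q →* GL (Fin n) L)
    (hσ : Function.Injective σ) : IsExactGroup Q := by
  classical
  set D := Module.finrank ℚ L
  have : NeZero D := ⟨Module.finrank_pos.ne'⟩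
  have : NeZero (n * D) := ⟨mul_ne_zero (NeZero.ne n) (NeZero.ne D)⟩
  set Φ : Matrix (Fin n) (Fin n) L →ₐ[ℚ] Matrix (Fin (n * D)) (Fin (n * D)) ℚ :=
    ((Matrix.reindexAlgEquiv ℚ ℚ finProdFinEquiv).toAlgHom.comp
      (Matrix.compAlgEquiv (Fin n) (Fin D) ℚ ℚ).toAlgHom).comp
      (Algebra.leftMulMatrix (Module.finBasis ℚ L)).mapMatrix with hΦ
  have hΦinj : Function.Injective Φ := by
    intro X Y hXY
    simp only [hΦ, AlgHom.comp_apply, AlgEquiv.toAlgHom_eq_coe, AlgHom.coe_coe] at hXY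
    have h1 := (Matrix.compAlgEquiv (Fin n) (Fin D) ℚ ℚ).injective
      ((Matrix.reindexAlgEquiv ℚ ℚ finProdFinEquiv).injective hXY)
    refine Matrix.ext fun i j => Algebra.leftMulMatrix_injective (Module.finBasis ℚ L) ?_
    simpa using congrFun (congrFun h1 i) j
  set ψ := (Units.map Φ.toRingHom.toMonoidHom).comp σ
  obtain ⟨P, hP⟩ := exists_denIn hfg ψ
  exact isExactGroup_of_rat ψ ((Units.map_injective hΦinj).comp hσ) P hP

/-- A nontrivial unipotent matrix in characteristic zero has infinite order. -/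
theorem not_isOfFinOrder_unipotent {L : Type v} [Field L] [CharZero L] {n : ℕ}
    (A : GL (Fin n) L) (h : ((A : Matrix (Fin n) (Fin n) L) - 1) ^ n = 0)
    (hne : (A : Matrix (Fin n) (Fin n) L) ≠ 1) : ¬ IsOfFinOrder A := by
  rw [isOfFinOrder_iff_pow_eq_one]
  rintro ⟨k, hk, hAk⟩
  set M := (A : Matrix (Fin n) (Fin n) L)
  have hMk : M ^ k = 1 := by
    rw [← Units.val_pow_eq_pow_val, hAk, Units.val_one]
  have hgeo := geom_sum_mul M k
  rw [hMk, sub_self] at hgeo
  have hS : IsUnit (∑ i ∈ Finset.range k, M ^ i) := by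
    have e : ∑ i ∈ Finset.range k, M ^ i =
        (k : Matrix (Fin n) (Fin n) L) + ∑ i ∈ Finset.range k, (M ^ i - 1) := by
      rw [Finset.sum_sub_distrib, Finset.sum_const, Finset.card_range, nsmul_one, add_sub_cancel]
    rw [e]
    have hnil : IsNilpotent (∑ i ∈ Finset.range k, (M ^ i - 1)) := by
      have e2 : (∑ i ∈ Finset.range k, (M ^ i - 1)) =
          (∑ i ∈ Finset.range k, ∑ j ∈ Finset.range i, M ^ j) * (M - 1) := by
        rw [Finset.sum_mul]
        exact Finset.sum_congr rfl fun i _ => (geom_sum_mul M i).symm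
      rw [e2]
      refine Commute.isNilpotent_mul_left ?_ ⟨n, h⟩
      exact (Commute.sum_left _ _ _ fun i _ => Commute.sum_left _ _ _ fun j _ =>
        ((Commute.refl M).pow_left j).sub_right (Commute.one_right _))
    refine hnil.isUnit_add_left_of_commute ?_ (Nat.cast_commute k _).symm
    have hkL : IsUnit ((k : L)) := isUnit_iff_ne_zero.2 (Nat.cast_ne_zero.2 hk.ne')
    simpa using hkL.map (algebraMap L (Matrix (Fin n) (Fin n) L))
  exact hne (sub_eq_zero.1 (hS.mul_right_eq_zero.1 hgeo))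

/-- An element of a finitely generated characteristic zero linear group with a nontrivial
unipotent power is detected by an exact group with amenable centraliser, provided unipotents of
that nilpotency level have amenable centralisers over every field of characteristic zero. -/
theorem hasExactImage_of_unipotent {H : Type u} [Group H] (hfg : Group.FG H) {K : Type v}
    [Field K] [CharZero K] {n : ℕ} [NeZero n] (ρ : H →* Matrix (Fin n) (Fin n) K) (x : H)
    (m j : ℕ) (hj : 1 ≤ j) (hu : (ρ x ^ m - 1) ^ n = 0) (hne : (ρ x ^ m - 1) ^ j ≠ 0)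
    (hamen : ∀ (L : Type v) [Field L] [CharZero L] (A : GL (Fin n) L),
      ((A : Matrix (Fin n) (Fin n) L) - 1) ^ n = 0 →
      ((A : Matrix (Fin n) (Fin n) L) - 1) ^ j ≠ 0 →
      IsAmenableGroup (Subgroup.centralizer ({A} : Set (GL (Fin n) L)))) :
    HasExactImage x := by
  classical
  obtain ⟨i0, j0, hw⟩ : ∃ i0 j0, ((ρ x ^ m - 1) ^ j) i0 j0 ≠ 0 := by
    by_contra! hc
    exact hne (Matrix.ext hc)
  set w := ((ρ x ^ m - 1) ^ j) i0 j0
  obtain ⟨S, hS⟩ := hfg.out
  set gens : Finset H := S ∪ S.image (·⁻¹)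
  set ent : Finset K := insert w⁻¹ (gens.biUnion fun h =>
    (Finset.univ : Finset (Fin n × Fin n)).image fun p => ρ h p.1 p.2)
  set R : Subalgebra ℚ K := Algebra.adjoin ℚ (ent : Set K)
  set M : Subalgebra ℚ (Matrix (Fin n) (Fin n) K) :=
    { carrier := {A | ∀ i j, A i j ∈ R}
      mul_mem' := fun {A B} hA hB i j => by
        rw [Matrix.mul_apply]; exact R.sum_mem fun k _ => R.mul_mem (hA i k) (hB k j)
      add_mem' := fun {A B} hA hB i j => R.add_mem (hA i j) (hB i j)
      algebraMap_mem' := fun r i j => by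
        rw [Matrix.algebraMap_matrix_apply]
        split_ifs
        · exact R.algebraMap_mem r
        · exact R.zero_mem } with hM
  have hgen : ∀ h ∈ gens, ρ h ∈ M := fun h hh i j => Algebra.subset_adjoin
    (Finset.mem_insert_of_mem (Finset.mem_biUnion.2
      ⟨h, hh, Finset.mem_image.2 ⟨(i, j), Finset.mem_univ _, rfl⟩⟩))
  have hall : ∀ h, ρ h ∈ M := by
    have : ∀ h, ρ h ∈ M ∧ ρ h⁻¹ ∈ M := by
      intro h
      have hh : h ∈ Subgroup.closure (S : Set H) := by rw [hS]; trivial
      induction hh using Subgroup.closure_induction with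
      | mem y hy => exact ⟨hgen y (Finset.mem_union_left _ hy),
          hgen _ (Finset.mem_union_right _ (Finset.mem_image_of_mem _ hy))⟩
      | one => simp only [inv_one, map_one, M.one_mem, and_self]
      | mul a b _ _ ha hb =>
          exact ⟨by rw [map_mul]; exact M.mul_mem ha.1 hb.1,
            by rw [mul_inv_rev, map_mul]; exact M.mul_mem hb.2 ha.2⟩
      | inv a _ ha => exact ⟨ha.2, by rw [inv_inv]; exact ha.1⟩
    exact fun h => (this h).1
  set ρR : H →* Matrix (Fin n) (Fin n) R :=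
    { toFun := fun h => Matrix.of fun i j => ⟨ρ h i j, hall h i j⟩
      map_one' := by
        refine Matrix.ext fun i j => Subtype.ext ?_
        change ρ 1 i j = _
        rw [map_one, Matrix.one_apply, Matrix.one_apply]
        split_ifs <;> rfl
      map_mul' := fun a b => by
        refine Matrix.ext fun i j => Subtype.ext ?_
        change ρ (a * b) i j = _
        rw [map_mul, Matrix.mul_apply, Matrix.mul_apply]
        simp }
  have : Algebra.FiniteType ℚ R := (Subalgebra.fg_iff_finiteType R).1 ⟨ent, rfl⟩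
  obtain ⟨μ, hμ⟩ := Ideal.exists_maximal R
  let := Ideal.Quotient.field μ
  let alg : Algebra ℚ (R ⧸ μ) := Ideal.Quotient.algebra ℚ
  have : Module.Finite ℚ (R ⧸ μ) := finite_of_finite_type_of_isJacobsonRing ℚ (R ⧸ μ)
  have : CharZero (R ⧸ μ) := algebraRat.charZero _
  set π := (Ideal.Quotient.mk μ).mapMatrix (m := Fin n)
  set ψ : H →* GL (Fin n) (R ⧸ μ) :=
    (π.toMonoidHom.comp ρR).toHomUnits
  have hψ : ∀ h, (Units.val (ψ h)) = π (ρR h) := fun h => rfl
  have hinj : Function.Injective (R.val.mapMatrix (m := Fin n)) := fun A B hAB =>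
    Matrix.ext fun a b => Subtype.ext (congrFun (congrFun hAB a) b)
  have hval : ∀ h, R.val.mapMatrix (m := Fin n) (ρR h) = ρ h := fun h => rfl
  have hu' : ((Units.val (ψ (x ^ m))) - 1) ^ n = 0 := by
    rw [hψ, ← map_one π, ← map_sub, ← map_pow]
    have : (ρR (x ^ m) - 1) ^ n = 0 := hinj (by
      rw [map_pow, map_sub, hval, map_pow, map_one, map_zero]; exact hu)
    rw [this, map_zero]
  have hne' : ((Units.val (ψ (x ^ m))) - 1) ^ j ≠ 0 := by
    rw [hψ, ← map_one π, ← map_sub, ← map_pow]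
    intro h
    set r : R := ((ρR (x ^ m) - 1) ^ j) i0 j0
    have hr : (r : K) = w := by
      have e : R.val.mapMatrix (m := Fin n) ((ρR (x ^ m) - 1) ^ j) = (ρ x ^ m - 1) ^ j := by
        rw [map_pow, map_sub, hval, map_pow, map_one]
      exact congrFun (congrFun e i0) j0
    have h0 : r ∈ μ := Ideal.Quotient.eq_zero_iff_mem.1 (congrFun (congrFun h i0) j0)
    refine hμ.ne_top ((Ideal.eq_top_iff_one _).2 ?_)
    have h1 : (⟨w⁻¹, Algebra.subset_adjoin (Finset.mem_insert_self _ _)⟩ : R) * r = 1 :=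
      Subtype.ext (by
        change w⁻¹ * (r : K) = 1
        rw [hr, inv_mul_cancel₀ hw])
    exact h1 ▸ μ.mul_mem_left _ h0
  have hA1 : (Units.val (ψ (x ^ m))) ≠ 1 := fun h => hne' (by
    rw [h, sub_self, zero_pow (Nat.one_le_iff_ne_zero.1 hj)])
  have : Group.FG H := hfg
  refine ⟨H ⧸ ψ.ker, inferInstance, QuotientGroup.mk' ψ.ker,
    isExactGroup_of_numberField (QuotientGroup.fg ψ.ker) (QuotientGroup.kerLift ψ)
      (QuotientGroup.kerLift_injective ψ), fun hfin => ?_, ?_⟩
  · refine not_isOfFinOrder_unipotent _ hu' hA1 ?_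
    have h1 := ((QuotientGroup.kerLift ψ).isOfFinOrder hfin).pow (n := m)
    rwa [QuotientGroup.mk'_apply, QuotientGroup.kerLift_mk, ← map_pow] at h1
  · let f : Subgroup.centralizer ({QuotientGroup.mk' ψ.ker x} : Set (H ⧸ ψ.ker)) →*
        Subgroup.centralizer ({ψ (x ^ m)} : Set (GL (Fin n) (R ⧸ μ))) :=
      ((QuotientGroup.kerLift ψ).comp (Subgroup.subtype _)).codRestrict _ fun c => by
        rw [Subgroup.mem_centralizer_singleton_iff, map_pow]
        have h := congrArg (QuotientGroup.kerLift ψ)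
          (Subgroup.mem_centralizer_singleton_iff.1 c.2)
        simp only [map_mul, QuotientGroup.mk'_apply, QuotientGroup.kerLift_mk] at h
        exact Commute.pow_right h m
    refine IsAmenableGroup.of_injective f (fun a b hab => ?_) (hamen _ _ hu' hne')
    exact Subtype.ext (QuotientGroup.kerLift_injective ψ (congrArg Subtype.val hab))

end Vale.Agent.P184
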