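import Vale.Agent.P184.GroupAlgebra

/-!
Twisting a group ring by a pair of uniformly close unitary cocycles on a G-set, and the resulting
vanishing principle for Hattori–Stallings coefficients over ℓ¹(G).
-/

namespace Vale.Agent.P184

open Filter Topology BoundedContinuousFunction
open scoped Matrix.Norms.L2Operator

universe u

section Action

variable {G : Type*} [Group G] {X : Type*} [TopologicalSpace X] [DiscreteTopology X]
  {R : Type*} [NormedRing R]

/-- Precomposition of a bounded function with a map of discrete spaces. -/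
noncomputable def pullFun (φ : X →ᵇ R) (f : X → X) : X →ᵇ R :=
  φ.compContinuous ⟨f, continuous_of_discreteTopology⟩

@[simp] lemma pullFun_apply (φ : X →ᵇ R) (f : X → X) (x : X) : pullFun φ f x = φ (f x) := rfl

variable [MulAction G X]

/-- The translation action on bounded functions. -/
noncomputable scoped instance translationAction : MulSemiringAction G (X →ᵇ R) where
  smul g φ := pullFun φ (fun x => g⁻¹ • x)
  one_smul φ := by ext x; change φ ((1 : G)⁻¹ • x) = φ x; simp
  mul_smul g h φ := by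
    ext x; change φ ((g * h)⁻¹ • x) = φ (h⁻¹ • g⁻¹ • x); rw [mul_inv_rev, mul_smul]
  smul_zero _ := by ext x; rfl
  smul_add _ _ _ := by ext x; rfl
  smul_one _ := by ext x; rfl
  smul_mul _ _ _ := by ext x; rfl

@[simp] lemma translationAction_apply (g : G) (φ : X →ᵇ R) (x : X) :
    (g • φ) x = φ (g⁻¹ • x) := rfl

lemma norm_translation_le (g : G) (φ : X →ᵇ R) : ‖g • φ‖ ≤ ‖φ‖ :=
  BoundedContinuousFunction.norm_le (norm_nonneg φ) |>.2 fun x => φ.norm_coe_le_norm _

/-- The size of an element of the skew group ring. -/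
noncomputable def skewSize (F : SkewMonoidAlgebra (X →ᵇ R) G) : ℝ := F.sum fun _ a => ‖a‖

lemma skewSize_nonneg (F : SkewMonoidAlgebra (X →ᵇ R) G) : 0 ≤ skewSize F :=
  Finset.sum_nonneg fun _ _ => norm_nonneg _

lemma skewSize_single (g : G) (a : X →ᵇ R) : skewSize (SkewMonoidAlgebra.single g a) = ‖a‖ := by
  simp [skewSize, SkewMonoidAlgebra.sum_single_index]

lemma skewSize_add_le (F F' : SkewMonoidAlgebra (X →ᵇ R) G) :
    skewSize (F + F') ≤ skewSize F + skewSize F' := by
  classical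
  have hd : ∀ {F : SkewMonoidAlgebra (X →ᵇ R) G} {s : Finset G}, F.coeff.support ⊆ s →
      skewSize F = ∑ g ∈ s, ‖F.coeff g‖ := fun {F s} hs => by
    rw [skewSize, SkewMonoidAlgebra.sum_def]
    exact Finsupp.sum_of_support_subset _ hs _ (by simp)
  have hs : (F + F').coeff.support ⊆ F.coeff.support ∪ F'.coeff.support := by
    rw [SkewMonoidAlgebra.coeff_add]; exact Finsupp.support_add
  rw [hd hs, hd (F := F) Finset.subset_union_left, hd (F := F') Finset.subset_union_right,
    ← Finset.sum_add_distrib]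
  refine Finset.sum_le_sum fun g _ => ?_
  rw [SkewMonoidAlgebra.coeff_add, Finsupp.add_apply]
  exact norm_add_le _ _

lemma skewSize_mul_le (F F' : SkewMonoidAlgebra (X →ᵇ R) G) :
    skewSize (F * F') ≤ skewSize F * skewSize F' := by
  have h0 : skewSize (0 : SkewMonoidAlgebra (X →ᵇ R) G) = 0 := by simp [skewSize]
  rw [SkewMonoidAlgebra.mul_def, SkewMonoidAlgebra.sum_def, Finsupp.sum]
  refine (size_sum_le skewSize h0 skewSize_add_le _ _).trans ?_
  rw [skewSize, SkewMonoidAlgebra.sum_def, Finsupp.sum, Finset.sum_mul]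
  refine Finset.sum_le_sum fun a _ => ?_
  rw [SkewMonoidAlgebra.sum_def, Finsupp.sum]
  refine (size_sum_le skewSize h0 skewSize_add_le _ _).trans ?_
  rw [skewSize, SkewMonoidAlgebra.sum_def, Finsupp.sum, Finset.mul_sum]
  refine Finset.sum_le_sum fun b _ => ?_
  rw [skewSize_single]
  exact (norm_mul_le _ _).trans (mul_le_mul_of_nonneg_left (norm_translation_le _ _) (norm_nonneg _))

/-- A traced ring structure on a skew group ring from a compatible family of functionals. -/
noncomputable def skewRing (θ : G → (X →ᵇ R) →+ ℂ) (c : ℝ) (hc : 0 ≤ c)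
    (hb : ∀ h a, ‖θ h a‖ ≤ c * ‖a‖)
    (hcyc : ∀ h k a b, θ (h * k) (a * h • b) = θ (k * h) (b * k • a)) :
    TracedRing (SkewMonoidAlgebra (X →ᵇ R) G) where
  N := skewSize
  T := (Finsupp.liftAddHom θ).comp (SkewMonoidAlgebra.coeffAddEquiv).toAddMonoidHom
  c := c
  nonneg := skewSize_nonneg
  zero' := by simp [skewSize]
  neg' F := by
    simp only [skewSize, SkewMonoidAlgebra.sum_def, SkewMonoidAlgebra.coeff_neg]
    rw [Finsupp.sum_neg_index (by simp)]
    simp
  add_le := skewSize_add_le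
  mul_le := skewSize_mul_le
  cyc x y := by
    induction x using SkewMonoidAlgebra.induction_on with
    | zero => simp
    | add f g hf hg => simp only [add_mul, mul_add, map_add, hf, hg]
    | single a r =>
      induction y using SkewMonoidAlgebra.induction_on with
      | zero => simp
      | add f g hf hg => simp only [add_mul, mul_add, map_add, hf, hg]
      | single b s =>
        rw [SkewMonoidAlgebra.single_mul_single, SkewMonoidAlgebra.single_mul_single]
        simp only [AddMonoidHom.comp_apply]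
        change Finsupp.liftAddHom θ (Finsupp.single _ _) = Finsupp.liftAddHom θ (Finsupp.single _ _)
        rw [Finsupp.liftAddHom_apply_single, Finsupp.liftAddHom_apply_single]
        exact hcyc a b r s
  c_nonneg := hc
  bound F := by
    change ‖F.coeff.sum fun g => ⇑(θ g)‖ ≤ c * F.coeff.sum fun _ a => ‖a‖
    rw [Finsupp.sum, Finsupp.sum, Finset.mul_sum]
    exact (norm_sum_le _ _).trans (Finset.sum_le_sum fun g _ => hb g _)

lemma skewRing_T_single (θ : G → (X →ᵇ R) →+ ℂ) (c : ℝ) (hc : 0 ≤ c)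
    (hb : ∀ h a, ‖θ h a‖ ≤ c * ‖a‖)
    (hcyc : ∀ h k a b, θ (h * k) (a * h • b) = θ (k * h) (b * k • a)) (g : G) (a : X →ᵇ R) :
    (skewRing θ c hc hb hcyc).T (SkewMonoidAlgebra.single g a) = θ g a :=
  Finsupp.liftAddHom_apply_single θ g a

end Action

/-- A twist at g: two unitary cocycles on a G-set that are δ-close on K, together with a
centraliser-invariant mean on fixed points of g at which the two loop traces differ. -/
structure Twist (G : Type u) [Group G] (g : G) (K : Finset G) (δ : ℝ) where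
  X : Type u
  topX : TopologicalSpace X
  discX : DiscreteTopology X
  actX : MulAction G X
  ι : Type
  fin : Fintype ι
  dec : DecidableEq ι
  U : G → X → Matrix ι ι ℂ
  U' : G → X → Matrix ι ι ℂ
  one : ∀ x, U 1 x = 1
  one' : ∀ x, U' 1 x = 1
  mul : ∀ h k x, U (h * k) x = U h x * U k (h⁻¹ • x)
  mul' : ∀ h k x, U' (h * k) x = U' h x * U' k (h⁻¹ • x)
  norm_le : ∀ h x, ‖U h x‖ ≤ 1
  norm_le' : ∀ h x, ‖U' h x‖ ≤ 1
  close : ∀ k ∈ K, ∀ x, ‖U k x - U' k x‖ ≤ δ
  X0 : Set X
  fixed : ∀ x ∈ X0, g • x = x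
  lam : (X →ᵇ ℂ) →ₗ[ℂ] ℂ
  lamC : ℝ
  lamC_nonneg : 0 ≤ lamC
  lam_bound : ∀ φ, ‖lam φ‖ ≤ lamC * ‖φ‖
  lam_one : lam (BoundedContinuousFunction.const X 1) = 1
  inv : ∀ c, c * g = g * c → ∀ φ, lam (pullFun φ (fun x => c • x)) = lam φ
  loc : ∀ φ : X →ᵇ ℂ, (∀ x ∈ X0, φ x = 0) → lam φ = 0
  val : ℂ
  val' : ℂ
  ne : val ≠ val'
  loop : ∀ x ∈ X0, Matrix.trace (U g x) = val
  loop' : ∀ x ∈ X0, Matrix.trace (U' g x) = val'

attribute [instance] Twist.topX Twist.discX Twist.actX Twist.fin Twist.dec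

namespace Twist

variable {G : Type u} [Group G] {g : G} {K : Finset G} {δ : ℝ} (t : Twist G g K δ)

/-- The trace of a matrix is bounded by a multiple of its norm. -/
lemma trace_bound : ∃ c : ℝ, 0 ≤ c ∧ ∀ A : Matrix t.ι t.ι ℂ, ‖A.trace‖ ≤ c * ‖A‖ :=
  ⟨‖(Matrix.traceLinearMap t.ι ℂ ℂ).toContinuousLinearMap‖, norm_nonneg _, fun A =>
    (Matrix.traceLinearMap t.ι ℂ ℂ).toContinuousLinearMap.le_opNorm A⟩

/-- The trace of a bounded matrix function after a translation. -/
noncomputable def traceFun (s : G) : (t.X →ᵇ Matrix t.ι t.ι ℂ) →+ (t.X →ᵇ ℂ) :=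
  AddMonoidHom.mk' (fun a => BoundedContinuousFunction.ofNormedAddCommGroup
      (fun x => (a (s • x)).trace) continuous_of_discreteTopology
      (t.trace_bound.choose * ‖a‖) (fun x => (t.trace_bound.choose_spec.2 _).trans
        (mul_le_mul_of_nonneg_left (a.norm_coe_le_norm _) t.trace_bound.choose_spec.1)))
    (fun a b => by ext x; simp)

lemma traceFun_apply (s : G) (a : t.X →ᵇ Matrix t.ι t.ι ℂ) (x : t.X) :
    t.traceFun s a x = (a (s • x)).trace := rfl

lemma traceFun_norm (s : G) (a : t.X →ᵇ Matrix t.ι t.ι ℂ) :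
    ‖t.traceFun s a‖ ≤ t.trace_bound.choose * ‖a‖ :=
  BoundedContinuousFunction.norm_le (mul_nonneg t.trace_bound.choose_spec.1 (norm_nonneg a)) |>.2
    fun x => (t.trace_bound.choose_spec.2 _).trans
      (mul_le_mul_of_nonneg_left (a.norm_coe_le_norm _) t.trace_bound.choose_spec.1)

lemma lam_congr {φ ψ : t.X →ᵇ ℂ} (h : ∀ x ∈ t.X0, φ x = ψ x) : t.lam φ = t.lam ψ := by
  rw [← sub_eq_zero, ← map_sub]
  exact t.loc _ fun x hx => by simp [h x hx]

lemma lam_traceFun_conj {s s' : G} (h : s * g * s⁻¹ = s' * g * s'⁻¹)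
    (a : t.X →ᵇ Matrix t.ι t.ι ℂ) : t.lam (t.traceFun s a) = t.lam (t.traceFun s' a) := by
  have hc : (s⁻¹ * s') * g = g * (s⁻¹ * s') := by
    have : s' * g = s * g * s⁻¹ * s' := by rw [h]; group
    rw [mul_assoc, this]; group
  have e : pullFun (t.traceFun s a) (fun x => (s⁻¹ * s') • x) = t.traceFun s' a := by
    ext x
    simp only [pullFun_apply, traceFun_apply, ← mul_smul, mul_inv_cancel_left]
  rw [← e, t.inv _ hc]

open Classical in
/-- The functional attached to a group element. -/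
noncomputable def theta (h : G) : (t.X →ᵇ Matrix t.ι t.ι ℂ) →+ ℂ :=
  if hh : ∃ s, s * g * s⁻¹ = h then (t.lam.toAddMonoidHom).comp (t.traceFun hh.choose) else 0

lemma theta_eq {h s : G} (hs : s * g * s⁻¹ = h) (a : t.X →ᵇ Matrix t.ι t.ι ℂ) :
    t.theta h a = t.lam (t.traceFun s a) := by
  have hh : ∃ s, s * g * s⁻¹ = h := ⟨s, hs⟩
  rw [theta, dif_pos hh]
  exact t.lam_traceFun_conj (hh.choose_spec.trans hs.symm) a

lemma theta_eq_zero {h : G} (hh : ¬ ∃ s, s * g * s⁻¹ = h) (a : t.X →ᵇ Matrix t.ι t.ι ℂ) :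
    t.theta h a = 0 := by
  rw [theta, dif_neg hh]; rfl

lemma theta_bound (h : G) (a : t.X →ᵇ Matrix t.ι t.ι ℂ) :
    ‖t.theta h a‖ ≤ t.lamC * t.trace_bound.choose * ‖a‖ := by
  by_cases hh : ∃ s, s * g * s⁻¹ = h
  · obtain ⟨s, hs⟩ := hh
    rw [t.theta_eq hs, mul_assoc]
    exact (t.lam_bound _).trans (mul_le_mul_of_nonneg_left (t.traceFun_norm _ _) t.lamC_nonneg)
  · rw [t.theta_eq_zero hh, norm_zero]
    exact mul_nonneg (mul_nonneg t.lamC_nonneg t.trace_bound.choose_spec.1) (norm_nonneg _)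

lemma theta_cyc (h k : G) (a b : t.X →ᵇ Matrix t.ι t.ι ℂ) :
    t.theta (h * k) (a * h • b) = t.theta (k * h) (b * k • a) := by
  by_cases hh : ∃ s, s * g * s⁻¹ = h * k
  · obtain ⟨s, hs⟩ := hh
    have hs' : (k * s) * g * (k * s)⁻¹ = k * h := by
      calc (k * s) * g * (k * s)⁻¹ = k * (s * g * s⁻¹) * k⁻¹ := by group
        _ = k * h := by rw [hs]; group
    rw [t.theta_eq hs, t.theta_eq hs']
    refine t.lam_congr fun x hx => ?_
    simp only [traceFun_apply, BoundedContinuousFunction.mul_apply, translationAction_apply]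
    have e : k • s • x = h⁻¹ • s • x := by
      rw [eq_inv_smul_iff, ← mul_smul, ← mul_smul, ← hs, inv_mul_cancel_right,
        mul_smul, t.fixed x hx]
    rw [mul_smul, inv_smul_smul, e, Matrix.trace_mul_comm]
  · have hh' : ¬ ∃ s, s * g * s⁻¹ = k * h := by
      rintro ⟨s, hs⟩
      refine hh ⟨k⁻¹ * s, ?_⟩
      calc k⁻¹ * s * g * (k⁻¹ * s)⁻¹ = k⁻¹ * (s * g * s⁻¹) * k := by group
        _ = h * k := by rw [hs]; group
    rw [t.theta_eq_zero hh, t.theta_eq_zero hh']

/-- The traced skew group ring of a twist. -/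
noncomputable def ring : TracedRing (SkewMonoidAlgebra (t.X →ᵇ Matrix t.ι t.ι ℂ) G) :=
  skewRing t.theta (t.lamC * t.trace_bound.choose)
    (mul_nonneg t.lamC_nonneg t.trace_bound.choose_spec.1) t.theta_bound t.theta_cyc

variable {V : G → t.X → Matrix t.ι t.ι ℂ}

/-- A bounded cocycle as a family of bounded functions. -/
noncomputable def coef (hn : ∀ h x, ‖V h x‖ ≤ 1) (h : G) : t.X →ᵇ Matrix t.ι t.ι ℂ :=
  BoundedContinuousFunction.ofNormedAddCommGroup (V h) continuous_of_discreteTopology 1 (hn h)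

lemma coef_apply (hn : ∀ h x, ‖V h x‖ ≤ 1) (h : G) (x : t.X) : t.coef hn h x = V h x := rfl

/-- The twisting homomorphism of a bounded cocycle. -/
noncomputable def hom (hn : ∀ h x, ‖V h x‖ ≤ 1) (h1 : ∀ x, V 1 x = 1)
    (hm : ∀ h k x, V (h * k) x = V h x * V k (h⁻¹ • x)) :
    MonoidAlgebra ℂ G →+* SkewMonoidAlgebra (t.X →ᵇ Matrix t.ι t.ι ℂ) G :=
  MonoidAlgebra.liftNCRingHom
    ((SkewMonoidAlgebra.singleOneRingHom).comp (algebraMap ℂ (t.X →ᵇ Matrix t.ι t.ι ℂ)))
    { toFun := fun h => SkewMonoidAlgebra.single h (t.coef hn h)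
      map_one' := by
        rw [SkewMonoidAlgebra.one_def]
        congr 1
        ext x : 1
        exact h1 x
      map_mul' := fun h k => by
        rw [SkewMonoidAlgebra.single_mul_single]
        congr 1
        ext x : 1
        exact hm h k x }
    (fun r h => by
      change SkewMonoidAlgebra.single 1 (algebraMap ℂ (t.X →ᵇ Matrix t.ι t.ι ℂ) r) *
        SkewMonoidAlgebra.single h (t.coef hn h) = SkewMonoidAlgebra.single h (t.coef hn h) *
        SkewMonoidAlgebra.single 1 (algebraMap ℂ (t.X →ᵇ Matrix t.ι t.ι ℂ) r)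
      rw [SkewMonoidAlgebra.single_mul_single, SkewMonoidAlgebra.single_mul_single, one_mul,
        mul_one, one_smul]
      congr 1
      ext x : 1
      simp [Algebra.commutes])

lemma hom_single (hn : ∀ h x, ‖V h x‖ ≤ 1) (h1 : ∀ x, V 1 x = 1)
    (hm : ∀ h k x, V (h * k) x = V h x * V k (h⁻¹ • x)) (h : G) (r : ℂ) :
    t.hom hn h1 hm (MonoidAlgebra.single h r) =
      SkewMonoidAlgebra.single h (r • t.coef hn h) := by
  change MonoidAlgebra.liftNC _ _ (MonoidAlgebra.single h r) = _
  rw [MonoidAlgebra.liftNC_single]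
  change SkewMonoidAlgebra.single 1 _ * SkewMonoidAlgebra.single h (t.coef hn h) = _
  rw [SkewMonoidAlgebra.single_mul_single, one_mul, one_smul, ← Algebra.smul_def]

lemma coef_norm (hn : ∀ h x, ‖V h x‖ ≤ 1) (h : G) : ‖t.coef hn h‖ ≤ 1 :=
  BoundedContinuousFunction.norm_le zero_le_one |>.2 (hn h)

lemma hom_size (hn : ∀ h x, ‖V h x‖ ≤ 1) (h1 : ∀ x, V 1 x = 1)
    (hm : ∀ h k x, V (h * k) x = V h x * V k (h⁻¹ • x)) (z : MonoidAlgebra ℂ G) :
    t.ring.N (t.hom hn h1 hm z) ≤ l1Size z := by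
  conv_lhs => rw [← MonoidAlgebra.sum_coeff_single z, map_finsuppSum]
  refine (t.ring.sum_le _ _).trans (Finset.sum_le_sum fun h _ => ?_)
  simp only [t.hom_single]
  change skewSize _ ≤ _
  rw [skewSize_single, norm_smul]
  exact mul_le_of_le_one_right (norm_nonneg _) (t.coef_norm hn h)

lemma hom_trace (hn : ∀ h x, ‖V h x‖ ≤ 1) (h1 : ∀ x, V 1 x = 1)
    (hm : ∀ h k x, V (h * k) x = V h x * V k (h⁻¹ • x)) {c : ℂ}
    (hloop : ∀ x ∈ t.X0, Matrix.trace (V g x) = c) (z : MonoidAlgebra ℂ G) :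
    t.ring.T (t.hom hn h1 hm z) = c * classTrace (ConjClasses.mk g) z := by
  classical
  induction z using MonoidAlgebra.induction_linear with
  | zero => simp
  | add f f' hf hf' => simp [hf, hf', mul_add]
  | single h r =>
    rw [t.hom_single, classTrace_single]
    change (skewRing t.theta _ _ _ _).T _ = _
    rw [skewRing_T_single]
    by_cases hh : ∃ s, s * g * s⁻¹ = h
    · obtain ⟨s, hs⟩ := hh
      have hC : ConjClasses.mk h = ConjClasses.mk g :=
        ConjClasses.mk_eq_mk_iff_isConj.2 (IsConj.symm (isConj_iff.2 ⟨s, hs⟩))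
      rw [if_pos hC, t.theta_eq hs]
      have e : t.lam (t.traceFun s (r • t.coef hn h)) =
          t.lam ((r * c) • BoundedContinuousFunction.const t.X 1) := by
        refine t.lam_congr fun x hx => ?_
        simp only [traceFun_apply, BoundedContinuousFunction.coe_smul, coef_apply,
          Matrix.trace_smul, BoundedContinuousFunction.const_apply, smul_eq_mul, mul_one]
        congr 1
        have hx' : g⁻¹ • x = x := by rw [inv_smul_eq_iff, t.fixed x hx]
        rw [← hs, hm, hm, mul_inv_rev, mul_smul, inv_smul_smul, hx', Matrix.trace_mul_comm,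
          ← mul_assoc]
        have h2 : V s⁻¹ x * V s (s • x) = 1 := by
          have := hm s⁻¹ s x
          rw [inv_mul_cancel, h1, inv_inv] at this
          exact this.symm
        rw [h2, one_mul, hloop x hx]
      rw [e, map_smul, t.lam_one, smul_eq_mul, mul_one, mul_comm]
    · have hC : ConjClasses.mk h ≠ ConjClasses.mk g := fun hC =>
        hh (isConj_iff.1 (ConjClasses.mk_eq_mk_iff_isConj.1 hC.symm))
      rw [if_neg hC, t.theta_eq_zero hh, mul_zero]

/-- The first twisting homomorphism. -/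
noncomputable def homU := t.hom t.norm_le t.one t.mul

/-- The second twisting homomorphism. -/
noncomputable def homU' := t.hom t.norm_le' t.one' t.mul'

lemma hom_sub_size_le (z : MonoidAlgebra ℂ G) :
    t.ring.N (t.homU z - t.homU' z) ≤ 2 * l1Size z := by
  refine (t.ring.sub_le _ _).trans ?_
  have h1 := t.hom_size t.norm_le t.one t.mul z
  have h2 := t.hom_size t.norm_le' t.one' t.mul' z
  simp only [homU, homU']
  linarith

lemma hom_sub_size_close (hδ : 0 ≤ δ) (z : MonoidAlgebra ℂ G) (hz : z.coeff.support ⊆ K) :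
    t.ring.N (t.homU z - t.homU' z) ≤ δ * l1Size z := by
  conv_lhs => rw [← MonoidAlgebra.sum_coeff_single z, map_finsuppSum, map_finsuppSum,
    ← Finsupp.sum_sub]
  refine (t.ring.sum_le _ _).trans ?_
  rw [l1Size, Finsupp.sum, Finset.mul_sum]
  refine Finset.sum_le_sum fun h hh => ?_
  simp only [homU, homU', t.hom_single, sub_eq_add_neg, ← SkewMonoidAlgebra.single_neg,
    ← SkewMonoidAlgebra.single_add]
  change skewSize _ ≤ _
  rw [skewSize_single, ← sub_eq_add_neg, ← smul_sub, norm_smul, mul_comm]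
  exact mul_le_mul_of_nonneg_right
    (BoundedContinuousFunction.norm_le hδ |>.2 fun x => t.close h (hz hh) x) (norm_nonneg _)

include t in
/-- The vanishing principle for an almost idempotent sequence in the group ring. -/
theorem tendsto_zero {q : ℕ} (hδ : 0 ≤ δ) (a : ℕ → Mat G q)
    (hdef : Tendsto (fun n => matSize (a n * a n - a n)) atTop (𝓝 0))
    (hsupp : ∀ i j, (a 0 i j).coeff.support ⊆ K) {η : ℝ}
    (hnear : ∀ n, matSize (a n - a 0) ≤ η) (hsmall : δ * matSize (a 0) + 2 * η ≤ 1 / 2) :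
    Tendsto (fun n => ((classRing (ConjClasses.mk g)).matrix q).T (a n)) atTop (𝓝 0) := by
  set S := t.ring.matrix q with hS
  set φ := t.homU.mapMatrix (m := Fin q) with hφ
  set ψ := t.homU'.mapMatrix (m := Fin q) with hψ
  have hN : ∀ A, S.N (φ A) ≤ matSize A := fun A => by
    change ∑ i, ∑ j, t.ring.N (t.homU (A i j)) ≤ ∑ i, ∑ j, l1Size (A i j)
    exact Finset.sum_le_sum fun i _ => Finset.sum_le_sum fun j _ =>
      t.hom_size t.norm_le t.one t.mul (A i j)
  have hN' : ∀ A, S.N (ψ A) ≤ matSize A := fun A => by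
    change ∑ i, ∑ j, t.ring.N (t.homU' (A i j)) ≤ ∑ i, ∑ j, l1Size (A i j)
    exact Finset.sum_le_sum fun i _ => Finset.sum_le_sum fun j _ =>
      t.hom_size t.norm_le' t.one' t.mul' (A i j)
  have hbd : ∀ n, matSize (a n) ≤ matSize (a 0) + η := fun n => by
    have h := (baseRing G q).add_le (a 0) (a n - a 0)
    rw [add_sub_cancel] at h
    have := hnear n
    exact h.trans (by
      change matSize (a 0) + matSize (a n - a 0) ≤ _
      linarith)
  have hP : S.Bdd atTop (fun n => φ (a n)) :=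
    ⟨_, Eventually.of_forall fun n => (hN _).trans (hbd n)⟩
  have hQ : S.Bdd atTop (fun n => ψ (a n)) :=
    ⟨_, Eventually.of_forall fun n => (hN' _).trans (hbd n)⟩
  have hp : S.Null atTop (fun n => φ (a n) * φ (a n) - φ (a n)) :=
    TracedRing.null_of_le (Eventually.of_forall fun n => by
      rw [← map_mul, ← map_sub]; exact hN _) hdef
  have hq : S.Null atTop (fun n => ψ (a n) * ψ (a n) - ψ (a n)) :=
    TracedRing.null_of_le (Eventually.of_forall fun n => by
      rw [← map_mul, ← map_sub]; exact hN' _) hdef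
  have hD : ∀ n, S.N (φ (a n) - ψ (a n)) ≤ 1 / 2 := fun n => by
    have e : φ (a n) - ψ (a n) = (φ (a 0) - ψ (a 0)) + (φ (a n - a 0) - ψ (a n - a 0)) := by
      rw [map_sub, map_sub]; abel
    rw [e]
    refine (S.add_le _ _).trans ?_
    have h1 : S.N (φ (a 0) - ψ (a 0)) ≤ δ * matSize (a 0) := by
      rw [matSize, Finset.mul_sum]
      change ∑ i, ∑ j, t.ring.N (t.homU (a 0 i j) - t.homU' (a 0 i j)) ≤ _
      refine Finset.sum_le_sum fun i _ => ?_
      rw [Finset.mul_sum]
      exact Finset.sum_le_sum fun j _ => t.hom_sub_size_close hδ _ (hsupp i j)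
    have h2 : S.N (φ (a n - a 0) - ψ (a n - a 0)) ≤ 2 * matSize (a n - a 0) := by
      rw [matSize, Finset.mul_sum]
      change ∑ i, ∑ j, t.ring.N (t.homU ((a n - a 0) i j) - t.homU' ((a n - a 0) i j)) ≤ _
      refine Finset.sum_le_sum fun i _ => ?_
      rw [Finset.mul_sum]
      exact Finset.sum_le_sum fun j _ => t.hom_sub_size_le _
    have := hnear n
    linarith
  have hlim := TracedRing.trace_limit hP hQ hp hq (by norm_num : (1 / 2 : ℝ) < 1) (by norm_num)
    (Eventually.of_forall hD)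
  have e : ∀ n, S.T (φ (a n) - ψ (a n)) =
      (t.val - t.val') * ((classRing (ConjClasses.mk g)).matrix q).T (a n) := by
    intro n
    rw [map_sub, hS, TracedRing.matrix_T, TracedRing.matrix_T, matRing_T, Finset.mul_sum,
      ← Finset.sum_sub_distrib]
    refine Finset.sum_congr rfl fun i _ => ?_
    change t.ring.T (t.homU (a n i i)) - t.ring.T (t.homU' (a n i i)) = _
    rw [homU, homU', t.hom_trace _ _ _ t.loop, t.hom_trace _ _ _ t.loop', sub_mul]
  simp only [e] at hlim
  have h0 := hlim.const_mul (t.val - t.val')⁻¹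
  rw [mul_zero] at h0
  simpa [← mul_assoc, inv_mul_cancel₀ (sub_ne_zero.2 t.ne)] using h0

end Twist

/-- Global vanishing principle. -/
theorem exists_twist_bound {G : Type u} [Group G] {q : ℕ} {e : Fin q → Fin q → G → ℂ}
    (he : IsIdempotentMatrix e) :
    ∃ (K : Finset G) (δ : ℝ), 0 < δ ∧
      ∀ g : G, Nonempty (Twist G g K δ) → hsTrace e (ConjClasses.mk g) = 0 := by
  classical
  obtain ⟨A⟩ := exists_approx he (by norm_num : (0 : ℝ) < 1 / 8) le_rfl
  refine ⟨A.K.image Subtype.val, 1 / (4 * (matSize (A.a 0) + 1)), ?_, ?_⟩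
  · have := (baseRing A.H q).nonneg (A.a 0)
    change 0 ≤ matSize (A.a 0) at this
    positivity
  rintro g ⟨t⟩
  have h0 : 0 ≤ matSize (A.a 0) := (baseRing A.H q).nonneg (A.a 0)
  refine tendsto_nhds_unique (A.conv _) (t.tendsto_zero (by positivity)
    (fun n => inclMat A.H q (A.a n)) ?_ ?_ (η := 1 / 8) ?_ ?_)
  · refine A.defect.congr fun n => ?_
    rw [← map_mul, ← map_sub, matSize_incl]
  · intro i j
    refine Finsupp.mapDomain_support.trans ?_
    exact Finset.image_subset_image (A.supp i j)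
  · intro n
    rw [← map_sub, matSize_incl]
    exact A.near n
  · rw [matSize_incl]
    have : 1 / (4 * (matSize (A.a 0) + 1)) * matSize (A.a 0) ≤ 1 / 4 := by
      rw [div_mul_eq_mul_div, div_le_div_iff₀ (by positivity) (by norm_num)]
      linarith
    linarith

open Classical in
lemma classTrace_incl_le {G : Type u} [Group G] {H : Subgroup G} (C : ConjClasses G)
    (Y : Finset (ConjClasses H)) (x y : MonoidAlgebra ℂ H)
    (hy : ∀ h ∈ y.coeff.support, ConjClasses.mk h ∈ Y) :
    ‖classTrace C (MonoidAlgebra.mapDomainRingHom ℂ H.subtype x) -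
      ∑ Z ∈ Y.filter (fun Z => ∃ h : H, ConjClasses.mk h = Z ∧ ConjClasses.mk (h : G) = C),
          classTrace Z x‖ ≤ l1Size (x - y) := by
  set Y' := Y.filter (fun Z => ∃ h : H, ConjClasses.mk h = Z ∧ ConjClasses.mk (h : G) = C)
    with hY'
  set w : H → ℂ := fun h =>
    if ConjClasses.mk (h : G) = C ∧ ConjClasses.mk h ∉ Y then x.coeff h else 0 with hw
  have hwn : ∀ h, ‖w h‖ ≤ ‖(x - y).coeff h‖ := by
    intro h
    simp only [hw]
    split_ifs with hh
    · have : y.coeff h = 0 := Finsupp.notMem_support_iff.1 fun h' => hh.2 (hy h h')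
      simp [MonoidAlgebra.coeff_sub, this]
    · simp
  have e : classTrace C (MonoidAlgebra.mapDomainRingHom ℂ H.subtype x) =
      (∑ Z ∈ Y', classTrace Z x) + ∑ h ∈ x.coeff.support, w h := by
    rw [classTrace_incl]
    simp only [classTrace_apply, Finsupp.sum]
    rw [Finset.sum_comm, ← Finset.sum_add_distrib]
    refine Finset.sum_congr rfl fun h _ => ?_
    rw [Finset.sum_ite_eq]
    have hconj : ∀ h' : H, ConjClasses.mk h' = ConjClasses.mk h →
        ConjClasses.mk (h' : G) = ConjClasses.mk (h : G) := fun h' hh =>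
      ConjClasses.mk_eq_mk_iff_isConj.2
        (H.subtype.map_isConj (ConjClasses.mk_eq_mk_iff_isConj.1 hh))
    simp only [hw, hY', Finset.mem_filter]
    by_cases h1 : ConjClasses.mk (h : G) = C
    · by_cases h2 : ConjClasses.mk h ∈ Y
      · rw [if_pos h1, if_pos ⟨h2, h, rfl, h1⟩, if_neg (fun hc => hc.2 h2), add_zero]
      · rw [if_pos h1, if_neg (fun hc => h2 hc.1), if_pos ⟨h1, h2⟩, zero_add]
    · rw [if_neg h1, if_neg, if_neg (fun hc => h1 hc.1), add_zero]
      rintro ⟨_, h', hh', hC⟩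
      exact h1 ((hconj h' hh').symm.trans hC)
  rw [e, add_sub_cancel_left]
  refine (norm_sum_le _ _).trans ?_
  refine (Finset.sum_le_sum fun h _ => hwn h).trans ?_
  rw [l1Size_eq (x - y) (s := x.coeff.support ∪ (x - y).coeff.support) Finset.subset_union_right]
  exact Finset.sum_le_sum_of_subset_of_nonneg Finset.subset_union_left
    fun _ _ _ => norm_nonneg _

/-- Local vanishing principle: twists inside finitely generated subgroups suffice. -/
theorem hsTrace_eq_zero_of_local {G : Type u} [Group G] {q : ℕ} {e : Fin q → Fin q → G → ℂ}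
    (he : IsIdempotentMatrix e) (C : ConjClasses G)
    (htw : ∀ H : Subgroup G, H.FG → ∀ x : H, ConjClasses.mk (x : G) = C →
      ∀ (K : Finset H) (δ : ℝ), 0 < δ → Nonempty (Twist H x K δ)) :
    hsTrace e C = 0 := by
  classical
  obtain ⟨A⟩ := exists_approx he (by norm_num : (0 : ℝ) < 1 / 8) le_rfl
  have h0 : 0 ≤ matSize (A.a 0) := (baseRing A.H q).nonneg (A.a 0)
  set δ := 1 / (4 * (matSize (A.a 0) + 1)) with hδ
  have hδ0 : 0 < δ := by positivity
  have hsmall : δ * matSize (A.a 0) + 2 * (1 / 8) ≤ 1 / 2 := by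
    have : δ * matSize (A.a 0) ≤ 1 / 4 := by
      rw [hδ, div_mul_eq_mul_div, div_le_div_iff₀ (by positivity) (by norm_num)]
      linarith
    linarith
  have hcls : ∀ Z : ConjClasses A.H, (∃ h : A.H, ConjClasses.mk h = Z ∧
      ConjClasses.mk (h : G) = C) →
      Tendsto (fun n => ((classRing Z).matrix q).T (A.a n)) atTop (𝓝 0) := by
    rintro Z ⟨h, rfl, hC⟩
    obtain ⟨t⟩ := htw A.H A.fg h hC A.K δ hδ0
    exact t.tendsto_zero hδ0.le A.a A.defect A.supp A.near hsmall
  refine tendsto_nhds_unique (A.conv C) ?_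
  rw [Metric.tendsto_nhds]
  intro ε hε
  obtain ⟨m, hm⟩ := A.cauchy (ε / 3) (by positivity)
  set Y : Finset (ConjClasses A.H) :=
    ((Finset.univ : Finset (Fin q × Fin q)).biUnion
      fun p => (A.a m p.1 p.2).coeff.support).image ConjClasses.mk with hY
  set Y' := Y.filter (fun Z => ∃ h : A.H, ConjClasses.mk h = Z ∧ ConjClasses.mk (h : G) = C)
    with hY'
  have hY0 : Tendsto (fun n => ∑ Z ∈ Y', ((classRing Z).matrix q).T (A.a n)) atTop (𝓝 0) := by
    have := tendsto_finsetSum Y' (fun Z hZ => hcls Z (Finset.mem_filter.1 hZ).2)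
    simpa using this
  filter_upwards [(Metric.tendsto_nhds.1 hY0) (ε / 3) (by positivity), eventually_ge_atTop m]
    with n hn hnm
  rw [dist_zero_right] at hn ⊢
  have hdiff : ‖((classRing C).matrix q).T (inclMat A.H q (A.a n)) -
      ∑ Z ∈ Y', ((classRing Z).matrix q).T (A.a n)‖ ≤ ε / 3 := by
    simp only [matRing_T]
    rw [Finset.sum_comm (s := Y'), ← Finset.sum_sub_distrib]
    refine (norm_sum_le _ _).trans (le_trans ?_ (hm n hnm))
    refine Finset.sum_le_sum fun i _ => le_trans ?_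
      (Finset.single_le_sum (f := fun j => l1Size ((A.a n - A.a m) i j))
        (fun j _ => l1Size_nonneg _) (Finset.mem_univ i))
    exact classTrace_incl_le C Y (A.a n i i) (A.a m i i) fun h hh =>
      Finset.mem_image.2 ⟨h, Finset.mem_biUnion.2 ⟨(i, i), Finset.mem_univ _, hh⟩, rfl⟩
  calc ‖((classRing C).matrix q).T (inclMat A.H q (A.a n))‖
      ≤ ‖((classRing C).matrix q).T (inclMat A.H q (A.a n)) -
          ∑ Z ∈ Y', ((classRing Z).matrix q).T (A.a n)‖ +
        ‖∑ Z ∈ Y', ((classRing Z).matrix q).T (A.a n)‖ := norm_le_norm_sub_add _ _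
    _ < ε := by linarith

end Vale.Agent.P184
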